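import Vale.Agent.P141.H433.TailW

/-!
# The crude lemma for paths, homogeneous in the slots

No bound on the line energies: the cost of the change of the multiplier is weighted with the row
traces of the slots.
-/

set_option linter.unusedSectionVars false

namespace Vale.Agent.P141.H433

open Finset Matrix Vale.Agent.P075 Vale.Agent.P141.PL Vale.Agent.P141.H103 Vale.Agent.P141.H170
open Vale.Agent.P141.PL.H588 (Xg Xs hd Pl cd dl)
open Vale.Agent.P141.H736 (Agree Path sqQ sqb)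
open Vale.Agent.P141.H958 (L2E pwr)

noncomputable section

open scoped Classical

variable {L : ℕ} {U : ℕ → ℤ → ℤ → Matrix (Ix L) (Ix L) ℝ} {F H : ℤ → ℤ → ℝ}

/-- the moving part of the defect of the own energy, means at scale `k + 1 + r` -/
def mw (U : ℕ → ℤ → ℤ → Matrix (Ix L) (Ix L) ℝ) (F : ℤ → ℤ → ℝ) (N : ℕ) (R S : ℤ)
    (k r : ℕ) : ℝ :=
  (4 : ℝ) ^ (k + 1) * ∑ m ∈ iv (N - (k + 1)) S, ∑ j ∈ iv (N - (k + 1)) R, wo U F k r j m

theorem mw_nonneg (N : ℕ) (R S : ℤ) (k r : ℕ) : 0 ≤ mw U F N R S k r :=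
  mul_nonneg (by positivity) (sum_nonneg fun _ _ => sum_nonneg fun _ _ => wo_nonneg ..)

theorem mw_eq {N k : ℕ} (h : k < N) (R S : ℤ) (r : ℕ) :
    mw U F N R S k r = 2 ^ (k + 1) * ∑ x ∈ iv N S, ∑ j ∈ iv (N - (k + 1)) R,
      (rt L F (k + 1) j x + 4 * rt L F (k + 1 + r) (ix r j) x) * vd U k x j := by
  unfold mw wo vw
  have e : ∑ m ∈ iv (N - (k + 1)) S, ∑ j ∈ iv (N - (k + 1)) R,
      (1 / 2 : ℝ) * (((2 : ℝ) ^ k)⁻¹ * ∑ x ∈ iv (k + 1) m,
        (rt L F (k + 1) j x + 4 * rt L F (k + 1 + r) (ix r j) x) * vd U k x j)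
      = ((2 : ℝ) ^ (k + 1))⁻¹ * ∑ x ∈ iv N S, ∑ j ∈ iv (N - (k + 1)) R,
        (rt L F (k + 1) j x + 4 * rt L F (k + 1 + r) (ix r j) x) * vd U k x j := by
    have e1 := sum_iv_nest (N - (k + 1)) (k + 1) S (fun x => ∑ j ∈ iv (N - (k + 1)) R,
      (rt L F (k + 1) j x + 4 * rt L F (k + 1 + r) (ix r j) x) * vd U k x j)
    rw [show N - (k + 1) + (k + 1) = N by omega] at e1
    rw [← e1, mul_sum]
    refine sum_congr rfl fun m _ => ?_
    rw [sum_comm, mul_sum]
    refine sum_congr rfl fun j _ => ?_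
    rw [pow_succ, mul_inv]
    ring
  rw [e]
  have h4 : (4 : ℝ) ^ (k + 1) = 2 ^ (k + 1) * 2 ^ (k + 1) := by
    rw [show (4 : ℝ) = 2 * 2 by norm_num, mul_pow]
  rw [h4]
  have h2 : (2 : ℝ) ^ (k + 1) ≠ 0 := by positivity
  field_simp

/-- the untied cost at scale `k` -/
def wh (U : ℕ → ℤ → ℤ → Matrix (Ix L) (Ix L) ℝ) (H : ℤ → ℤ → ℝ) (N : ℕ) (S T : ℤ)
    (k : ℕ) : ℝ :=
  ∑ r ∈ range (N - (k + 1) + 1), (3 / 4 : ℝ) ^ r * (2 ^ (k + 1) * ∑ x ∈ iv N S,
    ∑ j ∈ iv (N - (k + 1)) T, (rt L H (k + 1) j x + rt L H (k + 1 + r) (ix r j) x) * vd U k x j)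

theorem wh_nonneg (N : ℕ) (S T : ℤ) (k : ℕ) : 0 ≤ wh U H N S T k :=
  sum_nonneg fun _ _ => mul_nonneg (by positivity) (mul_nonneg (by positivity)
    (sum_nonneg fun _ _ => sum_nonneg fun _ _ => mul_nonneg
      (add_nonneg (rt_nonneg ..) (rt_nonneg ..)) (vd_nonneg ..)))

theorem sum_mw_le {N k : ℕ} (h : k < N) (S T : ℤ) :
    ∑ r ∈ range (N - (k + 1) + 1), (3 / 4 : ℝ) ^ r * mw U H N T S k r
      ≤ 4 * wh U H N S T k := by
  unfold wh
  rw [mul_sum]
  refine sum_le_sum fun r _ => ?_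
  rw [mw_eq h, mul_left_comm (4 : ℝ)]
  refine mul_le_mul_of_nonneg_left ?_ (by positivity : (0 : ℝ) ≤ (3 / 4) ^ r)
  rw [mul_left_comm (4 : ℝ)]
  refine mul_le_mul_of_nonneg_left ?_ (by positivity : (0 : ℝ) ≤ 2 ^ (k + 1))
  rw [mul_sum]
  refine sum_le_sum fun x _ => ?_
  rw [mul_sum]
  refine sum_le_sum fun j _ => ?_
  have h1 := mul_nonneg (rt_nonneg (L := L) H (k + 1) j x) (vd_nonneg U k x j)
  have h2 := mul_nonneg (rt_nonneg (L := L) H (k + 1 + r) (ix r j) x) (vd_nonneg U k x j)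
  linarith

theorem own_stepW (hU : ∀ k x n, Ct (U k x n))
    {N k a : ℕ} {R S : ℤ} (h : k < N) (h1 : k + 1 ≤ a) (h2 : a ≤ N) :
    EW N R S (k + 1) (fm U F (k + 1)) a ≤ EW N R S k (fm U F k) a
      + (28 * st L N R S F k + mw U F N R S k (a - (k + 1))) := by
  obtain ⟨r, rfl⟩ := Nat.exists_eq_add_of_le h1
  rw [Nat.add_sub_cancel_left]
  unfold EW st mw
  have e1 : N - k = (N - (k + 1)) + 1 := by omega
  have e2 : N - (k + 1) = (N - (k + 1 + r)) + r := by omega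
  have hs : ∑ m ∈ iv (N - (k + 1)) S, ∑ n ∈ iv (N - (k + 1 + r)) R,
      (fm U F (k + 1) (k + 1 + r) n m * fm U F (k + 1) (k + 1 + r) n m).trace
      ≤ ∑ m ∈ iv (N - (k + 1)) S, ∑ n ∈ iv (N - (k + 1 + r)) R,
        ((1 / 2) * ((fm U F k (k + 1 + r) n (2 * m) * fm U F k (k + 1 + r) n (2 * m)).trace
        + (fm U F k (k + 1 + r) n (2 * m + 1) * fm U F k (k + 1 + r) n (2 * m + 1)).trace)
        + ((2 : ℝ) ^ r)⁻¹ * ∑ j ∈ iv r n, (28 * sp L F k j m + wo U F k r j m)) :=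
    sum_le_sum fun m _ => sum_le_sum fun n _ => own_ptW hU
  refine (mul_le_mul_of_nonneg_left hs (by positivity)).trans (le_of_eq ?_)
  have hA : ∑ m ∈ iv (N - k) S, ∑ n ∈ iv (N - (k + 1 + r)) R,
      (fm U F k (k + 1 + r) n m * fm U F k (k + 1 + r) n m).trace
      = ∑ m ∈ iv (N - (k + 1)) S, ∑ n ∈ iv (N - (k + 1 + r)) R,
        ((fm U F k (k + 1 + r) n (2 * m) * fm U F k (k + 1 + r) n (2 * m)).trace
        + (fm U F k (k + 1 + r) n (2 * m + 1) * fm U F k (k + 1 + r) n (2 * m + 1)).trace) := by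
    rw [e1, H588.sum_iv_succ]
    exact sum_congr rfl fun m _ => sum_add_distrib.symm
  have hD : ∀ m, ∑ n ∈ iv (N - (k + 1 + r)) R, ∑ j ∈ iv r n,
      (28 * sp L F k j m + wo U F k r j m)
      = ∑ j ∈ iv (N - (k + 1)) R, (28 * sp L F k j m + wo U F k r j m) := by
    intro m
    rw [sum_iv_nest, ← e2]
  have e3 : 28 * ((4 : ℝ) ^ (k + 1) * ∑ m ∈ iv (N - (k + 1)) S, ∑ n ∈ iv (N - (k + 1)) R,
      sp L F k n m) + (4 : ℝ) ^ (k + 1) * ∑ m ∈ iv (N - (k + 1)) S, ∑ j ∈ iv (N - (k + 1)) R,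
        wo U F k r j m
      = (4 : ℝ) ^ (k + 1) * ∑ m ∈ iv (N - (k + 1)) S, ∑ j ∈ iv (N - (k + 1)) R,
        (28 * sp L F k j m + wo U F k r j m) := by
    simp only [sum_add_distrib, ← mul_sum]
    ring
  rw [hA, e3]
  have e4 : ∑ m ∈ iv (N - (k + 1)) S, ∑ n ∈ iv (N - (k + 1 + r)) R,
        ((1 / 2) * ((fm U F k (k + 1 + r) n (2 * m) * fm U F k (k + 1 + r) n (2 * m)).trace
        + (fm U F k (k + 1 + r) n (2 * m + 1) * fm U F k (k + 1 + r) n (2 * m + 1)).trace)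
        + ((2 : ℝ) ^ r)⁻¹ * ∑ j ∈ iv r n, (28 * sp L F k j m + wo U F k r j m))
      = (1 / 2) * ∑ m ∈ iv (N - (k + 1)) S, ∑ n ∈ iv (N - (k + 1 + r)) R,
        ((fm U F k (k + 1 + r) n (2 * m) * fm U F k (k + 1 + r) n (2 * m)).trace
        + (fm U F k (k + 1 + r) n (2 * m + 1) * fm U F k (k + 1 + r) n (2 * m + 1)).trace)
        + ((2 : ℝ) ^ r)⁻¹ * ∑ m ∈ iv (N - (k + 1)) S, ∑ j ∈ iv (N - (k + 1)) R,
          (28 * sp L F k j m + wo U F k r j m) := by
    rw [mul_sum, mul_sum, ← sum_add_distrib]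
    refine sum_congr rfl fun m _ => ?_
    rw [sum_add_distrib, ← mul_sum, ← mul_sum, hD]
  rw [e4]
  have h4 : (4 : ℝ) ^ (k + 1) = 2 ^ (k + 1) * 2 ^ (k + 1) := by
    rw [← mul_pow]; norm_num
  have h5 : (2 : ℝ) ^ (k + 1 + r) = 2 ^ (k + 1) * 2 ^ r := pow_add _ _ _
  have h6 : (2 : ℝ) ^ r ≠ 0 := by positivity
  rw [h4, h5, pow_succ]
  field_simp

theorem WW_split (N k : ℕ) (t : ℝ) (ht : 0 ≤ t) (f : ℕ → ℝ) :
    WW N (k + 1) (fun a => t + f (a - (k + 1)))
      ≤ 4 * t + ∑ r ∈ range (N - (k + 1) + 1), (3 / 4 : ℝ) ^ r * f r := by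
  unfold WW
  have e : ∑ r ∈ range (N - (k + 1) + 1), (3 / 4 : ℝ) ^ r * (t + f (k + 1 + r - (k + 1)))
      = (∑ r ∈ range (N - (k + 1) + 1), (3 / 4 : ℝ) ^ r) * t
        + ∑ r ∈ range (N - (k + 1) + 1), (3 / 4 : ℝ) ^ r * f r := by
    rw [sum_mul, ← sum_add_distrib]
    refine sum_congr rfl fun r _ => ?_
    rw [Nat.add_sub_cancel_left]
    ring
  rw [e]
  exact add_le_add_left (mul_le_mul_of_nonneg_right (H736.geo_le _) ht) _

theorem GW_erW_le {N k : ℕ} (R S T : ℤ) (c : ℤ) :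
    GW N R S T (k + 1) c (erW U F H k)
      ≤ 14 * st L N R S F k + 14 * st L N T S H k
        + GW N R S T (k + 1) c (wf U F H k) := by
  have e0 : GW N R S T (k + 1) c (erW U F H k)
      = GW N R S T (k + 1) c (fun n n' m => (7 * cd (L + (k + 1)) (L + k) F n m
        + (1 / 2) * (dl (L + k) (L + k) F n (2 * m) + dl (L + k) (L + k) F n (2 * m + 1)))
        + (7 * cd (L + (k + 1)) (L + k) H n' m
        + (dl (L + k) (L + k) H n' (2 * m) + dl (L + k) (L + k) H n' (2 * m + 1))))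
        + GW N R S T (k + 1) c (wf U F H k) := by
    unfold GW
    rw [← mul_add, ← sum_add_distrib]
    congr 1
    refine sum_congr rfl fun m _ => ?_
    rw [← sum_add_distrib]
    refine sum_congr rfl fun n _ => ?_
    split_ifs
    · rfl
    · ring
  rw [e0]
  refine add_le_add_left ?_ _
  unfold GW
  set M := N - (k + 1) with hM
  have e : 14 * st L N R S F k + 14 * st L N T S H k
      = (4 : ℝ) ^ (k + 1) * ∑ m ∈ iv M S, (∑ n ∈ iv M R, 14 * sp L F k n m
        + ∑ n' ∈ iv M T, 14 * sp L H k n' m) := by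
    unfold st
    simp only [sum_add_distrib, ← mul_sum]
    ring
  rw [e]
  refine mul_le_mul_of_nonneg_left (sum_le_sum fun m _ => ?_) (by positivity)
  have hn : ∀ n', 0 ≤ 14 * sp L H k n' m := fun n' =>
    mul_nonneg (by norm_num) (sp_nonneg ..)
  have q := H588.sum_refl_le M R T (c - m) (fun n' => 14 * sp L H k n' m) hn
  refine le_trans ?_ (add_le_add_right q _)
  rw [← sum_add_distrib]
  refine sum_le_sum fun n _ => ?_
  have hs := sp_nonneg (L := L) (F := F) k n m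
  split_ifs with hc
  · unfold sp
    have h2 := H588.dl_nonneg (L + k) (L + k) H (c - m - n) (2 * m)
    have h3 := H588.dl_nonneg (L + k) (L + k) H (c - m - n) (2 * m + 1)
    have h4 := H588.dl_nonneg (L + k) (L + k) F n (2 * m)
    have h5 := H588.dl_nonneg (L + k) (L + k) F n (2 * m + 1)
    linarith
  · linarith

theorem mw_U1 (F : ℤ → ℤ → ℝ) (N : ℕ) (R S : ℤ) (k r : ℕ) : mw (U1 L) F N R S k r = 0 := by
  unfold mw wo vw
  simp only [U1_vd, mul_zero, sum_const_zero]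

/-- **The crude lemma for the low levels, for paths, with row traces**: no bound on the line
energies. `wf`: tied cost of the change of the multiplier, `wh`: untied cost. -/
theorem lo_pathW {N : ℕ} {R S T : ℤ} {c : ℕ → ℤ} (hc : Pl c) (hU : ∀ k x n, Ct (U k x n))
    {Q Q' : ℕ → ℤ → ℤ → Prop} {F H : ℕ → ℤ → ℤ → ℝ} {D D' : ℝ}
    (eF : L2E (L + N) R S Q F D) (eH : L2E (L + N) T S Q' H D') :
    ∑ k ∈ range N, GW N R S T (k + 1) (c (k + 1)) (mt U (F (L + (k + 1))) (H (L + (k + 1))) k)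
      ≤ 10 ^ 4 * (((4 : ℝ) ^ L)⁻¹ * (D + D')
        + ∑ k ∈ range N, GW N R S T (k + 1) (c (k + 1))
          (wf U (F (L + (k + 1))) (H (L + (k + 1))) k)
        + ∑ k ∈ range N, wh U (H (L + (k + 1))) N S T k) := by
  -- changes
  set cF : ℕ → ℝ := fun k => chq L N R S (Q (L + k)) (F (L + (k + 1))) k with hcF
  set cH : ℕ → ℝ := fun k => chq L N T S (Q' (L + k)) (H (L + (k + 1))) k with hcH
  have h := totalW (Nat.zero_le N) hc (P := fun k => fm (U1 L) (F (L + k)) k)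
    (P' := fun k => fm (U1 L) (F (L + (k + 1))) k)
    (Q := fun k => fm U (H (L + k)) k) (Q' := fun k => fm U (H (L + (k + 1))) k)
    (R := R) (S := S) (T := T)
    (g := fun k n n' m => (1 / 2) * mt U (F (L + (k + 1))) (H (L + (k + 1))) k n n' m
        - erW U (F (L + (k + 1))) (H (L + (k + 1))) k n n' m)
    (dE := fun k a => 28 * st L N R S (F (L + (k + 1))) k
      + mw (U1 L) (F (L + (k + 1))) N R S k (a - (k + 1)))
    (dF := fun k a => 28 * st L N T S (H (L + (k + 1))) k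
      + mw U (H (L + (k + 1))) N T S k (a - (k + 1)))
    (x := fun k => 73 * (cF k + cH k))
    (fun k _ _ => fm_out N k) (fun k _ _ => fm_out N k) (fun k _ _ => fm_out N k)
    (fun k _ _ => fm_out N k) (fun k a n m => fm_symm k a n m) (fun k a n m => fm_symm k a n m)
    (fun k a n m => fm_symm k a n m) (fun k a n m => fm_symm k a n m)
    (fun k _ hk n n' m => mid_ptW hU)
    (fun k _ h2 a h3 h4 => own_stepW U1_ct h2 h3 h4)
    (fun k _ h2 a h3 h4 => own_stepW hU h2 h3 h4)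
    (fun k _ hk => by
      have a1 : Agree (L + N) R S (L + k) (Q (L + k)) (F (L + (k + 1))) (F (L + k)) :=
        eF.path (L + k) (by omega)
      have a2 : Agree (L + N) T S (L + k) (Q' (L + k)) (H (L + (k + 1))) (H (L + k)) :=
        eH.path (L + k) (by omega)
      have w1 := MW_change (U := U) (U' := U1 L) U1_ct hU a1 a2 (c k)
      have w2 := WW_change (U := U1 L) U1_ct hk.le a1
      have w3 := WW_change (U := U) hU hk.le a2
      simp only [hcF, hcH]
      linarith)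
  -- the gains
  have hGW : ∀ k, GW N R S T (k + 1) (c (k + 1))
      (fun n n' m => (1 / 2) * mt U (F (L + (k + 1))) (H (L + (k + 1))) k n n' m
        - erW U (F (L + (k + 1))) (H (L + (k + 1))) k n n' m)
      = (1 / 2) * GW N R S T (k + 1) (c (k + 1)) (mt U (F (L + (k + 1))) (H (L + (k + 1))) k)
        - GW N R S T (k + 1) (c (k + 1)) (erW U (F (L + (k + 1))) (H (L + (k + 1))) k) := by
    intro k
    unfold GW
    have e : ∀ m n : ℤ, (if c (k + 1) - m - n ∈ iv (N - (k + 1)) T then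
        (1 / 2) * mt U (F (L + (k + 1))) (H (L + (k + 1))) k n (c (k + 1) - m - n) m
          - erW U (F (L + (k + 1))) (H (L + (k + 1))) k n (c (k + 1) - m - n) m else 0)
        = (1 / 2) * (if c (k + 1) - m - n ∈ iv (N - (k + 1)) T then
          mt U (F (L + (k + 1))) (H (L + (k + 1))) k n (c (k + 1) - m - n) m else 0)
          - (if c (k + 1) - m - n ∈ iv (N - (k + 1)) T then
          erW U (F (L + (k + 1))) (H (L + (k + 1))) k n (c (k + 1) - m - n) m else 0) := by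
      intro m n
      split_ifs <;> ring
    simp only [e, sum_sub_distrib, ← mul_sum]
    ring
  rw [Nat.Ico_zero_eq_range] at h
  simp only [hGW, sum_sub_distrib, ← mul_sum] at h
  have st0 : ∀ (R S : ℤ) (F : ℤ → ℤ → ℝ) (k : ℕ), 0 ≤ st L N R S F k := fun R S F k =>
    mul_nonneg (by positivity) (sum_nonneg fun _ _ => sum_nonneg fun _ _ => sp_nonneg ..)
  have hdef : ∑ k ∈ range N, (WW N (k + 1) (fun a => 28 * st L N R S (F (L + (k + 1))) k
      + mw (U1 L) (F (L + (k + 1))) N R S k (a - (k + 1)))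
      + WW N (k + 1) (fun a => 28 * st L N T S (H (L + (k + 1))) k
      + mw U (H (L + (k + 1))) N T S k (a - (k + 1))))
      ≤ 112 * ∑ k ∈ range N, st L N R S (F (L + (k + 1))) k
        + 112 * ∑ k ∈ range N, st L N T S (H (L + (k + 1))) k
        + 4 * ∑ k ∈ range N, wh U (H (L + (k + 1))) N S T k := by
    rw [mul_sum, mul_sum, mul_sum, ← sum_add_distrib, ← sum_add_distrib]
    refine sum_le_sum fun k hk => ?_
    have hk' := mem_range.1 hk
    have u1 := WW_split N k (28 * st L N R S (F (L + (k + 1))) k)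
      (mul_nonneg (by norm_num) (st0 ..)) (mw (U1 L) (F (L + (k + 1))) N R S k)
    have u2 := WW_split N k (28 * st L N T S (H (L + (k + 1))) k)
      (mul_nonneg (by norm_num) (st0 ..)) (mw U (H (L + (k + 1))) N T S k)
    have u3 := sum_mw_le (U := U) (H := H (L + (k + 1))) hk' S T
    have u4 : ∑ r ∈ range (N - (k + 1) + 1), (3 / 4 : ℝ) ^ r
        * mw (U1 L) (F (L + (k + 1))) N R S k r = 0 :=
      sum_eq_zero fun r _ => by rw [mw_U1, mul_zero]
    rw [u4] at u1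
    linarith
  have her : ∑ k ∈ range N, GW N R S T (k + 1) (c (k + 1))
      (erW U (F (L + (k + 1))) (H (L + (k + 1))) k)
      ≤ 14 * ∑ k ∈ range N, st L N R S (F (L + (k + 1))) k
        + 14 * ∑ k ∈ range N, st L N T S (H (L + (k + 1))) k
        + ∑ k ∈ range N, GW N R S T (k + 1) (c (k + 1))
          (wf U (F (L + (k + 1))) (H (L + (k + 1))) k) := by
    rw [mul_sum, mul_sum, ← sum_add_distrib, ← sum_add_distrib]
    exact sum_le_sum fun k _ => GW_erW_le R S T (c (k + 1))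
  have s1 := sum_st_path (L := L) le_rfl (N := N) eF.path
  have s2 := sum_st_path (L := L) le_rfl (N := N) eH.path
  have n1 := ee_nonneg (L := L) (F := F (L + N)) N R S N
  have n2 := ee_nonneg (L := L) (F := H (L + N)) N T S N
  have p1 := path_energy eF
  have p2 := path_energy eH
  have w1 := EW_start (U := U1 L) U1_ct N R S (F (L + 0))
  have w2 := EW_start (U := U) hU N T S (H (L + 0))
  have c1 : 0 ≤ ∑ k ∈ range N, cF k := sum_nonneg fun k _ => chq_nonneg ..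
  have c2 : 0 ≤ ∑ k ∈ range N, cH k := sum_nonneg fun k _ => chq_nonneg ..
  have z1 := ee_nonneg (L := L) (F := F (L + 0)) N R S 0
  have z2 := ee_nonneg (L := L) (F := H (L + 0)) N T S 0
  have z3 : 0 ≤ ∑ k ∈ range N, GW N R S T (k + 1) (c (k + 1))
      (wf U (F (L + (k + 1))) (H (L + (k + 1))) k) := by
    refine sum_nonneg fun k _ => mul_nonneg (by positivity) (sum_nonneg fun m _ =>
      sum_nonneg fun n _ => ?_)
    split_ifs
    · exact wf_nonneg ..
    · exact le_rfl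
  have z4 : 0 ≤ ∑ k ∈ range N, wh U (H (L + (k + 1))) N S T k :=
    sum_nonneg fun k _ => wh_nonneg ..
  have hx : ∑ k ∈ range N, (cF k + cH k) = ∑ k ∈ range N, cF k + ∑ k ∈ range N, cH k :=
    sum_add_distrib
  have i1 : ∑ k ∈ range N, chq L N R S (Q (L + k)) (F (L + (k + 1))) k = ∑ k ∈ range N, cF k :=
    rfl
  have i2 : ∑ k ∈ range N, chq L N T S (Q' (L + k)) (H (L + (k + 1))) k = ∑ k ∈ range N, cH k :=
    rfl
  rw [i1] at s1 p1
  rw [i2] at s2 p2
  rw [hx] at h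
  rw [mul_add ((4 : ℝ) ^ L)⁻¹]
  linarith

end

end Vale.Agent.P141.H433
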