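import Vale.Agent.P141.H433.LoPath
import Vale.Agent.P141.H420.FlowM

/-!
# The mass of the change of the light multiplier `S = √l K⁻¹`

`K² = l + G` with `G` a martingale.  The potential `tr S² + tr S` telescopes: `hG_light`.
-/

set_option linter.unusedSectionVars false

namespace Vale.Agent.P141.H433

open Finset Matrix Vale.Agent.P075 Vale.Agent.P141.PL Vale.Agent.P141.H103 Vale.Agent.P141.H420

noncomputable section

variable {κ : Type*} [Fintype κ] [DecidableEq κ]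

/-- the size of the change of a multiplier at a node: children `P`, `Q`, parent `R` -/
def vq (P Q R : Matrix κ κ ℝ) : ℝ :=
  (((1 / 2 : ℝ) • (P - Q)) * ((1 / 2 : ℝ) • (P - Q))ᵀ).trace +
    √(((R - (1 / 2 : ℝ) • (P + Q)) * (R - (1 / 2 : ℝ) • (P + Q))ᵀ).trace)

theorem vq_nonneg (P Q R : Matrix κ κ ℝ) : 0 ≤ vq P Q R :=
  add_nonneg (psd_mul_transpose _).trace_nonneg (Real.sqrt_nonneg _)

theorem vq_one_sub (P Q R : Matrix κ κ ℝ) : vq (1 - P) (1 - Q) (1 - R) = vq P Q R := by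
  have e1 : (1 / 2 : ℝ) • ((1 - P) - (1 - Q)) = -((1 / 2 : ℝ) • (P - Q)) := by module
  have e2 : (1 - R) - (1 / 2 : ℝ) • ((1 - P) + (1 - Q)) = -(R - (1 / 2 : ℝ) • (P + Q)) := by
    module
  unfold vq
  rw [e1, e2, transpose_neg, neg_mul_neg, transpose_neg, neg_mul_neg]

/-- the mean of the inverses is above the inverse of the root -/
theorem inv_mean {l : ℝ} {G D K Kp Km : Matrix κ κ ℝ} (h : Nd l G D K Kp Km) :
    ((1 / 2 : ℝ) • (Kp⁻¹ + Km⁻¹) - K⁻¹).PosSemidef := by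
  have hR := h.pdK.inv.isHermitian
  have hp := h.pdp.inv.isHermitian
  have hm := h.pdm.inv.isHermitian
  have conj : ∀ {X Y : Matrix κ κ ℝ}, X.PosSemidef → Y.IsHermitian → (Y * X * Y).PosSemidef := by
    intro X Y hX hY
    have := hX.conjTranspose_mul_mul_same Y
    rwa [hY.eq] at this
  have e1 : (Kp⁻¹ - K⁻¹) * Kp * (Kp⁻¹ - K⁻¹)
      = Kp⁻¹ - K⁻¹ - K⁻¹ + K⁻¹ * Kp * K⁻¹ := by
    rw [Matrix.sub_mul, inv_mul_self' h.pdp, Matrix.mul_sub, Matrix.sub_mul, Matrix.sub_mul,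
      Matrix.one_mul, Matrix.one_mul, Matrix.mul_assoc K⁻¹ Kp Kp⁻¹, mul_inv_self' h.pdp,
      Matrix.mul_one]
    abel
  have e2 : (Km⁻¹ - K⁻¹) * Km * (Km⁻¹ - K⁻¹)
      = Km⁻¹ - K⁻¹ - K⁻¹ + K⁻¹ * Km * K⁻¹ := by
    rw [Matrix.sub_mul, inv_mul_self' h.pdm, Matrix.mul_sub, Matrix.sub_mul, Matrix.sub_mul,
      Matrix.one_mul, Matrix.one_mul, Matrix.mul_assoc K⁻¹ Km Km⁻¹, mul_inv_self' h.pdm,
      Matrix.mul_one]
    abel
  have e3 : K⁻¹ * (K - (1 / 2 : ℝ) • (Kp + Km)) * K⁻¹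
      = K⁻¹ - (1 / 2 : ℝ) • (K⁻¹ * Kp * K⁻¹ + K⁻¹ * Km * K⁻¹) := by
    rw [Matrix.mul_sub, Matrix.sub_mul, inv_mul_self' h.pdK, Matrix.one_mul, Matrix.mul_smul,
      Matrix.smul_mul, Matrix.mul_add, Matrix.add_mul]
  have e : (1 / 2 : ℝ) • (Kp⁻¹ + Km⁻¹) - K⁻¹
      = (1 / 2 : ℝ) • ((Kp⁻¹ - K⁻¹) * Kp * (Kp⁻¹ - K⁻¹))
        + (1 / 2 : ℝ) • ((Km⁻¹ - K⁻¹) * Km * (Km⁻¹ - K⁻¹))
        + K⁻¹ * (K - (1 / 2 : ℝ) • (Kp + Km)) * K⁻¹ := by
    rw [e1, e2, e3]
    module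
  rw [e]
  exact (((conj h.pdp.posSemidef (hp.sub hR)).smul (by norm_num)).add
    ((conj h.pdm.posSemidef (hm.sub hR)).smul (by norm_num))).add (conj h.Kb_le hR)

/-- the potential of a multiplier -/
def pt (S : Matrix κ κ ℝ) : ℝ := (S * S).trace + S.trace

/-- the change of a multiplier whose mean is above the parent -/
theorem vq_le {P Q R : Matrix κ κ ℝ} (hP : P.IsHermitian) (hQ : Q.IsHermitian)
    (hR : R.PosSemidef) (h : ((1 / 2 : ℝ) • (P + Q) - R).PosSemidef) :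
    vq P Q R ≤ (1 / 2) * (pt P + pt Q) - pt R := by
  have tP : Pᵀ = P := tr_symm hP
  have tQ : Qᵀ = Q := tr_symm hQ
  set E := (1 / 2 : ℝ) • (P + Q) - R with hE
  have t1 : (((1 / 2 : ℝ) • (P - Q)) * ((1 / 2 : ℝ) • (P - Q))ᵀ).trace
      = (1 / 2) * ((P * P).trace + (Q * Q).trace)
        - (((1 / 2 : ℝ) • (P + Q)) * ((1 / 2 : ℝ) • (P + Q))).trace := by
    rw [transpose_smul, transpose_sub, tP, tQ]
    simp only [Matrix.smul_mul, Matrix.mul_smul, Matrix.mul_sub, Matrix.sub_mul, Matrix.mul_add,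
      Matrix.add_mul, trace_smul, trace_sub, trace_add, smul_eq_mul]
    ring
  have t2 : (R * R).trace ≤ (((1 / 2 : ℝ) • (P + Q)) * ((1 / 2 : ℝ) • (P + Q))).trace := by
    have e : (1 / 2 : ℝ) • (P + Q) = E + R := by rw [hE]; abel
    rw [e, Matrix.add_mul, Matrix.mul_add, Matrix.mul_add, trace_add, trace_add, trace_add]
    have q1 := P075.trace_mul_nonneg h h
    have q2 := P075.trace_mul_nonneg h hR
    have q3 := P075.trace_mul_nonneg hR h
    linarith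
  have t3 : √(((R - (1 / 2 : ℝ) • (P + Q)) * (R - (1 / 2 : ℝ) • (P + Q))ᵀ).trace) ≤ E.trace := by
    have e : R - (1 / 2 : ℝ) • (P + Q) = -E := by rw [hE]; abel
    have eT : Eᵀ = E := tr_symm h.isHermitian
    rw [e, transpose_neg, eT, neg_mul_neg]
    refine Real.sqrt_le_iff.2 ⟨h.trace_nonneg, ?_⟩
    have q := P075.trace_mul_le_left h (trace_sub_psd h)
    rw [Matrix.smul_mul, Matrix.one_mul, trace_smul, smul_eq_mul] at q
    rw [sq]
    linarith
  have t4 : E.trace = (1 / 2) * (P.trace + Q.trace) - R.trace := by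
    rw [hE, trace_sub, trace_smul, trace_add, smul_eq_mul]
  unfold vq pt
  rw [t1]
  linarith

/-- telescoping over the scales -/
theorem sum_tele {N : ℕ} (T : ℤ) (f : ℕ → ℤ → ℝ) : ∀ K ≤ N,
    ∑ k ∈ range K, (2 : ℝ) ^ (k + 1) * ∑ j ∈ iv (N - (k + 1)) T,
        ((1 / 2) * (f k (2 * j) + f k (2 * j + 1)) - f (k + 1) j)
      = ∑ j ∈ iv N T, f 0 j - 2 ^ K * ∑ j ∈ iv (N - K) T, f K j := by
  intro K
  induction K with
  | zero => intro _; simp
  | succ K ih =>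
    intro hK
    have e : ∑ j ∈ iv (N - K) T, f K j
        = ∑ j ∈ iv (N - (K + 1)) T, (f K (2 * j) + f K (2 * j + 1)) := by
      rw [show N - K = N - (K + 1) + 1 by omega, PL.H588.sum_iv_succ]
    rw [sum_range_succ, ih (by omega), e, sum_sub_distrib, ← mul_sum, pow_succ]
    ring

section light

variable {l : ℝ} {G K : Matrix κ κ ℝ}

theorem light_sq (hl : 0 < l) (hK : K.PosDef) (h : K * K = l • (1 : Matrix κ κ ℝ) + G) :
    (√l • K⁻¹) * (√l • K⁻¹) = 1 - K⁻¹ * G * K⁻¹ := by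
  rw [inv_G_inv hK h, smul_mul_smul_comm, Real.mul_self_sqrt hl.le]
  abel

theorem light_herm (hK : K.PosDef) : (√l • K⁻¹).PosSemidef :=
  hK.inv.posSemidef.smul (Real.sqrt_nonneg l)

/-- the multiplier is a contraction -/
theorem light_ct (hl : 0 < l) (hG : G.PosSemidef) (hK : K.PosDef)
    (h : K * K = l • (1 : Matrix κ κ ℝ) + G) : Ct (√l • K⁻¹) := by
  have t : (√l • K⁻¹)ᵀ = √l • K⁻¹ := tr_symm (light_herm hK).isHermitian
  have q : (1 - (√l • K⁻¹) * (√l • K⁻¹)).PosSemidef := by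
    rw [light_sq hl hK h, sub_sub_cancel]
    have := hG.conjTranspose_mul_mul_same (K⁻¹)
    rwa [hK.inv.isHermitian.eq] at this
  exact ⟨by rwa [t], by rwa [t]⟩

theorem light_le (hl : 0 < l) (hG : G.PosSemidef) (hK : K.PosDef)
    (h : K * K = l • (1 : Matrix κ κ ℝ) + G) : (1 - √l • K⁻¹).PosSemidef := by
  have q := (inv_le hl hG hK h).smul (Real.sqrt_nonneg l)
  rwa [smul_sub, smul_smul, mul_inv_cancel₀ (Real.sqrt_pos.2 hl).ne', one_smul] at q

/-- the complement of the multiplier is a contraction -/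
theorem light_ct' (hl : 0 < l) (hG : G.PosSemidef) (hK : K.PosDef)
    (h : K * K = l • (1 : Matrix κ κ ℝ) + G) : Ct (1 - √l • K⁻¹) := by
  set S := √l • K⁻¹ with hS
  have p0 : S.PosSemidef := light_herm hK
  have p1 : (1 - S).PosSemidef := light_le hl hG hK h
  have t : (1 - S)ᵀ = 1 - S := tr_symm p1.isHermitian
  have q : (1 - (1 - S) * (1 - S)).PosSemidef := by
    have c1 := p1.conjTranspose_mul_mul_same S
    have c2 := p0.conjTranspose_mul_mul_same (1 - S)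
    rw [p0.isHermitian.eq] at c1
    rw [p1.isHermitian.eq] at c2
    have e : 1 - (1 - S) * (1 - S) = S + (S * (1 - S) * S + (1 - S) * S * (1 - S)) := by
      simp only [Matrix.mul_sub, Matrix.sub_mul, Matrix.mul_one, Matrix.one_mul]
      abel
    rw [e]
    exact p0.add (c1.add c2)
  exact ⟨by rwa [t], by rwa [t]⟩

theorem pt_le (hl : 0 < l) (hG : G.PosSemidef) (hK : K.PosDef)
    (h : K * K = l • (1 : Matrix κ κ ℝ) + G) : pt (√l • K⁻¹) ≤ 2 * Fintype.card κ := by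
  have q1 := (light_le hl hG hK h).trace_nonneg
  have q2 : 0 ≤ (K⁻¹ * G * K⁻¹).trace := by
    have := hG.conjTranspose_mul_mul_same (K⁻¹)
    rw [hK.inv.isHermitian.eq] at this
    exact this.trace_nonneg
  unfold pt
  rw [light_sq hl hK h, trace_sub, trace_one]
  rw [trace_sub, trace_one] at q1
  linarith

theorem le_pt (hl : 0 < l) (hG : G.PosSemidef) (hK : K.PosDef)
    (h : K * K = l • (1 : Matrix κ κ ℝ) + G) :
    2 * (Fintype.card κ : ℝ) - 2 * l⁻¹ * G.trace ≤ pt (√l • K⁻¹) := by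
  have q1 := P075.trace_mul_le_left (light_herm (l := l) hK) (light_le hl hG hK h)
  rw [Matrix.one_mul] at q1
  have q2 : (K⁻¹ * G * K⁻¹).trace ≤ l⁻¹ * G.trace := by
    have c := (light_ct hl hG hK h).1
    have t : (√l • K⁻¹)ᵀ = √l • K⁻¹ := tr_symm (light_herm hK).isHermitian
    rw [t] at c
    have q3 := P075.trace_mul_le_left hG c
    rw [Matrix.one_mul] at q3
    have e : ((√l • K⁻¹) * (√l • K⁻¹) * G).trace = l * (K⁻¹ * G * K⁻¹).trace := by
      rw [smul_mul_smul_comm, Real.mul_self_sqrt hl.le, Matrix.smul_mul, trace_smul, smul_eq_mul,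
        Matrix.mul_assoc, trace_mul_comm K⁻¹ (K⁻¹ * G)]
    rw [e] at q3
    rw [inv_mul_eq_div, le_div_iff₀ hl]
    linarith
  unfold pt
  rw [light_sq hl hK h, trace_sub, trace_one] at q1 ⊢
  linarith

end light

/-- **the mass of the change of the light multiplier over the tree below a cell** -/
theorem hG_light {l : ℝ} {N : ℕ} {G K : ℕ → ℤ → Matrix κ κ ℝ} (h : Tr l N G K) (T : ℤ) :
    ∑ k ∈ range N, (2 : ℝ) ^ (k + 1) * ∑ j ∈ iv (N - (k + 1)) T,
      vq (√l • (K k (2 * j))⁻¹) (√l • (K k (2 * j + 1))⁻¹) (√l • (K (k + 1) j)⁻¹)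
      ≤ 2 ^ N * (2 * l⁻¹ * (G N T).trace) := by
  have h1 : ∀ k < N, ∀ j : ℤ,
      vq (√l • (K k (2 * j))⁻¹) (√l • (K k (2 * j + 1))⁻¹) (√l • (K (k + 1) j)⁻¹)
      ≤ (1 / 2) * (pt (√l • (K k (2 * j))⁻¹) + pt (√l • (K k (2 * j + 1))⁻¹))
        - pt (√l • (K (k + 1) j)⁻¹) := by
    intro k hk j
    refine vq_le (light_herm (h.pdK _ _)).isHermitian (light_herm (h.pdK _ _)).isHermitian
      (light_herm (h.pdK _ _)) ?_
    have q := (inv_mean (h.nd hk j)).smul (Real.sqrt_nonneg l)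
    have e : (1 / 2 : ℝ) • (√l • (K k (2 * j))⁻¹ + √l • (K k (2 * j + 1))⁻¹)
        - √l • (K (k + 1) j)⁻¹
        = √l • ((1 / 2 : ℝ) • ((K k (2 * j))⁻¹ + (K k (2 * j + 1))⁻¹) - (K (k + 1) j)⁻¹) := by
      module
    rw [e]
    exact q
  have h2 : ∑ k ∈ range N, (2 : ℝ) ^ (k + 1) * ∑ j ∈ iv (N - (k + 1)) T,
      vq (√l • (K k (2 * j))⁻¹) (√l • (K k (2 * j + 1))⁻¹) (√l • (K (k + 1) j)⁻¹)
      ≤ ∑ k ∈ range N, (2 : ℝ) ^ (k + 1) * ∑ j ∈ iv (N - (k + 1)) T,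
        ((1 / 2) * ((fun k j => pt (√l • (K k j)⁻¹)) k (2 * j)
          + (fun k j => pt (√l • (K k j)⁻¹)) k (2 * j + 1))
          - (fun k j => pt (√l • (K k j)⁻¹)) (k + 1) j) :=
    sum_le_sum fun k hk => mul_le_mul_of_nonneg_left
      (sum_le_sum fun j _ => h1 k (mem_range.1 hk) j) (by positivity)
  rw [sum_tele T (fun k j => pt (√l • (K k j)⁻¹)) N le_rfl] at h2
  refine h2.trans ?_
  have h0 : iv (N - N) T = {T} := by
    rw [Nat.sub_self]
    ext x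
    simp only [iv, mem_Ico, mem_singleton, pow_zero, one_mul]
    omega
  rw [h0, sum_singleton]
  have h3 : ∑ j ∈ iv N T, pt (√l • (K 0 j)⁻¹) ≤ 2 ^ N * (2 * Fintype.card κ) := by
    refine (sum_le_sum fun j _ => pt_le h.l_pos (h.psG 0 j) (h.pdK 0 j) (h.sq 0 j)).trans
      (le_of_eq ?_)
    rw [sum_const, nsmul_eq_mul, card_iv]
    push_cast
    ring
  have h4 := mul_le_mul_of_nonneg_left (le_pt h.l_pos (h.psG N T) (h.pdK N T) (h.sq N T))
    (by positivity : (0 : ℝ) ≤ 2 ^ N)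
  linarith

end

end Vale.Agent.P141.H433
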