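import Vale.Agent.P141.H433.TailR
import Vale.Agent.P141.H822.LabLP
import Vale.Agent.P141.H747.GridF

/-!
# The stack in label letters
-/

set_option linter.unusedSectionVars false

namespace Vale.Agent.P141.H433

open Finset Matrix Vale.Agent.P075 Vale.Agent.P141.PL Vale.Agent.P141.PL.H804
open Vale.Agent.P141.H958 Vale.Agent.P141.H103 Vale.Agent.P141.H609 Vale.Agent.P141.H822
open Vale.Agent.P141.H338 Vale.Agent.P141.H747
open Vale.Agent.P141.PL.H588 (Xg hd Pl)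

noncomputable section

/-! ### the label matrix of the stack -/

section stk

variable {κ : Type*} [Fintype κ] [DecidableEq κ]

theorem Ct.conv {n : Type*} [Fintype n] [DecidableEq n] {P Q : Matrix n n ℝ} (hP : Ct P)
    (hQ : Ct Q) {a b : ℝ} (ha : 0 ≤ a) (hb : 0 ≤ b) (hab : a + b = 1) : Ct (a • P + b • Q) := by
  have key : ∀ {X Y : Matrix n n ℝ}, (1 - Xᵀ * X).PosSemidef → (1 - Yᵀ * Y).PosSemidef →
      (1 - (a • X + b • Y)ᵀ * (a • X + b • Y)).PosSemidef := by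
    intro X Y hX hY
    have hb' : b = 1 - a := by linarith
    have e : 1 - (a • X + b • Y)ᵀ * (a • X + b • Y) =
        a • (1 - Xᵀ * X) + b • (1 - Yᵀ * Y) + (a * b) • ((X - Y)ᵀ * (X - Y)) := by
      simp only [transpose_add, transpose_smul, transpose_sub, Matrix.add_mul, Matrix.mul_add,
        Matrix.smul_mul, Matrix.mul_smul, Matrix.sub_mul, Matrix.mul_sub, smul_sub, smul_add,
        smul_smul]
      rw [hb']
      module
    rw [e]
    exact ((hX.smul ha).add (hY.smul hb)).add ((gram_psd (X - Y)).smul (mul_nonneg ha hb))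
  constructor
  · exact key hP.1 hQ.1
  · have h := key (X := Pᵀ) (Y := Qᵀ) (by rw [transpose_transpose]; exact hP.2)
      (by rw [transpose_transpose]; exact hQ.2)
    rw [← transpose_smul, ← transpose_smul, ← transpose_add, transpose_transpose] at h
    exact h

/-- the projection on the first half of the labels -/
def pj (κ : Type*) [DecidableEq κ] : Matrix (κ ⊕ κ) (κ ⊕ κ) ℝ := fromBlocks 1 0 0 0

/-- from the first to the second half of the labels -/
def zm (V : Matrix κ κ ℝ) : Matrix (κ ⊕ κ) (κ ⊕ κ) ℝ := fromBlocks 0 0 V 0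

theorem pj_ct : Ct (pj κ) := by
  have e : (1 - bd (1 : Matrix κ κ ℝ) 0).PosSemidef := by
    have h : (1 : Matrix (κ ⊕ κ) (κ ⊕ κ) ℝ) - bd (1 : Matrix κ κ ℝ) 0 = bd 0 1 := by
      rw [← bd_one (m := κ), bd_sub, sub_self, sub_zero]
    rw [h]
    exact bd_psd PosSemidef.zero PosSemidef.one
  have h1 : (pj κ)ᵀ = pj κ := by
    unfold pj
    simp [fromBlocks_transpose]
  have h2 : pj κ * pj κ = bd (1 : Matrix κ κ ℝ) 0 := by
    unfold pj bd
    simp [fromBlocks_multiply]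
  exact ⟨by rw [h1, h2]; exact e, by rw [h1, h2]; exact e⟩

theorem zm_tr (V : Matrix κ κ ℝ) : (zm V)ᵀ * zm V = bd (Vᵀ * V) 0 := by
  unfold zm bd
  simp [fromBlocks_transpose, fromBlocks_multiply]

theorem zm_tr' (V : Matrix κ κ ℝ) : zm V * (zm V)ᵀ = bd 0 (V * Vᵀ) := by
  unfold zm bd
  simp [fromBlocks_transpose, fromBlocks_multiply]

theorem zm_ct {V : Matrix κ κ ℝ} (h : Ct V) : Ct (zm V) := by
  constructor
  · rw [zm_tr, ← bd_one (m := κ), bd_sub, sub_zero]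
    exact bd_psd h.1 PosSemidef.one
  · rw [zm_tr', ← bd_one (m := κ), bd_sub, sub_zero]
    exact bd_psd PosSemidef.one h.2

/-- the normalised label matrix of the stack -/
def sm (ε K : ℝ) (V : Matrix κ κ ℝ) : Matrix (κ ⊕ κ) (κ ⊕ κ) ℝ :=
  (ε / (ε + K)) • pj κ + (K / (ε + K)) • zm V

theorem sm_ct {ε K : ℝ} (hε : 0 < ε) (hK : 0 ≤ K) {V : Matrix κ κ ℝ} (h : Ct V) :
    Ct (sm ε K V) :=
  Ct.conv pj_ct (zm_ct h) (by positivity) (by positivity) (by
    have : ε + K ≠ 0 := by positivity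
    field_simp)

theorem vk_sm {ε K : ℝ} (hε : 0 < ε) (hK : 0 ≤ K) (V : ℕ → ℤ → ℤ → Matrix κ κ ℝ) (k : ℕ)
    (x j : ℤ) : vk (fun k x n => sm ε K (V k x n)) k x j ≤ vk V k x j := by
  set t := K / (ε + K) with ht
  have t0 : 0 ≤ t := by positivity
  have t1 : t ≤ 1 := by
    rw [ht, div_le_one (by positivity)]
    linarith
  have zs : ∀ X Y : Matrix κ κ ℝ, zm X - zm Y = zm (X - Y) := fun X Y => by
    ext i j
    rcases i with i | i <;> rcases j with j | j <;> simp [zm]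
  have za : ∀ X Y : Matrix κ κ ℝ, zm X + zm Y = zm (X + Y) := fun X Y => by
    unfold zm
    simp [fromBlocks_add]
  have zc : ∀ (a : ℝ) (X : Matrix κ κ ℝ), a • zm X = zm (a • X) := fun a X => by
    unfold zm
    simp [fromBlocks_smul]
  have e1 : (1 / 2 : ℝ) • (sm ε K (V k x (2 * j)) - sm ε K (V k x (2 * j + 1))) =
      t • zm ((1 / 2 : ℝ) • (V k x (2 * j) - V k x (2 * j + 1))) := by
    unfold sm
    rw [← zc, ← zs]
    module
  have e2 : sm ε K (V (k + 1) x j) -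
      (1 / 2 : ℝ) • (sm ε K (V k x (2 * j)) + sm ε K (V k x (2 * j + 1))) =
      t • zm (V (k + 1) x j - (1 / 2 : ℝ) • (V k x (2 * j) + V k x (2 * j + 1))) := by
    unfold sm
    rw [← zs, ← zc, ← za]
    module
  have e3 : ∀ X : Matrix κ κ ℝ, ((t • zm X) * (t • zm X)ᵀ).trace = t ^ 2 * (X * Xᵀ).trace := by
    intro X
    rw [transpose_smul, Matrix.smul_mul, Matrix.mul_smul, smul_smul, zm_tr', trace_smul,
      trace_bd, trace_zero, zero_add, smul_eq_mul, sq]
  unfold vk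
  rw [e1, e2, e3, e3, Real.sqrt_mul (sq_nonneg t), Real.sqrt_sq t0]
  have q1 : (0 : ℝ) ≤ (((1 / 2 : ℝ) • (V k x (2 * j) - V k x (2 * j + 1))) *
      ((1 / 2 : ℝ) • (V k x (2 * j) - V k x (2 * j + 1)))ᵀ).trace :=
    (psd_mul_transpose _).trace_nonneg
  have q2 := Real.sqrt_nonneg (((V (k + 1) x j - (1 / 2 : ℝ) • (V k x (2 * j) +
      V k x (2 * j + 1))) * (V (k + 1) x j - (1 / 2 : ℝ) • (V k x (2 * j) +
      V k x (2 * j + 1)))ᵀ).trace)
  have t2 : t ^ 2 ≤ 1 := by nlinarith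
  nlinarith

/-- the stack is not small -/
theorem sm_ge {ε K : ℝ} (hε : 0 < ε) (hK : 0 ≤ K) (V : Matrix κ κ ℝ) :
    ((sm ε K V)ᵀ * sm ε K V - (ε / (ε + K)) ^ 2 • pj κ).PosSemidef := by
  have h1 : (pj κ)ᵀ = pj κ := by
    unfold pj
    simp [fromBlocks_transpose]
  have h2 : pj κ * pj κ = pj κ := by
    unfold pj
    simp [fromBlocks_multiply]
  have h3 : pj κ * zm V = 0 := by
    unfold pj zm
    simp [fromBlocks_multiply]
  have h4 : (zm V)ᵀ * pj κ = 0 := by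
    unfold pj zm
    simp [fromBlocks_transpose, fromBlocks_multiply]
  have e : (sm ε K V)ᵀ * sm ε K V - (ε / (ε + K)) ^ 2 • pj κ =
      ((K / (ε + K)) ^ 2) • bd (Vᵀ * V) 0 := by
    unfold sm
    rw [transpose_add, transpose_smul, transpose_smul, h1, Matrix.add_mul, Matrix.mul_add,
      Matrix.mul_add, Matrix.smul_mul, Matrix.mul_smul, h2, Matrix.smul_mul, Matrix.mul_smul, h3,
      Matrix.smul_mul, Matrix.mul_smul, h4, Matrix.smul_mul, Matrix.mul_smul, zm_tr]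
    module
  rw [e]
  exact (bd_psd (gram_psd V) PosSemidef.zero).smul (by positivity)

end stk

/-! ### a label matrix on a labelled function -/

section enc

variable {ρ : Type*} [Fintype ρ] [DecidableEq ρ] {L : ℕ} {e : ρ → ℤ}

theorem sum_kV (he : Function.Injective e) (hm : ∀ i, e i ∈ lbs L) (V : Matrix ρ ρ ℝ)
    (f : ρ → ℝ) (l₀ : ℤ) :
    ∑ l ∈ lbs L, (∑ a, ∑ b, if e a = l₀ ∧ e b = l then V a b else 0) * cu e f l =
      cu e (V *ᵥ f) l₀ := by
  have h1 : ∀ l, (∑ a, ∑ b, if e a = l₀ ∧ e b = l then V a b else 0) * cu e f l =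
      cu e f l * ∑ a, (if e a = l₀ then cu e (fun b => V a b) l else 0) := by
    intro l
    rw [mul_comm]
    congr 1
    refine sum_congr rfl fun a _ => ?_
    by_cases ha : e a = l₀
    · rw [if_pos ha]
      unfold cu
      refine sum_congr rfl fun b _ => ?_
      by_cases hb : e b = l <;> simp [ha, hb]
    · rw [if_neg ha]
      refine sum_eq_zero fun b _ => ?_
      rw [if_neg fun h => ha h.1]
  simp only [h1]
  rw [sum_cu_mul hm]
  have h2 : ∀ i, (∑ a, if e a = l₀ then cu e (fun b => V a b) (e i) else 0) =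
      ∑ a, if e a = l₀ then V a i else 0 := by
    intro i
    refine sum_congr rfl fun a _ => ?_
    split_ifs
    · exact cu_apply he _ i
    · rfl
  simp only [h2, mul_sum]
  rw [sum_comm]
  unfold cu
  refine sum_congr rfl fun a _ => ?_
  by_cases ha : e a = l₀
  · simp only [if_pos ha, Matrix.mulVec, dotProduct]
    exact sum_congr rfl fun b _ => mul_comm _ _
  · simp [if_neg ha]

/-- **a block diagonal label matrix times a labelled function** -/
theorem bl_kV_mul (he : Function.Injective e) (hm : ∀ i, e i ∈ lbs L) (V : ℤ → Matrix ρ ρ ℝ)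
    (f : ℤ → ℤ → ρ → ℝ) (k : ℕ) (p q : ℤ) :
    bl (L + k) (kV L e V) q q * (bl (L + k) (encR L fun l z x => cu e (f z x) l) p q)ᵀ =
      (bl (L + k) (encR L fun l z x => cu e (V x *ᵥ f z x) l) p q)ᵀ := by
  ext i j
  rw [Matrix.mul_apply, Matrix.transpose_apply]
  set a : ℤ := 2 ^ (L + k) * q + (val (L + k) i : ℤ) with ha
  set z : ℤ := 2 ^ (L + k) * p + (val (L + k) j : ℤ) with hz
  have h1 : ∑ i' : Ix (L + k), bl (L + k) (kV L e V) q q i i' *
      (bl (L + k) (encR L fun l z x => cu e (f z x) l) p q)ᵀ i' j =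
      ∑ y ∈ iv (L + k) q, kV L e V a y * encR L (fun l z x => cu e (f z x) l) z y := by
    rw [H588.sum_iv]
    rfl
  rw [h1]
  change _ = encR L (fun l z x => cu e (V x *ᵥ f z x) l) z a
  have h2 : ∀ y, kV L e V a y * encR L (fun l z x => cu e (f z x) l) z y =
      (fun l x => if ix L a = x then (∑ a', ∑ b, if e a' = lb L a ∧ e b = l then V x a' b else 0) *
        (√(2 ^ L) * cu e (f (ix L z) x) l) else 0) (lb L y) (ix L y) := by
    intro y
    unfold kV
    simp only [encR_apply]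
    split_ifs with h
    · rw [h]
    · rw [zero_mul]
  rw [sum_congr rfl fun y _ => h2 y, Nat.add_comm L k]
  rw [sum_iv_add L k q (fun l x => if ix L a = x then (∑ a', ∑ b, if e a' = lb L a ∧ e b = l then
    V x a' b else 0) * (√(2 ^ L) * cu e (f (ix L z) x) l) else 0)]
  have hmem : ix L a ∈ iv k q := by
    have h3 : a ∈ iv (k + L) q := by
      rw [ha, Nat.add_comm k L, iv, mem_Ico]
      have h4 := val_lt (L + k) i
      have h5 : ((val (L + k) i : ℕ) : ℤ) < 2 ^ (L + k) := by exact_mod_cast h4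
      constructor
      · have : (0 : ℤ) ≤ ((val (L + k) i : ℕ) : ℤ) := Int.natCast_nonneg _
        linarith
      · linarith
    exact mem_iv_add.1 h3
  rw [sum_eq_single (ix L a)]
  · simp only [if_true]
    have h6 : ∀ l, (∑ a', ∑ b, if e a' = lb L a ∧ e b = l then V (ix L a) a' b else 0) *
        (√(2 ^ L) * cu e (f (ix L z) (ix L a)) l) = √(2 ^ L) *
        ((∑ a', ∑ b, if e a' = lb L a ∧ e b = l then V (ix L a) a' b else 0) *
          cu e (f (ix L z) (ix L a)) l) := fun l => by ring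
    simp only [h6]
    rw [← mul_sum, sum_kV he hm]
    rfl
  · intro x _ hx
    refine sum_eq_zero fun l _ => ?_
    rw [if_neg fun h => hx h.symm]
  · intro h
    exact absurd hmem h

end enc

theorem gram_ge {n : Type*} [Fintype n] [DecidableEq n] {U P c : Matrix n n ℝ} {t : ℝ}
    (h1 : P * c = c) (h2 : (Uᵀ * U - t • P).PosSemidef) :
    ((U * c)ᵀ * (U * c) - t • (cᵀ * c)).PosSemidef := by
  have p3 := psd_conj h2 cᵀ
  rw [transpose_transpose] at p3
  have e : cᵀ * (Uᵀ * U - t • P) * c = (U * c)ᵀ * (U * c) - t • (cᵀ * c) := by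
    rw [Matrix.mul_sub, Matrix.sub_mul, Matrix.mul_smul, Matrix.smul_mul, Matrix.mul_assoc cᵀ P c,
      h1, transpose_mul]
    simp only [Matrix.mul_assoc]
  rwa [e] at p3

/-! ### the bound in label letters -/

section fin

variable {κ : Type*} [Fintype κ] [DecidableEq κ] {L N : ℕ} {R : Pt} {c : ℕ → ℤ}
  {b : ℕ → ℤ → ℤ → κ ⊕ κ → ℝ} {C : ℕ → ℤ → ℤ → κ → ℝ} {s : ℕ → Finset Pt} {e : κ ⊕ κ → ℤ}
  {V : ℕ → ℤ → ℤ → Matrix κ κ ℝ} {QB QC : ℕ → ℤ → ℤ → Prop}

/-- the stack `(ε C ; K V C)` -/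
def stk (ε K : ℝ) (V : ℕ → ℤ → ℤ → Matrix κ κ ℝ) (C : ℕ → ℤ → ℤ → κ → ℝ) (k : ℕ) (z x : ℤ) :
    κ ⊕ κ → ℝ :=
  Sum.elim (ε • C k z x) (K • (V k x (ix k z) *ᵥ C k z x))

theorem stk_eq {ε K : ℝ} (hw : ε + K ≠ 0) (k : ℕ) (z x : ℤ) :
    stk ε K V C k z x =
      (ε + K) • (sm ε K (V k x (ix k z)) *ᵥ Sum.elim (C k z x) (0 : κ → ℝ)) := by
  have h1 : pj κ *ᵥ Sum.elim (C k z x) (0 : κ → ℝ) = Sum.elim (C k z x) (0 : κ → ℝ) := by
    unfold pj
    rw [fromBlocks_mulVec]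
    simp
  have h2 : zm (V k x (ix k z)) *ᵥ Sum.elim (C k z x) (0 : κ → ℝ) =
      Sum.elim (0 : κ → ℝ) (V k x (ix k z) *ᵥ C k z x) := by
    unfold zm
    rw [fromBlocks_mulVec]
    simp
  unfold sm stk
  rw [Matrix.add_mulVec, smul_mulVec, smul_mulVec, h1, h2, smul_add, smul_smul, smul_smul,
    mul_div_cancel₀ _ hw, mul_div_cancel₀ _ hw]
  funext i
  rcases i with i | i <;> simp

theorem enc_scal (w : ℝ) (f : ℤ → ℤ → κ ⊕ κ → ℝ) (k : ℕ) (p q : ℤ) :
    bl k (encR L fun l z x => cu e (w • f z x) l) p q =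
      w • bl k (encR L fun l z x => cu e (f z x) l) p q := by
  ext i j
  change encR L (fun l z x => cu e (w • f z x) l) (2 ^ k * p + (val k i : ℤ))
      (2 ^ k * q + (val k j : ℤ)) =
    w * encR L (fun l z x => cu e (f z x) l) (2 ^ k * p + (val k i : ℤ))
      (2 ^ k * q + (val k j : ℤ))
  simp only [encR_apply]
  have h := cu_smul (e := e) w (f (ix L (2 ^ k * p + (val k i : ℤ)))
    (ix L (2 ^ k * q + (val k j : ℤ)))) (lb L (2 ^ k * q + (val k j : ℤ)))
  change √(2 ^ L) * cu e (fun i' => w * f (ix L (2 ^ k * p + (val k i : ℤ)))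
    (ix L (2 ^ k * q + (val k j : ℤ))) i') _ = _
  rw [h]
  ring

theorem enc_congr {f g : ℤ → ℤ → κ ⊕ κ → ℝ} (k : ℕ) (p q : ℤ)
    (h : ∀ z ∈ iv k p, ∀ x, f z x = g z x) :
    bl (L + k) (encR L fun l z x => cu e (f z x) l) p q =
      bl (L + k) (encR L fun l z x => cu e (g z x) l) p q := by
  ext i j
  change encR L (fun l z x => cu e (f z x) l) (2 ^ (L + k) * p + (val (L + k) i : ℤ))
      (2 ^ (L + k) * q + (val (L + k) j : ℤ)) =
    encR L (fun l z x => cu e (g z x) l) (2 ^ (L + k) * p + (val (L + k) i : ℤ))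
      (2 ^ (L + k) * q + (val (L + k) j : ℤ))
  simp only [encR_apply]
  have hmem : ix L (2 ^ (L + k) * p + (val (L + k) i : ℤ)) ∈ iv k p := by
    have h3 : 2 ^ (L + k) * p + (val (L + k) i : ℤ) ∈ iv (k + L) p := by
      rw [Nat.add_comm k L, iv, mem_Ico]
      have h4 := val_lt (L + k) i
      have h5 : ((val (L + k) i : ℕ) : ℤ) < 2 ^ (L + k) := by exact_mod_cast h4
      constructor
      · have : (0 : ℤ) ≤ ((val (L + k) i : ℕ) : ℤ) := Int.natCast_nonneg _
        linarith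
      · linarith
    exact mem_iv_add.1 h3
  rw [h _ hmem]

theorem gB_shF (b0 : b 0 = 0) :
    gB L e b = shF L fun k => encR L fun l y x => cu e (b k x y) l := by
  funext k
  unfold gB shF
  split_ifs with h
  · rfl
  · have h1 : k - L = 0 := by omega
    funext p q
    rw [encR_apply, h1, b0]
    unfold cu
    simp

/-- **The crude bound of the pair sum of `b` and the stack, label letters.** -/
theorem lo_RP_lab (he : Function.Injective e) (hm : ∀ i, e i ∈ lbs L) (hc : Pl c)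
    (hs : ∀ k ∈ Icc 1 N, s k ⊆ bx3 N R k (c k)) (hV : ∀ k x n, Ct (V k x n))
    {h ε K : ℝ} (hh : 0 < h) (hε : 0 < ε) (hε1 : ε ≤ 1) (hK : 0 ≤ K) (b0 : b 0 = 0) (C0 : C 0 = 0)
    (pB : ∀ l ∈ lbs L, H736.Path N R.2.1 R.2.2 QB (fun k y x => cu e (b k x y) l))
    (pC : ∀ l ∈ lbs L, H736.Path N R.1 R.2.2 QC
      (fun k z x => cu e (Sum.elim (C k z x) (0 : κ → ℝ)) l)) {DB DC : ℝ}
    (oB : ∑ l ∈ lbs L, pwr N R.2.1 R.2.2 QB (fun k y x => cu e (b k x y) l) ≤ DB)
    (oC : ∑ l ∈ lbs L, pwr N R.1 R.2.2 QC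
      (fun k z x => cu e (Sum.elim (C k z x) (0 : κ → ℝ)) l) ≤ DC) {β G : ℝ}
    (gb : ∀ k < N, ∀ n ∈ iv (N - k) R.2.1, ∀ x ∈ iv N R.2.2,
      ∑ y ∈ iv k n, ∑ l ∈ lbs L, cu e (b (k + 1) x y) l ^ 2 ≤ 2 ^ k * β ^ 2)
    (gc : ∀ k < N, ∀ n ∈ iv (N - k) R.1, ∀ x ∈ iv N R.2.2,
      ∑ z ∈ iv k n, ∑ l ∈ lbs L, cu e (Sum.elim (C (k + 1) z x) (0 : κ → ℝ)) l ^ 2 ≤
        2 ^ k * β ^ 2)
    (hG : ∑ x ∈ iv N R.2.2, ∑ k ∈ range N, 2 ^ (k + 1) *
      ∑ j ∈ iv (N - (k + 1)) R.1, vk V k x j ≤ 4 ^ N * G) :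
    RP (N + L) (sL L s) h h (fun k m => bl k (gB L e b k) m.2.1 m.2.2)
        (fun k m => (bl k (gC L e (stk ε K V C) k) m.1 m.2.2)ᵀ) ≤
      10 ^ 4 * ((ε + K) ^ 2 * (ε ^ 2)⁻¹) * (4 ^ L * (DB + DC) + 4 ^ (N + L) * β ^ 2 * G) *
        h ^ 2 := by
  have w0 : 0 < ε + K := by linarith
  set Ch : ℕ → ℤ → ℤ → ℤ → ℝ := fun k l z x => cu e (Sum.elim (C k z x) (0 : κ → ℝ)) l with hCh
  have Ch0 : Ch 0 = 0 := by
    funext l z x
    rw [hCh]
    simp only [C0]
    unfold cu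
    refine sum_eq_zero fun i _ => ?_
    rcases i with i | i <;> simp
  have B0 : (fun (k : ℕ) (l y x : ℤ) => cu e (b k x y) l) 0 = 0 := by
    funext l y x
    simp only [b0]
    unfold cu
    refine sum_eq_zero fun i _ => ?_
    simp
  have hsh : ∀ (A : ℕ → ℤ → ℤ → ℤ → ℝ) (k : ℕ), (shF L fun k => encR L (A k)) (L + k) =
      encR L (A k) := by
    intro A k
    rw [Nat.add_comm L k]
    exact shF_add L (fun k => encR L (A k)) k
  have hh' : ∀ {A : ℕ → ℤ → ℤ → ℤ → ℝ} {T : ℤ}, (∀ k < N, ∀ n ∈ iv (N - k) T, ∀ y ∈ iv N R.2.2,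
      ∑ x ∈ iv k n, ∑ l ∈ lbs L, A (k + 1) l x y ^ 2 ≤ 2 ^ k * β ^ 2) →
      ∀ k < N, ∀ n ∈ iv (N - k) T, ∀ y ∈ iv N R.2.2,
        (Xg (L + k) L ((shF L fun k => encR L (A k)) (L + (k + 1))) n y).trace ≤ β ^ 2 := by
    intro A T h k hk n hn y hy
    rw [hsh, H822.trace_encR]
    have h1 := h k hk n hn y hy
    have h2 : (0 : ℝ) < 2 ^ k := by positivity
    rw [inv_mul_le_iff₀ h2]
    exact h1
  have lB := L2E_encR (L := L) B0 pB oB
  have lC := L2E_encR (L := L) Ch0 pC oC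
  rw [Nat.add_comm N L] at lB lC
  rw [gB_shF b0, Nat.add_comm N L]
  -- the matrix of the stack at a node
  have hU0 : ∀ k, k < N → ∀ m : Pt,
      DU (fun k x n => emb L e (sm ε K (V k x n))) (k + 1) (k + 1) m.1 m.2.2 =
      bl (L + (k + 1)) (kV L e fun x => sm ε K (V (k + 1) x m.1)) m.2.2 m.2.2 := by
    intro k _ m
    rw [bl_kV]
    rfl
  have hFC : ∀ k < N, ∀ m ∈ sL L s (L + (k + 1)),
      (bl (L + (k + 1)) (gC L e (stk ε K V C) (L + (k + 1))) m.1 m.2.2)ᵀ =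
      (ε + K) • (DU (fun k x n => emb L e (sm ε K (V k x n))) (k + 1) (k + 1) m.1 m.2.2 *
        (bl (L + (k + 1)) ((shF L fun k => encR L (Ch k)) (L + (k + 1))) m.1 m.2.2)ᵀ) := by
    intro k hk m _
    rw [hU0 k hk m, hsh, hCh]
    rw [bl_kV_mul he hm (fun x => sm ε K (V (k + 1) x m.1))
      (fun z x => Sum.elim (C (k + 1) z x) (0 : κ → ℝ)) (k + 1) m.1 m.2.2,
      ← transpose_smul, ← enc_scal]
    congr 1
    unfold gC
    rw [Nat.add_sub_cancel_left]
    refine enc_congr (k + 1) m.1 m.2.2 fun z hz x => ?_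
    rw [stk_eq w0.ne', (mem_iv.1 hz)]
  have hU : ∀ k < N, ∀ m ∈ sL L s (L + (k + 1)),
      ((DU (fun k x n => emb L e (sm ε K (V k x n))) (k + 1) (k + 1) m.1 m.2.2 *
          (bl (L + (k + 1)) ((shF L fun k => encR L (Ch k)) (L + (k + 1))) m.1 m.2.2)ᵀ)ᵀ *
        (DU (fun k x n => emb L e (sm ε K (V k x n))) (k + 1) (k + 1) m.1 m.2.2 *
          (bl (L + (k + 1)) ((shF L fun k => encR L (Ch k)) (L + (k + 1))) m.1 m.2.2)ᵀ) -
        (ε / (ε + K)) ^ 2 •
          ((bl (L + (k + 1)) ((shF L fun k => encR L (Ch k)) (L + (k + 1))) m.1 m.2.2)ᵀᵀ *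
          (bl (L + (k + 1)) ((shF L fun k => encR L (Ch k)) (L + (k + 1))) m.1 m.2.2)ᵀ)).PosSemidef
      := by
    intro k hk m _
    have p1 : DL L (fun _ => emb L e (pj κ)) (k + 1) m.2.2 *
        (bl (L + (k + 1)) ((shF L fun k => encR L (Ch k)) (L + (k + 1))) m.1 m.2.2)ᵀ =
        (bl (L + (k + 1)) ((shF L fun k => encR L (Ch k)) (L + (k + 1))) m.1 m.2.2)ᵀ := by
      rw [hsh, hCh, ← bl_kV, bl_kV_mul he hm (fun _ => pj κ)
        (fun z x => Sum.elim (C (k + 1) z x) (0 : κ → ℝ)) (k + 1) m.1 m.2.2]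
      congr 2
      funext p q
      simp only [encR_apply]
      congr 2
      unfold pj
      rw [fromBlocks_mulVec]
      simp
    have p2 : ((DL L (fun x => emb L e (sm ε K (V (k + 1) x m.1))) (k + 1) m.2.2)ᵀ *
        DL L (fun x => emb L e (sm ε K (V (k + 1) x m.1))) (k + 1) m.2.2 -
        (ε / (ε + K)) ^ 2 • DL L (fun _ => emb L e (pj κ)) (k + 1) m.2.2).PosSemidef := by
      rw [DL_transpose, DL_mul, DL_smul, DL_sub]
      refine DL_psd (fun x => ?_) _ _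
      rw [emb_transpose, emb_mul he hm, emb_smul, emb_sub]
      exact emb_psd (sm_ge hε hK _)
    exact gram_ge p1 p2
  have q := lo_RP (L := L) (N := N) (R := R) (s := sL L s) (c := c)
    (U := fun k x n => emb L e (sm ε K (V k x n)))
    (B := shF L fun k => encR L fun l y x => cu e (b k x y) l)
    (C := shF L fun k => encR L (Ch k))
    (FC := fun k m => (bl k (gC L e (stk ε K V C) k) m.1 m.2.2)ᵀ) hc
    (fun k hk => by
      unfold sL
      rw [if_neg (by omega)])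
    (fun k hk m hm' => by
      unfold sL at hm'
      rw [if_pos (by omega), Nat.add_sub_cancel_left] at hm'
      have h1 := hs (k + 1) (mem_Icc.2 ⟨by omega, by omega⟩) hm'
      unfold bx3 at h1 ⊢
      rwa [Nat.add_sub_add_left])
    hh hε hε1 w0 hFC hU (fun k x n => emb_ct he hm (sm_ct hε hK (hV k x n))) lB lC (hh' gb)
    (hh' gc)
    (by
      refine le_trans ?_ hG
      refine sum_le_sum fun x _ => sum_le_sum fun k _ =>
        mul_le_mul_of_nonneg_left (sum_le_sum fun j _ => ?_) (by positivity)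
      rw [vd_emb he hm]
      exact vk_sm hε hK V k x j)
  refine q.trans (le_of_eq ?_)
  ring

end fin

end

end Vale.Agent.P141.H433
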