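import Vale.Agent.P141.H511.LoW
import Vale.Agent.P141.H609.RPW
import Vale.Agent.P141.H893.ZBnum

/-!
# The numbers of `H433.lo_pathW` summed over `x₀`, the multiplier sees `x₀`

* `rhoW` : the weight of the change of the multiplier; `W_eq` : `wf` and `wh` together;
* `MvB` : the change summed over `x₀` against weights which see `x₀`;
* `W_fam` : the numbers summed over `x₀` from rows.
-/

set_option linter.unusedSectionVars false

namespace Vale.Agent.P141.H433.CrH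

open Finset Matrix Vale.Agent.P075 Vale.Agent.P141.PL Vale.Agent.P141.H103 Vale.Agent.P141.H433
open Vale.Agent.P141.PL.H588 (Xg hd Pl)
open Vale.Agent.P141.H511.LoW (GW_swap)
open Vale.Agent.P141.H433 (rt rt_nonneg rt_mean)

noncomputable section

variable {L : ℕ}

/-- the weight of the change of the multiplier at the cell `j` of scale `k + 1` over `x` -/
def rhoW (L N : ℕ) (R c : ℤ) (F H : ℤ → ℤ → ℝ) (k : ℕ) (x j : ℤ) : ℝ :=
  (if c - ix (k + 1) x - j ∈ iv (N - (k + 1)) R then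
    rt L F (k + 1) (c - ix (k + 1) x - j) x + rt L H (k + 1) j x else 0) +
  ∑ r ∈ range (N - (k + 1) + 1), (3 / 4 : ℝ) ^ r *
    (rt L H (k + 1) j x + rt L H (k + 1 + r) (ix r j) x)

theorem rhoW_nonneg (N : ℕ) (R c : ℤ) (F H : ℤ → ℤ → ℝ) (k : ℕ) (x j : ℤ) :
    0 ≤ rhoW L N R c F H k x j := by
  unfold rhoW
  refine add_nonneg ?_ (sum_nonneg fun r _ => mul_nonneg (by positivity)
    (add_nonneg (rt_nonneg ..) (rt_nonneg ..)))
  split_ifs
  · exact add_nonneg (rt_nonneg ..) (rt_nonneg ..)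
  · exact le_rfl

/-- **The tied and the untied cost together.** -/
theorem W_eq {N k : ℕ} (hk : k < N) (R S T c : ℤ) (U : ℕ → ℤ → ℤ → Matrix (Ix L) (Ix L) ℝ)
    (F H : ℤ → ℤ → ℝ) :
    GW N R S T (k + 1) c (wf U F H k) + wh U H N S T k =
      ∑ x ∈ iv N S, 2 ^ (k + 1) * ∑ j ∈ iv (N - (k + 1)) T,
        rhoW L N R c F H k x j * vd U k x j := by
  have e4 : (4 : ℝ) ^ (k + 1) = 2 ^ (k + 1) * 2 ^ (k + 1) := by
    rw [← mul_pow]; norm_num
  have e2 : (2 : ℝ) ^ (k + 1) ≠ 0 := by positivity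
  have h1 : GW N R S T (k + 1) c (wf U F H k) = ∑ x ∈ iv N S, 2 ^ (k + 1) *
      ∑ j ∈ iv (N - (k + 1)) T, (if c - ix (k + 1) x - j ∈ iv (N - (k + 1)) R then
        rt L F (k + 1) (c - ix (k + 1) x - j) x + rt L H (k + 1) j x else 0) * vd U k x j := by
    rw [GW_swap]
    have h : ∀ m ∈ iv (N - (k + 1)) S, ∑ n' ∈ iv (N - (k + 1)) T,
        (if c - m - n' ∈ iv (N - (k + 1)) R then wf U F H k (c - m - n') n' m else 0) =
        ((2 : ℝ) ^ (k + 1))⁻¹ * ∑ x ∈ iv (k + 1) m, ∑ j ∈ iv (N - (k + 1)) T,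
          (if c - ix (k + 1) x - j ∈ iv (N - (k + 1)) R then
            rt L F (k + 1) (c - ix (k + 1) x - j) x + rt L H (k + 1) j x else 0) *
            vd U k x j := by
      intro m _
      rw [sum_comm (s := iv (k + 1) m), mul_sum]
      refine sum_congr rfl fun n' _ => ?_
      split_ifs with h
      · unfold wf
        congr 1
        refine sum_congr rfl fun x hx => ?_
        rw [mem_iv.1 hx, if_pos h]
      · symm
        refine mul_eq_zero_of_right _ (sum_eq_zero fun x hx => ?_)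
        rw [mem_iv.1 hx, if_neg h, zero_mul]
    rw [sum_congr rfl h, ← mul_sum]
    have e1 := sum_iv_nest (N - (k + 1)) (k + 1) S (fun x => ∑ j ∈ iv (N - (k + 1)) T,
      (if c - ix (k + 1) x - j ∈ iv (N - (k + 1)) R then
        rt L F (k + 1) (c - ix (k + 1) x - j) x + rt L H (k + 1) j x else 0) * vd U k x j)
    rw [show N - (k + 1) + (k + 1) = N by omega] at e1
    rw [e1, ← mul_sum, e4]
    field_simp
  have h2 : wh U H N S T k = ∑ x ∈ iv N S, 2 ^ (k + 1) * ∑ j ∈ iv (N - (k + 1)) T,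
      (∑ r ∈ range (N - (k + 1) + 1), (3 / 4 : ℝ) ^ r *
        (rt L H (k + 1) j x + rt L H (k + 1 + r) (ix r j) x)) * vd U k x j := by
    unfold wh
    simp only [mul_sum, sum_mul]
    rw [sum_comm]
    refine sum_congr rfl fun x _ => ?_
    rw [sum_comm]
    refine sum_congr rfl fun j _ => sum_congr rfl fun r _ => ?_
    ring
  rw [h1, h2, ← sum_add_distrib]
  refine sum_congr rfl fun x _ => ?_
  rw [← mul_add, ← sum_add_distrib]
  congr 1
  refine sum_congr rfl fun j _ => ?_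
  unfold rhoW
  rw [add_mul]

/-- the change `ν k x0 j`, summed over `x₀` against weights which see `x₀` -/
def MvB (N : ℕ) (t T : ℤ) (ν : ℕ → ℤ → ℤ → ℝ) (g : ℝ) : Prop :=
  ∀ (ρ : ℕ → ℤ → ℤ → ℝ) (lam : ℝ), 0 ≤ lam →
    (∀ k < N, ∀ j ∈ iv (N - (k + 1)) T, ∀ x0 ∈ iv N t, 0 ≤ ρ k x0 j) →
    (∀ k < N, ∀ j ∈ iv (N - (k + 1)) T, ∀ a ∈ iv (N - k) t,
      ∑ x0 ∈ iv k a, ρ k x0 j ≤ lam * 2 ^ k) →
    ∑ k ∈ range N, 2 ^ (k + 1) * ∑ j ∈ iv (N - (k + 1)) T, ∑ x0 ∈ iv N t, ρ k x0 j * ν k x0 j ≤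
      lam * g

theorem MvB.of_le {N : ℕ} {t T : ℤ} {ν : ℕ → ℤ → ℤ → ℝ} {g : ℝ} (h : MvB N t T ν g) {c : ℝ}
    (hc : 0 ≤ c) : MvB N t T (fun k x0 j => c * ν k x0 j) (c * g) := by
  intro ρ lam hl h0 h1
  have q := mul_le_mul_of_nonneg_left (h ρ lam hl h0 h1) hc
  refine le_trans (le_of_eq ?_) (q.trans (le_of_eq (by ring)))
  simp only [mul_sum]
  refine sum_congr rfl fun k _ => sum_congr rfl fun j _ => sum_congr rfl fun x _ => ?_
  ring

section fam

variable {N : ℕ} {R S T t : ℤ} {c : ℤ → ℕ → ℤ} {F H : ℤ → ℕ → ℤ → ℤ → ℝ}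

/-- **The weights summed over a cell of `x₀`.** -/
theorem rhoW_sum {x : ℤ} {lam : ℝ} {k : ℕ} (hk : k < N) {a : ℤ}
    {v : ℤ} (hv : ∀ x0 ∈ iv k a, c x0 (k + 1) = v ∨ c x0 (k + 1) = v + 1)
    (hlam : 0 ≤ lam)
    (hF : ∀ n ∈ iv (N - (k + 1)) R,
      ∑ x0 ∈ iv k a, rt L (F x0 (L + (k + 1))) (k + 1) n x ≤ lam * 2 ^ k)
    (hH : ∀ n ∈ iv (N - (k + 1)) T,
      ∑ x0 ∈ iv k a, rt L (H x0 (L + (k + 1))) (k + 1) n x ≤ lam * 2 ^ k)
    {j : ℤ} (hj : j ∈ iv (N - (k + 1)) T) :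
    ∑ x0 ∈ iv k a, rhoW L N R (c x0 (k + 1)) (F x0 (L + (k + 1))) (H x0 (L + (k + 1))) k x j ≤
      11 * lam * 2 ^ k := by
  have p : 0 ≤ lam * (2 : ℝ) ^ k := by positivity
  unfold rhoW
  rw [sum_add_distrib]
  have h1 : ∑ x0 ∈ iv k a, (if c x0 (k + 1) - ix (k + 1) x - j ∈ iv (N - (k + 1)) R then
      rt L (F x0 (L + (k + 1))) (k + 1) (c x0 (k + 1) - ix (k + 1) x - j) x +
        rt L (H x0 (L + (k + 1))) (k + 1) j x else 0) ≤ 3 * (lam * 2 ^ k) := by
    have g : ∀ w : ℤ, ∑ x0 ∈ iv k a, (if w - ix (k + 1) x - j ∈ iv (N - (k + 1)) R then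
        rt L (F x0 (L + (k + 1))) (k + 1) (w - ix (k + 1) x - j) x else 0) ≤ lam * 2 ^ k := by
      intro w
      split_ifs with h
      · exact hF _ h
      · rw [sum_const_zero]; exact p
    have g1 := g v
    have g2 := g (v + 1)
    have g3 := hH j hj
    have g4 : ∑ x0 ∈ iv k a, (if c x0 (k + 1) - ix (k + 1) x - j ∈ iv (N - (k + 1)) R then
        rt L (F x0 (L + (k + 1))) (k + 1) (c x0 (k + 1) - ix (k + 1) x - j) x +
          rt L (H x0 (L + (k + 1))) (k + 1) j x else 0) ≤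
        ∑ x0 ∈ iv k a, (((if v - ix (k + 1) x - j ∈ iv (N - (k + 1)) R then
          rt L (F x0 (L + (k + 1))) (k + 1) (v - ix (k + 1) x - j) x else 0) +
          (if v + 1 - ix (k + 1) x - j ∈ iv (N - (k + 1)) R then
          rt L (F x0 (L + (k + 1))) (k + 1) (v + 1 - ix (k + 1) x - j) x else 0)) +
          rt L (H x0 (L + (k + 1))) (k + 1) j x) := by
      refine sum_le_sum fun x0 hx0 => ?_
      have z0 : ∀ w : ℤ, 0 ≤ (if w - ix (k + 1) x - j ∈ iv (N - (k + 1)) R then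
          rt L (F x0 (L + (k + 1))) (k + 1) (w - ix (k + 1) x - j) x else 0) := by
        intro w
        split_ifs
        · exact rt_nonneg ..
        · exact le_rfl
      have z1 := rt_nonneg (L := L) (H x0 (L + (k + 1))) (k + 1) j x
      have z2 := z0 v
      have z3 := z0 (v + 1)
      have z5 : (if c x0 (k + 1) - ix (k + 1) x - j ∈ iv (N - (k + 1)) R then
          rt L (F x0 (L + (k + 1))) (k + 1) (c x0 (k + 1) - ix (k + 1) x - j) x +
          rt L (H x0 (L + (k + 1))) (k + 1) j x else 0) ≤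
          (if c x0 (k + 1) - ix (k + 1) x - j ∈ iv (N - (k + 1)) R then
          rt L (F x0 (L + (k + 1))) (k + 1) (c x0 (k + 1) - ix (k + 1) x - j) x else 0) +
          rt L (H x0 (L + (k + 1))) (k + 1) j x := by
        by_cases h : c x0 (k + 1) - ix (k + 1) x - j ∈ iv (N - (k + 1)) R
        · rw [if_pos h, if_pos h]
        · rw [if_neg h, if_neg h, zero_add]
          exact z1
      refine z5.trans ?_
      rcases hv x0 hx0 with h | h
      · rw [h]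
        linarith
      · rw [h]
        linarith
    rw [sum_add_distrib, sum_add_distrib] at g4
    linarith
  have h2 : ∑ x0 ∈ iv k a, ∑ r ∈ range (N - (k + 1) + 1), (3 / 4 : ℝ) ^ r *
      (rt L (H x0 (L + (k + 1))) (k + 1) j x +
        rt L (H x0 (L + (k + 1))) (k + 1 + r) (ix r j) x) ≤ 8 * (lam * 2 ^ k) := by
    rw [sum_comm]
    have g : ∀ r ∈ range (N - (k + 1) + 1), ∑ x0 ∈ iv k a, (3 / 4 : ℝ) ^ r *
        (rt L (H x0 (L + (k + 1))) (k + 1) j x +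
          rt L (H x0 (L + (k + 1))) (k + 1 + r) (ix r j) x) ≤
        (3 / 4 : ℝ) ^ r * (2 * (lam * 2 ^ k)) := by
      intro r hr
      have hr' := mem_range.1 hr
      rw [← mul_sum]
      refine mul_le_mul_of_nonneg_left ?_ (by positivity)
      rw [sum_add_distrib]
      have g1 := hH j hj
      have g2 : ∑ x0 ∈ iv k a, rt L (H x0 (L + (k + 1))) (k + 1 + r) (ix r j) x ≤
          lam * 2 ^ k := by
        have e : ∀ x0, rt L (H x0 (L + (k + 1))) (k + 1 + r) (ix r j) x =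
            ((2 : ℝ) ^ r)⁻¹ * ∑ j' ∈ iv r (ix r j), rt L (H x0 (L + (k + 1))) (k + 1) j' x :=
          fun x0 => (rt_mean _ _ _ _ _).symm
        simp only [e]
        rw [← mul_sum, sum_comm]
        have p2 : (0 : ℝ) < 2 ^ r := by positivity
        rw [inv_mul_le_iff₀ p2]
        have hjr : ix r j ∈ iv (N - (k + 1) - r) T := by
          rw [mem_iv] at hj ⊢
          rw [ix_ix, show r + (N - (k + 1) - r) = N - (k + 1) by omega, hj]
        refine (sum_le_sum fun j' hj' => hH j' (iv_trans (by omega) hjr hj')).trans ?_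
        rw [sum_const, card_iv, nsmul_eq_mul]
        push_cast
        exact le_rfl
      linarith
    refine (sum_le_sum g).trans ?_
    rw [← sum_mul]
    have q := mul_le_mul_of_nonneg_right (H736.geo_le (N - (k + 1) + 1))
      (mul_nonneg (by norm_num : (0 : ℝ) ≤ 2) p)
    linarith
  linarith

/-- **The numbers of `lo_pathW` summed over `x₀`**, the multiplier sees `x₀`. -/
theorem W_fam {U : ℤ → ℕ → ℤ → ℤ → Matrix (Ix L) (Ix L) ℝ} {ν : ℤ → ℕ → ℤ → ℤ → ℝ}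
    {lam g : ℤ → ℝ}
    (hv : ∀ x0 ∈ iv N t, ∀ k < N, ∀ x ∈ iv N S, ∀ j ∈ iv (N - (k + 1)) T,
      vd (U x0) k x j ≤ ν x k x0 j)
    (hlam : ∀ x ∈ iv N S, 0 ≤ lam x) (hg : ∀ x ∈ iv N S, MvB N t T (ν x) (g x))
    (hc : ∀ k < N, ∀ a ∈ iv (N - k) t, ∃ v, ∀ x0 ∈ iv k a,
      c x0 (k + 1) = v ∨ c x0 (k + 1) = v + 1)
    (hF : ∀ k < N, ∀ a ∈ iv (N - k) t, ∀ n ∈ iv (N - (k + 1)) R, ∀ x ∈ iv N S,
      ∑ x0 ∈ iv k a, rt L (F x0 (L + (k + 1))) (k + 1) n x ≤ lam x * 2 ^ k)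
    (hH : ∀ k < N, ∀ a ∈ iv (N - k) t, ∀ n ∈ iv (N - (k + 1)) T, ∀ x ∈ iv N S,
      ∑ x0 ∈ iv k a, rt L (H x0 (L + (k + 1))) (k + 1) n x ≤ lam x * 2 ^ k) :
    ∑ x0 ∈ iv N t, (∑ k ∈ range N, GW N R S T (k + 1) (c x0 (k + 1))
        (wf (U x0) (F x0 (L + (k + 1))) (H x0 (L + (k + 1))) k) +
      ∑ k ∈ range N, wh (U x0) (H x0 (L + (k + 1))) N S T k) ≤
      11 * ∑ x ∈ iv N S, lam x * g x := by
  have e1 : ∀ x0 ∈ iv N t, ∑ k ∈ range N, GW N R S T (k + 1) (c x0 (k + 1))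
        (wf (U x0) (F x0 (L + (k + 1))) (H x0 (L + (k + 1))) k) +
      ∑ k ∈ range N, wh (U x0) (H x0 (L + (k + 1))) N S T k ≤
      ∑ k ∈ range N, ∑ x ∈ iv N S, 2 ^ (k + 1) * ∑ j ∈ iv (N - (k + 1)) T,
        rhoW L N R (c x0 (k + 1)) (F x0 (L + (k + 1))) (H x0 (L + (k + 1))) k x j *
          ν x k x0 j := by
    intro x0 hx0
    rw [← sum_add_distrib]
    refine sum_le_sum fun k hk => ?_
    have hk' := mem_range.1 hk
    rw [W_eq hk']
    refine sum_le_sum fun x hx => mul_le_mul_of_nonneg_left (sum_le_sum fun j hj => ?_)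
      (by positivity)
    exact mul_le_mul_of_nonneg_left (hv x0 hx0 k hk' x hx j hj) (rhoW_nonneg ..)
  refine (sum_le_sum e1).trans ?_
  have e2 : ∑ x0 ∈ iv N t, ∑ k ∈ range N, ∑ x ∈ iv N S, (2 : ℝ) ^ (k + 1) *
        ∑ j ∈ iv (N - (k + 1)) T,
        rhoW L N R (c x0 (k + 1)) (F x0 (L + (k + 1))) (H x0 (L + (k + 1))) k x j *
          ν x k x0 j =
      ∑ x ∈ iv N S, ∑ k ∈ range N, 2 ^ (k + 1) * ∑ j ∈ iv (N - (k + 1)) T, ∑ x0 ∈ iv N t,
        rhoW L N R (c x0 (k + 1)) (F x0 (L + (k + 1))) (H x0 (L + (k + 1))) k x j *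
          ν x k x0 j := by
    rw [sum_comm]
    have : ∀ k ∈ range N, ∑ x0 ∈ iv N t, ∑ x ∈ iv N S, (2 : ℝ) ^ (k + 1) *
        ∑ j ∈ iv (N - (k + 1)) T,
        rhoW L N R (c x0 (k + 1)) (F x0 (L + (k + 1))) (H x0 (L + (k + 1))) k x j *
          ν x k x0 j =
        ∑ x ∈ iv N S, 2 ^ (k + 1) * ∑ j ∈ iv (N - (k + 1)) T, ∑ x0 ∈ iv N t,
          rhoW L N R (c x0 (k + 1)) (F x0 (L + (k + 1))) (H x0 (L + (k + 1))) k x j *
            ν x k x0 j := by
      intro k _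
      rw [sum_comm]
      refine sum_congr rfl fun x _ => ?_
      rw [← mul_sum, sum_comm]
    rw [sum_congr rfl this, sum_comm]
  rw [e2, mul_sum]
  refine sum_le_sum fun x hx => ?_
  have q := hg x hx
    (fun k x0 j => rhoW L N R (c x0 (k + 1)) (F x0 (L + (k + 1))) (H x0 (L + (k + 1))) k x j)
    (11 * lam x) (mul_nonneg (by norm_num) (hlam x hx)) (fun k _ j _ x0 _ => rhoW_nonneg ..)
    (fun k hk j hj a ha => by
      obtain ⟨v, hv'⟩ := hc k hk a ha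
      exact rhoW_sum hk hv' (hlam x hx) (fun n hn => hF k hk a ha n hn x hx)
        (fun n hn => hH k hk a ha n hn x hx) hj)
  refine q.trans (le_of_eq (by ring))

end fam

end

end Vale.Agent.P141.H433.CrH
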