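import Vale.Agent.P141.H433.CrH
import Vale.Agent.P141.H747.StageM
import Vale.Agent.P141.H677.GenM

/-!
# The numbers of `H433.lo_pathW` for a slot `SlotN` on a shifted grid, summed over `x₀`

* `vk_RgS`, `mv_RgS` : the change of the averaged slot;
* `W_slot` : `wf` and `wh` summed over `x₀` from the rows of `b` and `C` on the shifted grid.
-/

set_option linter.unusedSectionVars false

namespace Vale.Agent.P141.H433.CrS

open Finset Matrix
open Vale.Agent.P141.PL (Pt iv ix mem_iv ix_ix cb mem_cb)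
open Vale.Agent.P141.PL.H588 (Pl)
open Vale.Agent.P141.H103 (GW)
open Vale.Agent.P141.H958 (lbs)
open Vale.Agent.P141.H338 (cu)
open Vale.Agent.P141.H822 (vk)
open Vale.Agent.P141.H677 (rv GT KT MT MT_mulVec tr_T GT_psd)
open Vale.Agent.P141.H677.Sk (FamA FamV Slt SlotN)
open Vale.Agent.P141.H795 (ys E8)
open Vale.Agent.P141.H747 (RgS RgS_mart shB shC MSb sft)
open Vale.Agent.P141.H609.RPW (um eb ec vd_um rt_eb rt_ec)
open Vale.Agent.P141.H433 (wf wh vd rt)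
open Vale.Agent.P141.H433.CrH
open Vale.Agent.P141.H841 (Rs)
open Vale.Agent.P141.H876 (wn)
open Vale.Agent.P141.H893 (hs2 hs2_sumQ)
open Vale.Agent.P141.H43 (avv)

noncomputable section

open scoped Classical

variable {ι : Type} [Fintype ι] [DecidableEq ι]

/-- the change of the averaged slot is the half difference -/
theorem vk_RgS (a : ℝ) (R : Slt ι) (h h1 x0 : ℤ) (k : ℕ) (x j : ℤ) :
    vk (fun k x n => a • RgS R h h1 x0 k n x) k x j =
      a ^ 2 * hs2 ((1 / 2 : ℝ) • (RgS R h h1 x0 k (2 * j) x - RgS R h h1 x0 k (2 * j + 1) x)) := by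
  unfold vk hs2
  have e1 : a • RgS R h h1 x0 (k + 1) j x - (1 / 2 : ℝ) •
      (a • RgS R h h1 x0 k (2 * j) x + a • RgS R h h1 x0 k (2 * j + 1) x) = 0 := by
    rw [RgS_mart]
    module
  have e2 : (1 / 2 : ℝ) • (a • RgS R h h1 x0 k (2 * j) x - a • RgS R h h1 x0 k (2 * j + 1) x) =
      a • ((1 / 2 : ℝ) • (RgS R h h1 x0 k (2 * j) x - RgS R h h1 x0 k (2 * j + 1) x)) := by
    module
  simp only [e1, e2, Matrix.zero_mul, trace_zero, Real.sqrt_zero, add_zero]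
  rw [transpose_smul, Matrix.smul_mul, Matrix.mul_smul, trace_smul, trace_smul, smul_eq_mul,
    smul_eq_mul, ← mul_assoc, sq]

variable {Al : ℕ → Pt → Prop} {o : ℤ} {K : ℕ} {M : Pt} {l : ℝ} {u : ℤ → ℤ → ι → ℝ} {R : Slt ι}
  {κ E : ℝ}

/-- **The change of the averaged slot against weights which see `x₀`.** -/
theorem mv_RgS (hR : SlotN Al o K M l u R κ E) (hl : 0 < l) (ho : o = 1 ∨ o = -1) {s : Pt}
    (hs : s ∈ cb K 0) {q3 : ℤ} (hq0 : 0 ≤ q3) (hq1 : q3 ≤ 1) (t x : ℤ) (a : ℝ) :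
    MvB K t (M.2.2 - q3)
      (fun k x0 j => vk (fun k x n => a • RgS R s.2.2 s.1 x0 k n x) k x j)
      (a ^ 2 * (6200 * (4 ^ K * ((2 * l)⁻¹ * ∑ p ∈ wn K t (x + s.1) M.2.2,
        (GT u (x + s.1) K p).trace)))) := by
  obtain ⟨sg, hs1, -, hRm⟩ := hR.sgn
  have e : ∀ (k : ℕ) (x0 n : ℤ), RgS R s.2.2 s.1 x0 k n x =
      Rs (MT l (KT l u (x + s.1))) o (x + s.1) (sg (x + s.1)) K s.2.2 k x0 n := by
    intro k x0 n
    rw [H747.RgS_avv]
    unfold H841.Rs
    congr 1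
    funext w
    exact hRm x0 0 (w + s.2.2) (x + s.1)
  simp only [vk_RgS, e]
  have hs3 : ix K s.2.2 = 0 := by
    have h := mem_cb.1 hs
    exact congrArg (fun p : Pt => p.2.2) h
  have hix : ∀ a : ℤ, ix K (2 ^ K * a + s.2.2) = a := by
    intro a
    unfold PL.ix at hs3 ⊢
    rw [add_comm, Int.add_mul_ediv_left _ _ (by positivity), hs3, zero_add]
  have r1 : M.2.2 - 1 ≤ ix K (2 ^ K * (M.2.2 - q3) + s.2.2) := by
    rw [hix]
    linarith
  have r2 : ix K (2 ^ K * (M.2.2 - q3) + 2 ^ K + s.2.2) ≤ M.2.2 + 1 := by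
    rw [show (2 : ℤ) ^ K * (M.2.2 - q3) + 2 ^ K + s.2.2 =
      2 ^ K * (M.2.2 - q3 + 1) + s.2.2 by ring, hix]
    linarith
  refine MvB.of_le ?_ (sq_nonneg a)
  intro ρ lam hlam h0 h1
  have q := hs2_sumQ (Mx := MT l (KT l u (x + s.1))) (o := o) (x1 := x + s.1) (T := t)
    (M3 := M.2.2) (s := sg (x + s.1)) (n := K) (hs1 (x + s.1)) ho (sh := s.2.2)
    (R := M.2.2 - q3) r1 r2 (ρ := ρ) (lam := lam) hlam h0 h1
    (tr_T hl K u (x + s.1)) (fun k m a => MT_mulVec l (KT l u (x + s.1)) a k m)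
  refine q.trans (le_of_eq ?_)
  ring

/-! ### Rows -/

theorem shift_sum {A B : Finset ℤ} (c : ℤ) {f : ℤ → ℝ} (hf : ∀ x ∈ B, 0 ≤ f x) :
    ∑ x ∈ A, (if x + c ∈ B then f (x + c) else 0) ≤ ∑ x ∈ B, f x := by
  rw [← sum_filter]
  have e : ∑ x ∈ A.filter (fun x => x + c ∈ B), f (x + c) =
      ∑ y ∈ (A.filter (fun x => x + c ∈ B)).image (fun x => x + c), f y := by
    rw [sum_image fun a _ b _ h => by simpa using h]
  rw [e]
  refine sum_le_sum_of_subset_of_nonneg (fun y hy => ?_) fun y hy _ => hf y hy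
  obtain ⟨x, hx, rfl⟩ := mem_image.1 hy
  exact (mem_filter.1 hx).2

/-- the plane takes two values on a cell of `x₀` -/
theorem plane_two (s : Pt) (j : ℤ) (k : ℕ) (a : ℤ) :
    ∃ v, ∀ x0 ∈ iv k a, ix (k + 1) (ys (-x0) s) - j = v ∨ ix (k + 1) (ys (-x0) s) - j = v + 1 := by
  set y0 : ℤ := ys (-(2 ^ k * a + 2 ^ k)) s with hy0
  refine ⟨ix (k + 1) y0 - j, fun x0 hx0 => ?_⟩
  unfold PL.iv at hx0
  rw [mem_Ico] at hx0
  have h1 : y0 ≤ ys (-x0) s := by
    rw [hy0]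
    unfold H795.ys
    linarith [hx0.2]
  have h2 : ys (-x0) s ≤ y0 + 2 ^ (k + 1) * 1 := by
    rw [hy0]
    unfold H795.ys
    have hp : (0 : ℤ) < 2 ^ k := by positivity
    rw [pow_succ]
    linarith [hx0.1]
  have a1 := H893.ix_mono (i := k + 1) h1
  have a2 := H893.ix_mono (i := k + 1) h2
  rw [H893.ix_add] at a2
  omega

variable {L : ℕ} {e : ι ⊕ ι → ℤ}

/-- the row of `b` -/
theorem row_b (he : Function.Injective e) (hm : ∀ i, e i ∈ lbs L) (b : FamV ι) (s : Pt) (x0 : ℤ)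
    (k a : ℕ) (n x : ℤ) :
    rt L (eb L e (MSb K M b s x0) (L + k)) a n x =
      ((2 : ℝ) ^ a)⁻¹ * ∑ y ∈ iv a n, shB K M s (b x0) k x y ⬝ᵥ shB K M s (b x0) k x y := by
  rw [rt_eb]
  congr 1
  refine sum_congr rfl fun y _ => ?_
  have h := H338.sum_cu_cu he hm (MSb K M b s x0 k x y) (MSb K M b s x0 k x y)
  simp only [sq]
  rw [h]
  unfold H747.MSb dotProduct
  rw [Fintype.sum_sum_type]
  simp

/-- the row of `C` -/
theorem row_C (he : Function.Injective e) (hm : ∀ i, e i ∈ lbs L) (C : FamV ι) (s : Pt) (x0 : ℤ)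
    (k a : ℕ) (n x : ℤ) :
    rt L (ec L e (shC K M s (C x0)) (L + k)) a n x =
      ((2 : ℝ) ^ a)⁻¹ * ∑ z ∈ iv a n, shC K M s (C x0) k z x ⬝ᵥ shC K M s (C x0) k z x := by
  rw [rt_ec]
  congr 1
  refine sum_congr rfl fun z _ => ?_
  have h := H338.sum_cu_cu he hm (Sum.elim (shC K M s (C x0) k z x) (0 : ι → ℝ))
    (Sum.elim (shC K M s (C x0) k z x) (0 : ι → ℝ))
  simp only [sq]
  rw [h]
  unfold dotProduct
  rw [Fintype.sum_sum_type]
  simp

/-- **The numbers of `lo_pathW` summed over `x₀` at one slot, one plane, one grid, one root of the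
grid**, from the rows of `b` and `C` on the grid. -/
theorem W_slot (hR : SlotN Al o K M l u R κ E) (hl : 0 < l) (ho : o = 1 ∨ o = -1) (hκ : 1 ≤ κ)
    {s : Pt} (hs : s ∈ cb K 0) {q : Pt} (hq : q ∈ E8) (j t : ℤ)
    (he : Function.Injective e) (hm : ∀ i, e i ∈ lbs L) {ε : ℝ} (hε : 0 < ε) {b C : FamV ι}
    {lam : ℝ} (hlam : 0 ≤ lam)
    (rB : ∀ k < K, ∀ a ∈ iv (K - k) t, ∀ n ∈ iv (K - (k + 1)) (M.2.1 - q.2.1), ∀ x,
      ix K (x + s.1) = M.1 → ∑ x0 ∈ iv k a, ∑ y ∈ iv (k + 1) n,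
        shB K M s (b x0) (k + 1) x y ⬝ᵥ shB K M s (b x0) (k + 1) x y ≤
          lam * 2 ^ k * 2 ^ (k + 1))
    (rC : ∀ k < K, ∀ a ∈ iv (K - k) t, ∀ n ∈ iv (K - (k + 1)) (M.2.2 - q.2.2), ∀ x,
      ix K (x + s.1) = M.1 → ∑ x0 ∈ iv k a, ∑ z ∈ iv (k + 1) n,
        shC K M s (C x0) (k + 1) z x ⬝ᵥ shC K M s (C x0) (k + 1) z x ≤
          lam * 2 ^ k * 2 ^ (k + 1)) :
    ∑ x0 ∈ iv K t, (∑ k ∈ range K, GW K (M.2.1 - q.2.1) (M.1 - q.1) (M.2.2 - q.2.2) (k + 1)
        (ix (k + 1) (ys (-x0) s) - j)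
        (wf (um L e ε κ fun k x n => κ⁻¹ • RgS R s.2.2 s.1 x0 k n x)
          (eb L e (MSb K M b s x0) (L + (k + 1))) (ec L e (shC K M s (C x0)) (L + (k + 1))) k) +
      ∑ k ∈ range K, wh (um L e ε κ fun k x n => κ⁻¹ • RgS R s.2.2 s.1 x0 k n x)
        (ec L e (shC K M s (C x0)) (L + (k + 1))) K (M.1 - q.1) (M.2.2 - q.2.2) k) ≤
      68200 * (lam * (4 ^ K * ((2 * l)⁻¹ * ∑ x1 ∈ iv K M.1, ∑ p ∈ wn K t x1 M.2.2,
        (GT u x1 K p).trace))) := by
  have κ0 : 0 < κ := by linarith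
  have hq3 : 0 ≤ q.2.2 ∧ q.2.2 ≤ 1 := by
    unfold H795.E8 at hq
    rw [mem_product, mem_product] at hq
    exact mem_Icc.1 hq.2.2
  have z0 : ∀ (v : ι → ℝ), 0 ≤ v ⬝ᵥ v := fun v => by
    unfold dotProduct
    exact sum_nonneg fun _ _ => mul_self_nonneg _
  have key := W_fam (L := L) (N := K) (R := M.2.1 - q.2.1) (S := M.1 - q.1)
    (T := M.2.2 - q.2.2) (t := t) (c := fun x0 k => ix k (ys (-x0) s) - j)
    (U := fun x0 => um L e ε κ fun k x n => κ⁻¹ • RgS R s.2.2 s.1 x0 k n x)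
    (F := fun x0 => eb L e (MSb K M b s x0)) (H := fun x0 => ec L e (shC K M s (C x0)))
    (ν := fun x k x0 j => vk (fun k x n => κ⁻¹ • RgS R s.2.2 s.1 x0 k n x) k x j)
    (lam := fun x => if ix K (x + s.1) = M.1 then lam else 0)
    (g := fun x => κ⁻¹ ^ 2 * (6200 * (4 ^ K * ((2 * l)⁻¹ * ∑ p ∈ wn K t (x + s.1) M.2.2,
      (GT u (x + s.1) K p).trace))))
    (fun x0 _ k _ x _ j _ => vd_um he hm hε κ0.le _ k x j)
    (fun x _ => by
      beta_reduce
      split_ifs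
      · exact hlam
      · exact le_rfl)
    (fun x _ => mv_RgS hR hl ho hs hq3.1 hq3.2 t x κ⁻¹)
    (fun k _ a _ => plane_two s j k a)
    (fun k hk a ha n hn x hx => by
      beta_reduce
      simp only [row_b he hm]
      rw [← mul_sum]
      have p2 : (0 : ℝ) < 2 ^ (k + 1) := by positivity
      rw [inv_mul_le_iff₀ p2]
      split_ifs with h
      · refine (rB k hk a ha n hn x h).trans (le_of_eq (by ring))
      · refine le_of_eq ?_
        rw [zero_mul, mul_zero]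
        refine sum_eq_zero fun x0 _ => sum_eq_zero fun y _ => ?_
        have e0 : shB K M s (b x0) (k + 1) x y = 0 := by
          unfold H747.shB H747.sft
          rw [if_neg fun h' => h h'.1]
        rw [e0, dotProduct_zero])
    (fun k hk a ha n hn x hx => by
      beta_reduce
      simp only [row_C he hm]
      rw [← mul_sum]
      have p2 : (0 : ℝ) < 2 ^ (k + 1) := by positivity
      rw [inv_mul_le_iff₀ p2]
      split_ifs with h
      · refine (rC k hk a ha n hn x h).trans (le_of_eq (by ring))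
      · refine le_of_eq ?_
        rw [zero_mul, mul_zero]
        refine sum_eq_zero fun x0 _ => sum_eq_zero fun y _ => ?_
        have e0 : shC K M s (C x0) (k + 1) y x = 0 := by
          unfold H747.shC H747.sft
          rw [if_neg fun h' => h h'.2]
        rw [e0, dotProduct_zero])
  refine key.trans ?_
  set f : ℤ → ℝ := fun x1 => lam * (6200 * (4 ^ K * ((2 * l)⁻¹ * ∑ p ∈ wn K t x1 M.2.2,
    (GT u x1 K p).trace))) with hf
  have f0 : ∀ x1, 0 ≤ f x1 := fun x1 => by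
    rw [hf]
    have : 0 ≤ ∑ p ∈ wn K t x1 M.2.2, (GT u x1 K p).trace :=
      sum_nonneg fun p _ => (GT_psd u x1 K p).trace_nonneg
    positivity
  have h1 : ∀ x ∈ iv K (M.1 - q.1), (if ix K (x + s.1) = M.1 then lam else 0) *
      (κ⁻¹ ^ 2 * (6200 * (4 ^ K * ((2 * l)⁻¹ * ∑ p ∈ wn K t (x + s.1) M.2.2,
      (GT u (x + s.1) K p).trace)))) ≤ (if x + s.1 ∈ iv K M.1 then f (x + s.1) else 0) := by
    intro x _
    have hk1 : κ⁻¹ ^ 2 ≤ 1 := by
      have : κ⁻¹ ≤ 1 := inv_le_one_of_one_le₀ hκ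
      exact pow_le_one₀ (by positivity) this
    by_cases h : ix K (x + s.1) = M.1
    · rw [if_pos h, if_pos (mem_iv.2 h)]
      have hp : 0 ≤ 6200 * (4 ^ K * ((2 * l)⁻¹ * ∑ p ∈ wn K t (x + s.1) M.2.2,
          (GT u (x + s.1) K p).trace)) := by
        have : 0 ≤ ∑ p ∈ wn K t (x + s.1) M.2.2, (GT u (x + s.1) K p).trace :=
          sum_nonneg fun p _ => (GT_psd u (x + s.1) K p).trace_nonneg
        positivity
      have hp2 := mul_le_mul_of_nonneg_right hk1 hp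
      rw [one_mul] at hp2
      exact mul_le_mul_of_nonneg_left hp2 hlam
    · rw [if_neg h, zero_mul]
      split_ifs
      · exact f0 _
      · exact le_rfl
  have h2 := (sum_le_sum h1).trans (shift_sum (A := iv K (M.1 - q.1)) (B := iv K M.1) s.1
    (f := f) fun x _ => f0 x)
  refine (mul_le_mul_of_nonneg_left h2 (by norm_num : (0 : ℝ) ≤ 11)).trans (le_of_eq ?_)
  rw [hf]
  simp only [← mul_sum]
  ring

end

end Vale.Agent.P141.H433.CrS
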