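import Vale.Agent.P141.H433.CrS
import Vale.Agent.P141.H483.QSh
import Vale.Agent.P141.H840.CrB
import Vale.Agent.P141.H973.RowPM2

/-!
# The numbers of the crude pair `(b, C~)` of one slot, class data

* `mv_RgS'` : the change of the averaged slot, only the root of `x₂` counts;
* `WS_le` : the sum `H840.WS` from the bundle.
-/

set_option linter.unusedSectionVars false

namespace Vale.Agent.P141.H433.CrW

open Finset Matrix
open Vale.Agent.P141.PL (Pt iv ix mem_iv ix_ix cb mem_cb cx)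
open Vale.Agent.P141.PL.H315 (Tri)
open Vale.Agent.P141.H103 (GW)
open Vale.Agent.P141.H958 (lbs)
open Vale.Agent.P141.H822 (vk)
open Vale.Agent.P141.H677 (rv GT KT MT MT_mulVec tr_T GT_psd)
open Vale.Agent.P141.H677.Sk (FamA FamV Slt SlotN FDs lam1)
open Vale.Agent.P141.H401 (FibU)
open Vale.Agent.P141.H305 (Cls)
open Vale.Agent.P141.H795 (ys E8)
open Vale.Agent.P141.H747 (RgS RgS_mart shB shC MSb sft)
open Vale.Agent.P141.H609.RPW (um eb ec vd_um rt_eb rt_ec)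
open Vale.Agent.P141.H433 (wf wh vd rt)
open Vale.Agent.P141.H433.CrH
open Vale.Agent.P141.H433.CrS (vk_RgS row_b row_C plane_two shift_sum)
open Vale.Agent.P141.H841 (Rs)
open Vale.Agent.P141.H876 (wn)
open Vale.Agent.P141.H893 (hs2 hs2_sumQ)
open Vale.Agent.P141.H483 (uc tr_wn Rs_cut)
open Vale.Agent.P141.H277.Phi (Cz)
open Vale.Agent.P141.H840 (WS tr_cls)

noncomputable section

open scoped Classical

variable {ι : Type} [Fintype ι] [DecidableEq ι]

variable {Al : ℕ → Pt → Prop} {o : ℤ} {K : ℕ} {M : Pt} {l : ℝ} {u : ℤ → ℤ → ι → ℝ} {R : Slt ι}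
  {κ E : ℝ}

/-- **The change of the averaged slot against weights which see `x₀`**, only the root counts. -/
theorem mv_RgS' (hR : SlotN Al o K M l u R κ E) (hl : 0 < l) (ho : o = 1 ∨ o = -1) {s : Pt}
    (hs : s ∈ cb K 0) {q3 : ℤ} (hq0 : 0 ≤ q3) (hq1 : q3 ≤ 1) (t x : ℤ) (a : ℝ) :
    MvB K t (M.2.2 - q3)
      (fun k x0 j => vk (fun k x n => a • RgS R s.2.2 s.1 x0 k n x) k x j)
      (a ^ 2 * (6200 * (4 ^ K * ((2 * l)⁻¹ * (GT u (x + s.1) K M.2.1).trace)))) := by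
  obtain ⟨sg, hs1, hoff, hRm⟩ := hR.sgn
  have hcut : ∀ k a b, k + 1 ≤ K →
      ix (K - (k + 1)) (o - 2 - a - ix (k + 1) (x + s.1) - b) ≠ M.2.1 →
      sg (x + s.1) (k + 1) a b = 0 := by
    intro k a b _ h
    refine hoff (x + s.1) (k + 1) a b fun hm => h ?_
    have h1 := H677.sN_sub _ _ _ _ _ _ hm
    unfold PL.H804.bx3 at h1
    exact mem_iv.1 (mem_product.1 (mem_product.1 (mem_filter.1 h1).1).2).1
  have e : ∀ (k : ℕ) (x0 n : ℤ), RgS R s.2.2 s.1 x0 k n x =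
      Rs (MT l (KT l (uc K M.2.1 u) (x + s.1))) o (x + s.1) (sg (x + s.1)) K s.2.2 k x0 n := by
    intro k x0 n
    rw [← Rs_cut hcut, H747.RgS_avv]
    unfold H841.Rs
    congr 1
    funext w
    exact hRm x0 0 (w + s.2.2) (x + s.1)
  simp only [vk_RgS, e]
  have hs3 : ix K s.2.2 = 0 := by
    have h := mem_cb.1 hs
    exact congrArg (fun p : Pt => p.2.2) h
  have hix : ∀ a : ℤ, ix K (2 ^ K * a + s.2.2) = a := by
    intro a
    unfold PL.ix at hs3 ⊢
    rw [add_comm, Int.add_mul_ediv_left _ _ (by positivity), hs3, zero_add]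
  have r1 : M.2.2 - 1 ≤ ix K (2 ^ K * (M.2.2 - q3) + s.2.2) := by
    rw [hix]
    linarith
  have r2 : ix K (2 ^ K * (M.2.2 - q3) + 2 ^ K + s.2.2) ≤ M.2.2 + 1 := by
    rw [show (2 : ℤ) ^ K * (M.2.2 - q3) + 2 ^ K + s.2.2 =
      2 ^ K * (M.2.2 - q3 + 1) + s.2.2 by ring, hix]
    linarith
  refine MvB.of_le ?_ (sq_nonneg a)
  intro ρ lam hlam h0 h1
  have q := hs2_sumQ (Mx := MT l (KT l (uc K M.2.1 u) (x + s.1))) (o := o) (x1 := x + s.1)
    (T := t) (M3 := M.2.2) (s := sg (x + s.1)) (n := K) (hs1 (x + s.1)) ho (sh := s.2.2)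
    (R := M.2.2 - q3) r1 r2 (ρ := ρ) (lam := lam) hlam h0 h1
    (tr_T hl K (uc K M.2.1 u) (x + s.1))
    (fun k m a => MT_mulVec l (KT l (uc K M.2.1 u) (x + s.1)) a k m)
  refine q.trans ?_
  have h2 := tr_wn K u M.2.1 t (x + s.1) M.2.2
  have h3 : (0 : ℝ) ≤ 6200 * (lam * (4 ^ K * (2 * l)⁻¹)) := by positivity
  have h4 := mul_le_mul_of_nonneg_left h2 h3
  refine le_trans (le_of_eq (by ring)) (h4.trans (le_of_eq (by ring)))

variable {p : H401.Num} {n : ℕ} {ez : ℝ}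
  {F1 F2 F3 : ℕ → Pt → ℝ} {x : Pt} {s r P : ℝ} {U : Tri} {g : ℤ → ℤ → ℝ}
  {v : ℤ → ℤ → ι → ℝ} {A : FamA} {b C : FamV ι} {Q1 Q2 Q3 : ℕ → Pt → Prop}
  {v' : ℤ → ℤ → ι → ℝ}

/-- **The numbers of the crude pair of one slot, class data.** -/
theorem WS_le (h : FDs p n ez F1 F2 F3 K x s r U g u v A b C Q1 Q2 Q3 v')
    (hcl : Cls K x s r P U g u v) (hf : FibU p K x s r U u) (he1 : 1 ≤ p.e)
    (hl1 : 0 ≤ lam1 p s r) (hez : 0 < ez) (hK : K ≤ n) {L : ℕ} {e : ι ⊕ ι → ℤ}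
    (he : Function.Injective e) (hm : ∀ i, e i ∈ lbs L) {w : Pt} (hw : w ∈ cb K 0) (j t : ℤ)
    {q : Pt} (hq : q ∈ E8) {ε : ℝ} (hε : 0 < ε) (hR : SlotN Al o K (cx K x) l u R κ E)
    (hl : 0 < l) (ho : o = 1 ∨ o = -1) (hκ : 0 < κ) :
    WS K (cx K x) R b (Cz ez C) L e ε κ w t j q ≤
      (κ ^ 2)⁻¹ * (204600 * (p.e * lam1 p s r) * ((2 * l)⁻¹ * (s * 8 ^ K))) := by
  have hq3 : 0 ≤ q.2.2 ∧ q.2.2 ≤ 1 := by
    unfold H795.E8 at hq
    rw [mem_product, mem_product] at hq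
    exact mem_Icc.1 hq.2.2
  have hL : 0 ≤ 3 * (p.e * lam1 p s r) := by positivity
  have key := W_fam (L := L) (N := K) (R := (cx K x).2.1 - q.2.1) (S := (cx K x).1 - q.1)
    (T := (cx K x).2.2 - q.2.2) (t := t) (c := fun x0 k => ix k (ys (-x0) w) - j)
    (U := fun x0 => um L e ε κ fun k x n => κ⁻¹ • RgS R w.2.2 w.1 x0 k n x)
    (F := fun x0 => eb L e (MSb K (cx K x) b w x0))
    (H := fun x0 => ec L e (shC K (cx K x) w (Cz ez C x0)))
    (ν := fun x k x0 j => vk (fun k x n => κ⁻¹ • RgS R w.2.2 w.1 x0 k n x) k x j)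
    (lam := fun x' => if ix K (x' + w.1) = (cx K x).1 then 3 * (p.e * lam1 p s r) else 0)
    (g := fun x' => κ⁻¹ ^ 2 * (6200 * (4 ^ K * ((2 * l)⁻¹ *
      (GT u (x' + w.1) K (cx K x).2.1).trace))))
    (fun x0 _ k _ x _ j _ => vd_um he hm hε hκ.le _ k x j)
    (fun x' _ => by
      beta_reduce
      split_ifs
      · exact hL
      · exact le_rfl)
    (fun x' _ => mv_RgS' hR hl ho hw hq3.1 hq3.2 t x' κ⁻¹)
    (fun k _ a _ => plane_two w j k a)
    (fun k hk a ha m hm' x' hx => by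
      beta_reduce
      split_ifs with h'
      · exact H973.RowPM.hF he hm h hK (by linarith) hl1 hf rfl rfl w k hk a m x'
      · refine le_of_eq ?_
        rw [zero_mul]
        simp only [row_b he hm]
        refine sum_eq_zero fun x0 _ => mul_eq_zero_of_right _ (sum_eq_zero fun y _ => ?_)
        have e0 : shB K (cx K x) w (b x0) (k + 1) x' y = 0 := by
          unfold H747.shB H747.sft
          rw [if_neg fun h'' => h' h''.1]
        rw [e0, dotProduct_zero])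
    (fun k hk a ha m hm' x' hx => by
      beta_reduce
      split_ifs with h'
      · refine (H973.RowPM.hH he hm h hK hez.le hl1 (H973.RowPM.sqrt_inv_sq hez) rfl rfl w k hk
          a m x').trans ?_
        have p2 : (0 : ℝ) < 2 ^ k := by positivity
        refine mul_le_mul_of_nonneg_right ?_ p2.le
        nlinarith
      · refine le_of_eq ?_
        rw [zero_mul]
        simp only [row_C he hm]
        refine sum_eq_zero fun x0 _ => mul_eq_zero_of_right _ (sum_eq_zero fun y _ => ?_)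
        have e0 : shC K (cx K x) w (Cz ez C x0) (k + 1) y x' = 0 := by
          unfold H747.shC H747.sft
          rw [if_neg fun h'' => h' h''.2]
        rw [e0, dotProduct_zero])
  have key' : WS K (cx K x) R b (Cz ez C) L e ε κ w t j q ≤
      11 * ∑ x' ∈ iv K ((cx K x).1 - q.1),
        (if ix K (x' + w.1) = (cx K x).1 then 3 * (p.e * lam1 p s r) else 0) *
        (κ⁻¹ ^ 2 * (6200 * (4 ^ K * ((2 * l)⁻¹ * (GT u (x' + w.1) K (cx K x).2.1).trace)))) :=
    key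
  refine key'.trans ?_
  set f : ℤ → ℝ := fun x1 => 3 * (p.e * lam1 p s r) * (κ⁻¹ ^ 2 * (6200 * (4 ^ K *
    ((2 * l)⁻¹ * (GT u x1 K (cx K x).2.1).trace)))) with hfd
  have f0 : ∀ x1, 0 ≤ f x1 := fun x1 => by
    rw [hfd]
    have : 0 ≤ (GT u x1 K (cx K x).2.1).trace := (GT_psd u x1 K _).trace_nonneg
    positivity
  have h1 : ∀ x' ∈ iv K ((cx K x).1 - q.1),
      (if ix K (x' + w.1) = (cx K x).1 then 3 * (p.e * lam1 p s r) else 0) *
        (κ⁻¹ ^ 2 * (6200 * (4 ^ K * ((2 * l)⁻¹ * (GT u (x' + w.1) K (cx K x).2.1).trace)))) ≤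
        (if x' + w.1 ∈ iv K (cx K x).1 then f (x' + w.1) else 0) := by
    intro x' _
    by_cases h' : ix K (x' + w.1) = (cx K x).1
    · rw [if_pos h', if_pos (mem_iv.2 h')]
    · rw [if_neg h', zero_mul]
      split_ifs
      · exact f0 _
      · exact le_rfl
  have h2 := (sum_le_sum h1).trans (shift_sum (A := iv K ((cx K x).1 - q.1))
    (B := iv K (cx K x).1) w.1 (f := f) fun x' _ => f0 x')
  refine (mul_le_mul_of_nonneg_left h2 (by norm_num : (0 : ℝ) ≤ 11)).trans ?_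
  have h3 : ∑ x1 ∈ iv K (cx K x).1, f x1 = 3 * (p.e * lam1 p s r) * (κ⁻¹ ^ 2 * (6200 * (4 ^ K *
      ((2 * l)⁻¹ * ∑ x1 ∈ iv K (cx K x).1, (GT u x1 K (cx K x).2.1).trace)))) := by
    rw [hfd]
    simp only [← mul_sum]
  rw [h3]
  have h4 := tr_cls hcl
  have h5 : (0 : ℝ) ≤ 11 * (3 * (p.e * lam1 p s r) * (κ⁻¹ ^ 2 * (6200 * (4 ^ K *
    (2 * l)⁻¹)))) := by positivity
  have h6 := mul_le_mul_of_nonneg_left h4 h5
  refine le_trans (le_of_eq (by ring)) (h6.trans (le_of_eq ?_))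
  have e8 : (8 : ℝ) ^ K = 4 ^ K * 2 ^ K := by
    rw [← mul_pow]; norm_num
  rw [e8, inv_pow]
  ring

end

end Vale.Agent.P141.H433.CrW
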