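import Vale.Agent.P075.R.Pt

/-!
# One moving contraction around a saturated Gram matrix
-/

namespace Vale.Agent.P141.H433

open Matrix Vale.Agent.P075

variable {n : Type*} [Fintype n] [DecidableEq n]

/-! ### contractions -/

/-- a matrix of norm at most one, both sides -/
def Ct (U : Matrix n n ℝ) : Prop := (1 - Uᵀ * U).PosSemidef ∧ (1 - U * Uᵀ).PosSemidef

theorem Ct.tr {U : Matrix n n ℝ} (h : Ct U) : Ct Uᵀ := by
  unfold Ct
  rw [transpose_transpose]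
  exact ⟨h.2, h.1⟩

theorem Ct.one : Ct (1 : Matrix n n ℝ) := by
  unfold Ct
  rw [transpose_one, Matrix.mul_one, sub_self]
  exact ⟨PosSemidef.zero, PosSemidef.zero⟩

theorem Ct.mul {U W : Matrix n n ℝ} (hU : Ct U) (hW : Ct W) : Ct (U * W) := by
  constructor
  · have e : 1 - (U * W)ᵀ * (U * W) = (1 - Wᵀ * W) + Wᵀ * (1 - Uᵀ * U) * (Wᵀ)ᵀ := by
      rw [transpose_mul, transpose_transpose]; noncomm_ring
    rw [e]
    exact hW.1.add (psd_conj hU.1 _)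
  · have e : 1 - (U * W) * (U * W)ᵀ = (1 - U * Uᵀ) + U * (1 - W * Wᵀ) * Uᵀ := by
      rw [transpose_mul]; noncomm_ring
    rw [e]
    exact hU.2.add (psd_conj hW.2 _)

theorem Ct.mean {U₀ U₁ : Matrix n n ℝ} (h0 : Ct U₀) (h1 : Ct U₁) :
    Ct ((1 / 2 : ℝ) • (U₀ + U₁)) := by
  constructor
  · have e : 1 - ((1 / 2 : ℝ) • (U₀ + U₁))ᵀ * ((1 / 2 : ℝ) • (U₀ + U₁))
        = (1 / 2 : ℝ) • (1 - U₀ᵀ * U₀) + (1 / 2 : ℝ) • (1 - U₁ᵀ * U₁)
          + ((1 / 2 : ℝ) • (U₀ - U₁))ᵀ * ((1 / 2 : ℝ) • (U₀ - U₁)) := by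
      simp only [transpose_smul, transpose_add, transpose_sub, Matrix.smul_mul, Matrix.mul_smul,
        Matrix.add_mul, Matrix.mul_add, Matrix.sub_mul, Matrix.mul_sub]
      module
    rw [e]
    exact ((h0.1.smul (by norm_num)).add (h1.1.smul (by norm_num))).add (psd_transpose_mul _)
  · have e : 1 - ((1 / 2 : ℝ) • (U₀ + U₁)) * ((1 / 2 : ℝ) • (U₀ + U₁))ᵀ
        = (1 / 2 : ℝ) • (1 - U₀ * U₀ᵀ) + (1 / 2 : ℝ) • (1 - U₁ * U₁ᵀ)
          + ((1 / 2 : ℝ) • (U₀ - U₁)) * ((1 / 2 : ℝ) • (U₀ - U₁))ᵀ := by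
      simp only [transpose_smul, transpose_add, transpose_sub, Matrix.smul_mul, Matrix.mul_smul,
        Matrix.add_mul, Matrix.mul_add, Matrix.sub_mul, Matrix.mul_sub]
      module
    rw [e]
    exact ((h0.2.smul (by norm_num)).add (h1.2.smul (by norm_num))).add (psd_mul_transpose _)

/-- conjugation keeps `≤ 1` -/
theorem conj_le_one {U P : Matrix n n ℝ} (hU : Ct U) (hP : (1 - P).PosSemidef) :
    (1 - U * P * Uᵀ).PosSemidef := by
  have e : 1 - U * P * Uᵀ = (1 - U * Uᵀ) + U * (1 - P) * Uᵀ := by noncomm_ring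
  rw [e]
  exact hU.2.add (psd_conj hP _)

/-- conjugation by a contraction does not increase the trace -/
theorem trace_conj_le {U P : Matrix n n ℝ} (hU : Ct U) (hP : P.PosSemidef) :
    (U * P * Uᵀ).trace ≤ P.trace := by
  rw [Matrix.mul_assoc, trace_mul_comm, Matrix.mul_assoc]
  have h := trace_mul_le_right (V := Uᵀ * U) (W := 1) hP hU.1
  rwa [Matrix.mul_one] at h

/-- `W² ≤ w W` -/
theorem smul_sub_sq_psd {W : Matrix n n ℝ} {w : ℝ} (hW : W.PosSemidef)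
    (h : (w • (1 : Matrix n n ℝ) - W).PosSemidef) : (w • W - W * W).PosSemidef := by
  obtain ⟨B, hB, rfl⟩ := exists_sq hW
  have e : w • (B * B) - B * B * (B * B) = B * (w • (1 : Matrix n n ℝ) - B * B) * B := by
    simp only [Matrix.mul_sub, Matrix.sub_mul, Matrix.mul_smul, Matrix.smul_mul, Matrix.mul_one,
      Matrix.mul_assoc]
  rw [e]
  exact psd_conj_symm h (psd_isSymm hB)

/-- `tr (Mᵀ W² M) ≤ w tr (M Mᵀ W)` -/
theorem trace_sq_mul_le {W M : Matrix n n ℝ} {w : ℝ} (hW : W.PosSemidef)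
    (h : (w • (1 : Matrix n n ℝ) - W).PosSemidef) :
    ((W * M)ᵀ * (W * M)).trace ≤ w * (M * Mᵀ * W).trace := by
  have h1 := trace_mul_le_right (psd_mul_transpose M) (smul_sub_sq_psd hW h)
  rw [Matrix.mul_smul, trace_smul, smul_eq_mul] at h1
  refine le_trans (le_of_eq ?_) h1
  rw [transpose_mul, psd_isSymm hW, Matrix.mul_assoc, trace_mul_comm]
  rw [show W * (W * M) * Mᵀ = (W * W) * (M * Mᵀ) by noncomm_ring, trace_mul_comm]

omit [DecidableEq n] in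
/-- `2 |tr (A B)| ≤ tr (A Aᵀ) + tr (Bᵀ B)` -/
theorem two_abs_trace_le (A B : Matrix n n ℝ) :
    2 * |(A * B).trace| ≤ (A * Aᵀ).trace + (Bᵀ * B).trace := by
  have h1 := (psd_transpose_mul (B - Aᵀ)).trace_nonneg
  have h2 := (psd_transpose_mul (B + Aᵀ)).trace_nonneg
  simp only [transpose_sub, transpose_add, transpose_transpose, Matrix.sub_mul, Matrix.mul_sub,
    Matrix.add_mul, Matrix.mul_add, trace_sub, trace_add] at h1 h2
  have e : (Bᵀ * Aᵀ).trace = (A * B).trace := by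
    rw [← transpose_mul, trace_transpose]
  rw [e] at h1 h2
  have h3 : |(A * B).trace| ≤ (1 / 2) * ((A * Aᵀ).trace + (Bᵀ * B).trace) := by
    rw [abs_le]
    constructor <;> linarith
  linarith

/-! ### the outer step with a moving contraction -/

/-- change of the outer mean, exact form -/
theorem move_eq (X₀ X₁ U₀ U₁ U : Matrix n n ℝ) :
    U * phi ((1 / 2 : ℝ) • (X₀ + X₁)) * Uᵀ
      - (1 / 2 : ℝ) • (U₀ * phi X₀ * U₀ᵀ + U₁ * phi X₁ * U₁ᵀ)
      = U * delt X₀ X₁ * Uᵀ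
        + (U - (1 / 2 : ℝ) • (U₀ + U₁)) * ((1 / 2 : ℝ) • (phi X₀ + phi X₁)) * Uᵀ
        + U * ((1 / 2 : ℝ) • (phi X₀ + phi X₁)) * (U - (1 / 2 : ℝ) • (U₀ + U₁))ᵀ
        - (U - (1 / 2 : ℝ) • (U₀ + U₁)) * ((1 / 2 : ℝ) • (phi X₀ + phi X₁))
          * (U - (1 / 2 : ℝ) • (U₀ + U₁))ᵀ
        - ((1 / 2 : ℝ) • (U₀ - U₁)) * ((1 / 2 : ℝ) • (phi X₀ + phi X₁))
          * ((1 / 2 : ℝ) • (U₀ - U₁))ᵀ
        - ((1 / 2 : ℝ) • (U₀ + U₁)) * hdiff X₀ X₁ * ((1 / 2 : ℝ) • (U₀ - U₁))ᵀ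
        - ((1 / 2 : ℝ) • (U₀ - U₁)) * hdiff X₀ X₁ * ((1 / 2 : ℝ) • (U₀ + U₁))ᵀ := by
  simp only [delt, hdiff, transpose_smul, transpose_add, transpose_sub, Matrix.smul_mul,
    Matrix.mul_smul, Matrix.add_mul, Matrix.mul_add, Matrix.sub_mul, Matrix.mul_sub]
  module

/-- **outer step**: `W` psd, `W ≤ w` -/
theorem move_le {X₀ X₁ U₀ U₁ U W : Matrix n n ℝ} {w : ℝ} (h0 : X₀.PosSemidef)
    (h1 : X₁.PosSemidef) (hU₀ : Ct U₀) (hU₁ : Ct U₁) (hU : Ct U) (hw : 0 ≤ w)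
    (hW : W.PosSemidef) (hW1 : (w • (1 : Matrix n n ℝ) - W).PosSemidef) :
    (W * (U * phi ((1 / 2 : ℝ) • (X₀ + X₁)) * Uᵀ
      - (1 / 2 : ℝ) • (U₀ * phi X₀ * U₀ᵀ + U₁ * phi X₁ * U₁ᵀ))).trace
      ≤ (w + 1) * (delt X₀ X₁).trace
        + 2 * |(W * (U - (1 / 2 : ℝ) • (U₀ + U₁)) * ((1 / 2 : ℝ) • (phi X₀ + phi X₁)) * Uᵀ).trace|
        + w * (((1 / 2 : ℝ) • (U₀ - U₁)) * ((1 / 2 : ℝ) • (U₀ - U₁))ᵀ * W).trace := by
  rw [move_eq]
  have hUm := hU₀.mean hU₁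
  have hd := delt_psd h0 h1
  have hφ : ((1 / 2 : ℝ) • (phi X₀ + phi X₁)).PosSemidef :=
    ((phi_psd h0).add (phi_psd h1)).smul (by norm_num)
  have hh := R.hdiff_symm h0 h1
  have hh2 := R.hdiff_sq_le h0 h1
  have hWs := psd_isSymm hW
  have hφs := psd_isSymm hφ
  generalize (1 / 2 : ℝ) • (phi X₀ + phi X₁) = φ at *
  generalize hdiff X₀ X₁ = h at *
  generalize (1 / 2 : ℝ) • (U₀ - U₁) = V at *
  generalize hDD : (1 / 2 : ℝ) • (U₀ + U₁) = Um at *
  generalize U - Um = D at *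
  -- the defect term
  have t1 : (W * (U * delt X₀ X₁ * Uᵀ)).trace ≤ w * (delt X₀ X₁).trace := by
    have q := trace_mul_le_left (psd_conj hd U) hW1
    rw [Matrix.smul_mul, Matrix.one_mul, trace_smul, smul_eq_mul] at q
    exact q.trans (mul_le_mul_of_nonneg_left (trace_conj_le hU hd) hw)
  -- the drift terms
  have t2 : (W * (U * φ * Dᵀ)).trace = (W * D * φ * Uᵀ).trace := by
    rw [← trace_transpose]
    simp only [transpose_mul, transpose_transpose, hWs, hφs]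
    rw [trace_mul_comm]
    congr 1; noncomm_ring
  have t3 : 0 ≤ (W * (D * φ * Dᵀ)).trace := trace_mul_nonneg hW (psd_conj hφ D)
  have t4 : 0 ≤ (W * (V * φ * Vᵀ)).trace := trace_mul_nonneg hW (psd_conj hφ V)
  -- the first order term of the martingale part
  have t5 : (W * (Um * h * Vᵀ)).trace = (W * (V * h * Umᵀ)).trace := by
    rw [← trace_transpose]
    simp only [transpose_mul, transpose_transpose, hWs, hh]
    rw [trace_mul_comm]
    congr 1; noncomm_ring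
  have t6 : 2 * |(W * (V * h * Umᵀ)).trace| ≤ (delt X₀ X₁).trace + w * (V * Vᵀ * W).trace := by
    have q := two_abs_trace_le h (Umᵀ * (W * V))
    have e : (h * (Umᵀ * (W * V))).trace = (W * (V * h * Umᵀ)).trace := by
      rw [show h * (Umᵀ * (W * V)) = (h * Umᵀ) * (W * V) by noncomm_ring, trace_mul_comm]
      congr 1; noncomm_ring
    rw [e, hh] at q
    have q2 : ((Umᵀ * (W * V))ᵀ * (Umᵀ * (W * V))).trace ≤ ((W * V)ᵀ * (W * V)).trace := by
      have e2 : ((Umᵀ * (W * V))ᵀ * (Umᵀ * (W * V)))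
          = (W * V)ᵀ * (Um * Umᵀ) * (W * V) := by
        rw [transpose_mul, transpose_transpose]; noncomm_ring
      have e3 : (W * V)ᵀ * (W * V) - (W * V)ᵀ * (Um * Umᵀ) * (W * V)
          = (W * V)ᵀ * (1 - Um * Umᵀ) * ((W * V)ᵀ)ᵀ := by
        rw [transpose_transpose]; noncomm_ring
      have q3 := (psd_conj hUm.2 (W * V)ᵀ).trace_nonneg
      rw [← e3, trace_sub] at q3
      rw [e2]
      linarith
    have q4 := trace_sq_mul_le (M := V) hW hW1
    linarith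
  have t7 : (W * (D * φ * Uᵀ)).trace = (W * D * φ * Uᵀ).trace := by
    congr 1; noncomm_ring
  have t8 := le_abs_self (W * D * φ * Uᵀ).trace
  have t9 := neg_abs_le (W * (V * h * Umᵀ)).trace
  simp only [Matrix.mul_sub, Matrix.mul_add, trace_sub, trace_add]
  rw [t2, t5, t7]
  linarith

/-- **drift term**: `D = Z E Z`, `E` a contraction -/
theorem drift_le {W Z E φ U : Matrix n n ℝ} {w : ℝ} (hW : W.PosSemidef)
    (hW1 : (w • (1 : Matrix n n ℝ) - W).PosSemidef) (hZ : Zᵀ = Z) (hE : Ct E)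
    (hφ : φ.PosSemidef) (hφ1 : (1 - φ).PosSemidef) (hU : Ct U) :
    2 * |(W * (Z * E * Z) * φ * Uᵀ).trace| ≤ (Z * Z * φ).trace + w * (Z * Z * W).trace := by
  obtain ⟨b, hb, hbb⟩ := exists_sq hφ
  have hbs := psd_isSymm hb
  have hWs := psd_isSymm hW
  have q := two_abs_trace_le (E * Z * b) (b * Uᵀ * W * Z)
  have e : ((E * Z * b) * (b * Uᵀ * W * Z)).trace = (W * (Z * E * Z) * φ * Uᵀ).trace := by
    rw [← hbb, show (E * Z * b) * (b * Uᵀ * W * Z) = (E * Z * (b * b) * Uᵀ) * (W * Z) by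
      noncomm_ring, trace_mul_comm]
    congr 1; noncomm_ring
  rw [e] at q
  refine q.trans (add_le_add ?_ ?_)
  · have e1 : E * Z * b * (E * Z * b)ᵀ = E * (Z * φ * Z) * Eᵀ := by
      simp only [transpose_mul, hZ, hbs, ← hbb]; noncomm_ring
    have hp : (Z * φ * Z).PosSemidef := psd_conj_symm hφ hZ
    rw [e1]
    refine (trace_conj_le hE hp).trans (le_of_eq ?_)
    rw [trace_mul_comm, ← Matrix.mul_assoc]
  · have e1 : (b * Uᵀ * W * Z)ᵀ * (b * Uᵀ * W * Z) = (W * Z)ᵀ * (U * φ * Uᵀ) * (W * Z) := by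
      simp only [transpose_mul, transpose_transpose, hZ, hbs, hWs, ← hbb]; noncomm_ring
    have hc := psd_conj (conj_le_one hU hφ1) (W * Z)ᵀ
    rw [transpose_transpose] at hc
    have e2 : (W * Z)ᵀ * (1 - U * φ * Uᵀ) * (W * Z)
        = (W * Z)ᵀ * (W * Z) - (W * Z)ᵀ * (U * φ * Uᵀ) * (W * Z) := by noncomm_ring
    rw [e2] at hc
    have h3 := hc.trace_nonneg
    rw [trace_sub] at h3
    have h4 := trace_sq_mul_le (M := Z) hW hW1
    rw [hZ] at h4
    rw [e1]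
    linarith

end Vale.Agent.P141.H433
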