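import Vale.Agent.P141.PL.H588.En
import Vale.Agent.P141.H433.MoveU

/-!
# Block diagonal label matrices and the Gram matrices of a pair slot
-/

set_option linter.unusedSectionVars false

namespace Vale.Agent.P141.H433

open Finset Matrix Vale.Agent.P075 Vale.Agent.P141.PL

section bd

variable {m : Type*} [Fintype m] [DecidableEq m]

theorem bd_add (A D A' D' : Matrix m m ℝ) : bd A D + bd A' D' = bd (A + A') (D + D') := by
  simp [bd, fromBlocks_add]

theorem bd_smul (t : ℝ) (A D : Matrix m m ℝ) : t • bd A D = bd (t • A) (t • D) := by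
  simp [bd, fromBlocks_smul]

theorem bd_sub (A D A' D' : Matrix m m ℝ) : bd A D - bd A' D' = bd (A - A') (D - D') := by
  ext i j
  rcases i with i | i <;> rcases j with j | j <;> simp [bd, fromBlocks]

theorem bd_transpose (A D : Matrix m m ℝ) : (bd A D)ᵀ = bd Aᵀ Dᵀ := by
  simp [bd, fromBlocks_transpose]

theorem bd_one : bd (1 : Matrix m m ℝ) 1 = 1 := by
  rw [bd, fromBlocks_one]

theorem bd_psd {A D : Matrix m m ℝ} (hA : A.PosSemidef) (hD : D.PosSemidef) :
    (bd A D).PosSemidef := by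
  obtain ⟨P, hP, rfl⟩ := exists_sq hA
  obtain ⟨Q, hQ, rfl⟩ := exists_sq hD
  rw [← bd_mul]
  exact psd_sq (by rw [bd_transpose, psd_isSymm hP, psd_isSymm hQ])

theorem rad_bd (A D : Matrix m m ℝ) : rad m * bd A D = bd A D * rad m := by
  simp [rad, bd, fromBlocks_multiply]

theorem trace_bd_mul (A D : Matrix m m ℝ) (X : Matrix (m ⊕ m) (m ⊕ m) ℝ) :
    (bd A D * X).trace = (A * X.toBlocks₁₁).trace + (D * X.toBlocks₂₂).trace := by
  conv_lhs => rw [← fromBlocks_toBlocks X]
  rw [bd, fromBlocks_multiply]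
  simp [Matrix.trace, Fintype.sum_sum_type]

theorem trace_mul_le_mul {A B : Matrix m m ℝ} (hA : A.PosSemidef) (hB : B.PosSemidef) :
    (A * B).trace ≤ A.trace * B.trace := by
  obtain ⟨P, hP, rfl⟩ := exists_sq hA
  obtain ⟨Q, hQ, rfl⟩ := exists_sq hB
  have hPs := psd_isSymm hP
  have hQs := psd_isSymm hQ
  have tr : ∀ M : Matrix m m ℝ, Mᵀ = M → (M * M).trace = ∑ i, ∑ j, M i j ^ 2 := by
    intro M hM
    simp only [Matrix.trace, diag_apply, Matrix.mul_apply]
    refine Finset.sum_congr rfl fun i _ => Finset.sum_congr rfl fun j _ => ?_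
    rw [sq]
    congr 1
    exact congrFun (congrFun hM i) j
  have e : (P * P * (Q * Q)).trace = ∑ i, ∑ j, ((Q * P) i j) ^ 2 := by
    have e1 : (P * P * (Q * Q)).trace = ((Q * P) * (Q * P)ᵀ).trace := by
      rw [transpose_mul, hPs, hQs, show P * P * (Q * Q) = (P * P * Q) * Q by noncomm_ring,
        trace_mul_comm]
      congr 1; noncomm_ring
    rw [e1]
    simp only [Matrix.trace, diag_apply, Matrix.mul_apply (M := Q * P), transpose_apply, ← sq]
  rw [e, tr P hPs, tr Q hQs]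
  have h1 : ∀ i j, ((Q * P) i j) ^ 2 ≤ (∑ k, Q i k ^ 2) * ∑ k, P k j ^ 2 := by
    intro i j
    rw [Matrix.mul_apply]
    exact Finset.sum_mul_sq_le_sq_mul_sq _ _ _
  refine (Finset.sum_le_sum fun i _ => Finset.sum_le_sum fun j _ => h1 i j).trans (le_of_eq ?_)
  simp only [← Finset.mul_sum, ← Finset.sum_mul]
  rw [mul_comm, Finset.sum_comm]

/-- a psd matrix is at most its trace -/
theorem trace_sub_psd {W : Matrix m m ℝ} (hW : W.PosSemidef) :
    (W.trace • (1 : Matrix m m ℝ) - W).PosSemidef := by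
  refine PosSemidef.of_dotProduct_mulVec_nonneg ?_ fun x => ?_
  · rw [IsHermitian, conjTranspose_eq_transpose_of_trivial, transpose_sub, transpose_smul,
      transpose_one, psd_isSymm hW]
  · have h := trace_mul_le_mul hW (posSemidef_vecMulVec_self_star x)
    have e1 : (W * vecMulVec x (star x)).trace = star x ⬝ᵥ (W *ᵥ x) := by
      rw [mul_vecMulVec, trace_vecMulVec, dotProduct_comm]
    have e2 : (vecMulVec x (star x)).trace = star x ⬝ᵥ x := by
      rw [trace_vecMulVec, dotProduct_comm]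
    rw [e1, e2] at h
    rw [sub_mulVec, dotProduct_sub, smul_mulVec, one_mulVec, dotProduct_smul, smul_eq_mul]
    linarith

end bd

/-! ### halves of an interval -/

theorem iv_halves (k : ℕ) (m : ℤ) : iv (k + 1) m = iv k (2 * m) ∪ iv k (2 * m + 1) := by
  ext x
  rw [mem_union, mem_iv, mem_iv, mem_iv, ← ix_ix]
  simp only [ix, pow_one]
  omega

theorem iv_disj (k : ℕ) (m : ℤ) : Disjoint (iv k (2 * m)) (iv k (2 * m + 1)) := by
  rw [Finset.disjoint_left]
  intro x h1 h2
  rw [mem_iv] at h1 h2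
  omega

theorem sum_iv_halves {M : Type*} [AddCommMonoid M] (k : ℕ) (m : ℤ) (g : ℤ → M) :
    ∑ x ∈ iv (k + 1) m, g x = ∑ x ∈ iv k (2 * m), g x + ∑ x ∈ iv k (2 * m + 1), g x := by
  rw [iv_halves, Finset.sum_union (iv_disj k m)]

/-! ### label matrices -/

/-- block diagonal matrix of the label matrices `V x`, `x` in the block `m` of scale `k` -/
def DL (L : ℕ) (V : ℤ → Matrix (Ix L) (Ix L) ℝ) :
    (k : ℕ) → ℤ → Matrix (Ix (L + k)) (Ix (L + k)) ℝ
  | 0, m => V m
  | k + 1, m => bd (DL L V k (2 * m)) (DL L V k (2 * m + 1))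

variable {L : ℕ}

theorem DL_succ (V : ℤ → Matrix (Ix L) (Ix L) ℝ) (k : ℕ) (m : ℤ) :
    DL L V (k + 1) m = bd (DL L V k (2 * m)) (DL L V k (2 * m + 1)) := rfl

theorem DL_mul (V W : ℤ → Matrix (Ix L) (Ix L) ℝ) (k : ℕ) (m : ℤ) :
    DL L V k m * DL L W k m = DL L (fun x => V x * W x) k m := by
  induction k generalizing m with
  | zero => rfl
  | succ k ih =>
    rw [DL_succ, DL_succ, DL_succ, ← ih, ← ih]
    exact bd_mul _ _ _ _

theorem DL_add (V W : ℤ → Matrix (Ix L) (Ix L) ℝ) (k : ℕ) (m : ℤ) :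
    DL L V k m + DL L W k m = DL L (fun x => V x + W x) k m := by
  induction k generalizing m with
  | zero => rfl
  | succ k ih =>
    rw [DL_succ, DL_succ, DL_succ, ← ih, ← ih]
    exact bd_add _ _ _ _

theorem DL_sub (V W : ℤ → Matrix (Ix L) (Ix L) ℝ) (k : ℕ) (m : ℤ) :
    DL L V k m - DL L W k m = DL L (fun x => V x - W x) k m := by
  induction k generalizing m with
  | zero => rfl
  | succ k ih =>
    rw [DL_succ, DL_succ, DL_succ, ← ih, ← ih]
    exact bd_sub _ _ _ _

theorem DL_smul (t : ℝ) (V : ℤ → Matrix (Ix L) (Ix L) ℝ) (k : ℕ) (m : ℤ) :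
    t • DL L V k m = DL L (fun x => t • V x) k m := by
  induction k generalizing m with
  | zero => rfl
  | succ k ih =>
    rw [DL_succ, DL_succ, ← ih, ← ih]
    exact bd_smul _ _ _

theorem DL_transpose (V : ℤ → Matrix (Ix L) (Ix L) ℝ) (k : ℕ) (m : ℤ) :
    (DL L V k m)ᵀ = DL L (fun x => (V x)ᵀ) k m := by
  induction k generalizing m with
  | zero => rfl
  | succ k ih =>
    rw [DL_succ, DL_succ, ← ih, ← ih]
    exact bd_transpose _ _

theorem DL_one (k : ℕ) (m : ℤ) : DL L (fun _ => 1) k m = 1 := by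
  induction k generalizing m with
  | zero => rfl
  | succ k ih =>
    rw [DL_succ, ih, ih]
    exact bd_one

theorem DL_psd {V : ℤ → Matrix (Ix L) (Ix L) ℝ} (hV : ∀ x, (V x).PosSemidef) (k : ℕ) (m : ℤ) :
    (DL L V k m).PosSemidef := by
  induction k generalizing m with
  | zero => exact hV m
  | succ k ih => exact bd_psd (ih _) (ih _)

theorem DL_ct {V : ℤ → Matrix (Ix L) (Ix L) ℝ} (hV : ∀ x, Ct (V x)) (k : ℕ) (m : ℤ) :
    Ct (DL L V k m) := by
  constructor
  · rw [DL_transpose, DL_mul, ← DL_one (L := L) k m, DL_sub]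
    exact DL_psd (fun x => (hV x).1) k m
  · rw [DL_transpose, DL_mul, ← DL_one (L := L) k m, DL_sub]
    exact DL_psd (fun x => (hV x).2) k m

/-- the trace of the one point Gram matrix of a slot of bounded height -/
theorem trace_Xg_le {F : ℤ → ℤ → ℝ} {B : ℝ}
    (hF : ∀ x y, ∑ j : Ix L, F x (2 ^ L * y + val L j) ^ 2 ≤ 2 ^ L * B ^ 2)
    (a : ℕ) (n m : ℤ) : (H588.Xg a L F n m).trace ≤ B ^ 2 := by
  have e : (H588.Xg a L F n m).trace = ((2 : ℝ) ^ a * 2 ^ L)⁻¹
      * ∑ i : Ix a, ∑ j : Ix L, F (2 ^ a * n + val a i) (2 ^ L * m + val L j) ^ 2 := by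
    rw [Finset.sum_comm, Finset.mul_sum]
    simp only [Matrix.trace, diag_apply]
    refine Finset.sum_congr rfl fun j _ => ?_
    rw [H588.Xg_apply]
    congr 1
    exact Finset.sum_congr rfl fun i _ => by ring
  rw [e]
  have h3 : ∑ i : Ix a, ∑ j : Ix L, F (2 ^ a * n + val a i) (2 ^ L * m + val L j) ^ 2
      ≤ 2 ^ a * (2 ^ L * B ^ 2) := by
    refine (Finset.sum_le_sum fun i _ => hF _ _).trans (le_of_eq ?_)
    rw [Finset.sum_const, nsmul_eq_mul]
    congr 1
    have hc := sum_val a (fun _ => (1 : ℝ))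
    simpa using hc
  calc _ ≤ ((2 : ℝ) ^ a * 2 ^ L)⁻¹ * (2 ^ a * (2 ^ L * B ^ 2)) := by gcongr
    _ = B ^ 2 := by field_simp

/-- **diagonal bound**: the Gram matrix of a slot with bounded line energies against a block
diagonal matrix -/
theorem diag_le {F : ℤ → ℤ → ℝ} {B : ℝ} {a k : ℕ} {n m : ℤ}
    (hF : ∀ y ∈ iv k m, (H588.Xg a L F n y).trace ≤ B ^ 2)
    {W : ℤ → Matrix (Ix L) (Ix L) ℝ} {w : ℤ → ℝ} (hw : ∀ x, 0 ≤ w x)
    (hW : ∀ x, (w x • (1 : Matrix (Ix L) (Ix L) ℝ) - W x).PosSemidef) :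
    (DL L W k m * H588.Xg a (L + k) F n m).trace
      ≤ ((2 : ℝ) ^ k)⁻¹ * B ^ 2 * ∑ x ∈ iv k m, w x := by
  induction k generalizing m with
  | zero =>
    have h1 := trace_mul_le_left (H588.Xg_psd a L F n m) (hW m)
    rw [Matrix.smul_mul, Matrix.one_mul, trace_smul, smul_eq_mul] at h1
    have h4 : iv 0 m = {m} := by
      ext x
      simp only [iv, mem_Ico, mem_singleton, pow_zero, one_mul]
      omega
    have h2 : (H588.Xg a L F n m).trace ≤ B ^ 2 := hF m (by rw [h4]; exact mem_singleton_self m)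
    rw [h4, sum_singleton, pow_zero, inv_one, one_mul, mul_comm (B ^ 2)]
    exact h1.trans (mul_le_mul_of_nonneg_left h2 (hw m))
  | succ k ih =>
    have e : (DL L W (k + 1) m * H588.Xg a (L + (k + 1)) F n m).trace
        = (DL L W k (2 * m) * (H588.Xs a (L + k) F n m).toBlocks₁₁).trace
          + (DL L W k (2 * m + 1) * (H588.Xs a (L + k) F n m).toBlocks₂₂).trace :=
      trace_bd_mul _ _ _
    rw [e, H588.Xs_ll, H588.Xs_rr, Matrix.mul_smul, Matrix.mul_smul, trace_smul, trace_smul,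
      smul_eq_mul, smul_eq_mul]
    have h1 := ih (m := 2 * m) fun y hy => hF y (by rw [iv_halves]; exact mem_union_left _ hy)
    have h2 := ih (m := 2 * m + 1) fun y hy => hF y (by rw [iv_halves]; exact mem_union_right _ hy)
    rw [sum_iv_halves, pow_succ, mul_inv]
    nlinarith [h1, h2]

end Vale.Agent.P141.H433
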