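import Vale.Agent.P141.H433.TailU

/-!
# The crude lemma for the low levels: one static pair, a moving contraction between the slots
-/

set_option linter.unusedSectionVars false

namespace Vale.Agent.P141.H433

open Finset Matrix Vale.Agent.P075 Vale.Agent.P141.PL Vale.Agent.P141.H103 Vale.Agent.P141.H170
open Vale.Agent.P141.PL.H588 (Xg Xs hd Pl cd dl)

noncomputable section

variable {L : ℕ} {U : ℕ → ℤ → ℤ → Matrix (Ix L) (Ix L) ℝ} {F H : ℤ → ℤ → ℝ} {B : ℝ}

/-- the trivial multiplier -/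
def U1 (L : ℕ) : ℕ → ℤ → ℤ → Matrix (Ix L) (Ix L) ℝ := fun _ _ _ => 1

theorem U1_ct : ∀ k x n, Ct (U1 L k x n) := fun _ _ _ => Ct.one

theorem U1_vd (k : ℕ) (x j : ℤ) : vd (U1 L) k x j = 0 := by
  have h1 : vV (U1 L) k x j = 0 := by
    unfold vV U1
    rw [sub_self, smul_zero]
  have h2 : vD (U1 L) k x j = 0 := by
    unfold vD U1
    module
  unfold vd
  rw [h1, h2, Matrix.zero_mul, trace_zero, Real.sqrt_zero, add_zero]

theorem DU_one (i k : ℕ) (j m : ℤ) : DU (U1 L) i k j m = 1 := DL_one k m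

theorem cj_one {n : Type*} [Fintype n] [DecidableEq n] (X : Matrix n n ℝ) : cj 1 X = phi X := by
  rw [cj, transpose_one, Matrix.one_mul, Matrix.mul_one]

/-! ### the middle step of the pair -/

/-- the outer half, one middle child -/
theorem mid_half (hU : ∀ k x n, Ct (U k x n)) {k : ℕ} {n n' m : ℤ}
    (hF : Ln L F B k 1 k n m) (hH : Ln L H B k 1 k n' m) :
    (phi (Xg (L + (k + 1)) (L + k) F n m)
      * cj (DU U (k + 1) k n' m) (Xg (L + (k + 1)) (L + k) H n' m)).trace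
      ≤ (fm (U1 L) F k (k + 1) n m * fm U H k (k + 1) n' m).trace
        + dl (L + k) (L + k) F n m + 2 * dl (L + k) (L + k) H n' m
        + 2 * B ^ 2 * vs U k k n' m := by
  have eP : fm (U1 L) F k (k + 1) n m = (1 / 2 : ℝ) • (phi (Xg (L + k) (L + k) F (2 * n) m)
      + phi (Xg (L + k) (L + k) F (2 * n + 1) m)) := by
    unfold fm
    rw [show k + 1 - k = 1 by omega, mn_one]
    unfold bs
    rw [DU_one, DU_one, cj_one, cj_one]
  have eQ : fm U H k (k + 1) n' m = (1 / 2 : ℝ) • (DU U k k (2 * n') m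
      * phi (Xg (L + k) (L + k) H (2 * n') m) * (DU U k k (2 * n') m)ᵀ
      + DU U k k (2 * n' + 1) m * phi (Xg (L + k) (L + k) H (2 * n' + 1) m)
        * (DU U k k (2 * n' + 1) m)ᵀ) := by
    unfold fm
    rw [show k + 1 - k = 1 by omega, mn_one]
    rfl
  have rF : Xg (L + (k + 1)) (L + k) F n m
      = (1 / 2 : ℝ) • (Xg (L + k) (L + k) F (2 * n) m + Xg (L + k) (L + k) F (2 * n + 1) m) := by
    rw [← H588.Xg_row]; rfl
  have rH : Xg (L + (k + 1)) (L + k) H n' m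
      = (1 / 2 : ℝ) • (Xg (L + k) (L + k) H (2 * n') m + Xg (L + k) (L + k) H (2 * n' + 1) m) := by
    rw [← H588.Xg_row]; rfl
  have f0 := H588.Xg_psd (L + k) (L + k) F (2 * n) m
  have f1 := H588.Xg_psd (L + k) (L + k) F (2 * n + 1) m
  have g0 := H588.Xg_psd (L + k) (L + k) H (2 * n') m
  have g1 := H588.Xg_psd (L + k) (L + k) H (2 * n' + 1) m
  have hct := DU_ct hU (k + 1) k n' m
  set W := fm (U1 L) F k (k + 1) n m with hWd
  have pW : W.PosSemidef := fm_psd ..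
  have oW : (1 - W).PosSemidef := one_sub_mn fun j _ => one_sub_cj (H588.Xg_psd ..)
    (DU_ct U1_ct ..).2
  have oW1 : ((1 : ℝ) • (1 : Matrix (Ix (L + k)) (Ix (L + k)) ℝ) - W).PosSemidef := by
    rw [one_smul]; exact oW
  have hB : 0 ≤ B ^ 2 := sq_nonneg B
  have dW : Dg L k m (B ^ 2) W := by
    rw [hWd]
    unfold fm
    rw [show k + 1 - k = 1 by omega]
    exact Dg.mn hB fun j hj => Dg.cj (hF j hj) (fun x => U1_ct k x j)
  have hj : n' ∈ iv 0 n' := by
    simp only [iv, mem_Ico, pow_zero, one_mul]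
    omega
  -- the defect of the static slot
  have s1 : (phi (Xg (L + (k + 1)) (L + k) F n m)
      * cj (DU U (k + 1) k n' m) (Xg (L + (k + 1)) (L + k) H n' m)).trace
      ≤ (W * cj (DU U (k + 1) k n' m) (Xg (L + (k + 1)) (L + k) H n' m)).trace
        + dl (L + k) (L + k) F n m := by
    have e : phi (Xg (L + (k + 1)) (L + k) F n m)
        = delt (Xg (L + k) (L + k) F (2 * n) m) (Xg (L + k) (L + k) F (2 * n + 1) m) + W := by
      rw [eP, rF, delt]; abel
    have q := trace_mul_le_right (V := cj (DU U (k + 1) k n' m) (Xg (L + (k + 1)) (L + k) H n' m))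
      (W := 1) (delt_psd f0 f1) (one_sub_cj (H588.Xg_psd ..) hct.2)
    rw [Matrix.mul_one] at q
    rw [e, Matrix.add_mul, trace_add]
    have e2 : dl (L + k) (L + k) F n m
        = (delt (Xg (L + k) (L + k) F (2 * n) m) (Xg (L + k) (L + k) F (2 * n + 1) m)).trace := rfl
    rw [e2]
    linarith
  -- the moving slot
  have s2 := move_le g0 g1 (DU_ct hU k k (2 * n') m) (DU_ct hU k k (2 * n' + 1) m) hct
    zero_le_one pW oW1
  have t1 := vterm (U := U) dW n'
  have t2 := dterm (U := U) (Ln.even (r := 0) hH hj) (Ln.odd (r := 0) hH hj) zero_le_one pW oW1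
    dW hct
  rw [← V_eq] at t1
  rw [← D_eq] at t2
  rw [← eQ, ← rH] at s2
  have t4 : vs U k k n' m = ((2 : ℝ) ^ k)⁻¹ * ∑ x ∈ iv k m, (vV U k x n' * (vV U k x n')ᵀ).trace
      + ((2 : ℝ) ^ k)⁻¹ * ∑ x ∈ iv k m, √((vD U k x n' * (vD U k x n')ᵀ).trace) := by
    unfold vs vd
    rw [Finset.sum_add_distrib, mul_add]
  have t5 : 0 ≤ ((2 : ℝ) ^ k)⁻¹ * ∑ x ∈ iv k m, (vV U k x n' * (vV U k x n')ᵀ).trace :=
    mul_nonneg (by positivity) (Finset.sum_nonneg fun _ _ => (psd_mul_transpose _).trace_nonneg)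
  have t7 := mul_nonneg hB t5
  have e3 : (delt (Xg (L + k) (L + k) H (2 * n') m) (Xg (L + k) (L + k) H (2 * n' + 1) m)).trace
      = dl (L + k) (L + k) H n' m := rfl
  have e4 : (W * (DU U (k + 1) k n' m * phi (Xg (L + (k + 1)) (L + k) H n' m)
      * (DU U (k + 1) k n' m)ᵀ - fm U H k (k + 1) n' m)).trace
      = (W * cj (DU U (k + 1) k n' m) (Xg (L + (k + 1)) (L + k) H n' m)).trace
        - (W * fm U H k (k + 1) n' m).trace := by
    rw [Matrix.mul_sub, trace_sub]; rfl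
  rw [e4, e3] at s2
  rw [t4]
  nlinarith [s1, s2, t1, t2, t7]

/-- the main term of a node -/
def mt (U : ℕ → ℤ → ℤ → Matrix (Ix L) (Ix L) ℝ) (F H : ℤ → ℤ → ℝ) (k : ℕ) (n n' m : ℤ) : ℝ :=
  (phi (Xg (L + (k + 1)) (L + (k + 1)) F n m) * (hd (L + (k + 1))
    * (DU U (k + 1) (k + 1) n' m * phi (Xg (L + (k + 1)) (L + (k + 1)) H n' m)
      * (DU U (k + 1) (k + 1) n' m)ᵀ) * hd (L + (k + 1)))).trace

/-- the defect of a node -/
def er (U : ℕ → ℤ → ℤ → Matrix (Ix L) (Ix L) ℝ) (F H : ℤ → ℤ → ℝ) (B : ℝ) (k : ℕ)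
    (n n' m : ℤ) : ℝ :=
  (7 * cd (L + (k + 1)) (L + k) F n m
    + (1 / 2) * (dl (L + k) (L + k) F n (2 * m) + dl (L + k) (L + k) F n (2 * m + 1)))
  + (7 * cd (L + (k + 1)) (L + k) H n' m
    + (dl (L + k) (L + k) H n' (2 * m) + dl (L + k) (L + k) H n' (2 * m + 1))
    + B ^ 2 * vs U k (k + 1) n' m)

theorem mid_pt (hU : ∀ k x n, Ct (U k x n)) {k : ℕ} {n n' m : ℤ}
    (hF : Ln L F B k 1 (k + 1) n m) (hH : Ln L H B k 1 (k + 1) n' m) :
    (fm (U1 L) F (k + 1) (k + 1) n m * fm U H (k + 1) (k + 1) n' m).trace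
      + ((1 / 2) * mt U F H k n n' m - er U F H B k n n' m)
      ≤ (1 / 2) * ((fm (U1 L) F k (k + 1) n (2 * m) * fm U H k (k + 1) n' (2 * m)).trace
        + (fm (U1 L) F k (k + 1) n (2 * m + 1) * fm U H k (k + 1) n' (2 * m + 1)).trace) := by
  have e0 : fm (U1 L) F (k + 1) (k + 1) n m = phi (Xs (L + (k + 1)) (L + k) F n m) := by
    unfold fm
    rw [Nat.sub_self, mn_zero]
    unfold bs
    rw [DU_one, cj_one]
    rfl
  have e1 : fm U H (k + 1) (k + 1) n' m
      = bd (DU U (k + 1) k n' (2 * m)) (DU U (k + 1) k n' (2 * m + 1))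
        * phi (Xs (L + (k + 1)) (L + k) H n' m)
        * (bd (DU U (k + 1) k n' (2 * m)) (DU U (k + 1) k n' (2 * m + 1)))ᵀ := by
    unfold fm
    rw [Nat.sub_self, mn_zero]
    rfl
  have hct : Ct (bd (DU U (k + 1) k n' (2 * m)) (DU U (k + 1) k n' (2 * m + 1))) :=
    DU_ct hU (k + 1) (k + 1) n' m
  have q := ysplitL (H588.Xs_psd (L + (k + 1)) (L + k) F n m)
    (H588.Xs_psd (L + (k + 1)) (L + k) H n' m) (rad_symm (m := Ix (L + k))) rad_sq
    (rad_bd (DU U (k + 1) k n' (2 * m)) (DU U (k + 1) k n' (2 * m + 1))).symm hct.1 hct.2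
  rw [H588.Xs_split, H588.Xs_split, phi_bd (H588.Xg_psd ..) (H588.Xg_psd ..),
    phi_bd (H588.Xg_psd ..) (H588.Xg_psd ..)] at q
  have e2 : bd (DU U (k + 1) k n' (2 * m)) (DU U (k + 1) k n' (2 * m + 1))
      * bd (phi (Xg (L + (k + 1)) (L + k) H n' (2 * m)))
        (phi (Xg (L + (k + 1)) (L + k) H n' (2 * m + 1)))
      * (bd (DU U (k + 1) k n' (2 * m)) (DU U (k + 1) k n' (2 * m + 1)))ᵀ
      = bd (cj (DU U (k + 1) k n' (2 * m)) (Xg (L + (k + 1)) (L + k) H n' (2 * m)))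
        (cj (DU U (k + 1) k n' (2 * m + 1)) (Xg (L + (k + 1)) (L + k) H n' (2 * m + 1))) := by
    rw [H433.bd_transpose, bd_mul, bd_mul]; rfl
  rw [e2, bd_mul, trace_bd] at q
  have h1 := mid_half hU hF.left hH.left
  have h2 := mid_half hU hF.right hH.right
  have e3 : (phi (Xs (L + (k + 1)) (L + k) F n m)
      * (rad (Ix (L + k)) * (bd (DU U (k + 1) k n' (2 * m)) (DU U (k + 1) k n' (2 * m + 1))
        * phi (Xs (L + (k + 1)) (L + k) H n' m)
        * (bd (DU U (k + 1) k n' (2 * m)) (DU U (k + 1) k n' (2 * m + 1)))ᵀ)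
        * rad (Ix (L + k)))).trace = mt U F H k n n' m := rfl
  have e4 : (phi (Xs (L + (k + 1)) (L + k) F n m) * (rad (Ix (L + k))
      * phi (Xs (L + (k + 1)) (L + k) F n m) * rad (Ix (L + k)))).trace
      = cd (L + (k + 1)) (L + k) F n m := rfl
  have e5 : (phi (Xs (L + (k + 1)) (L + k) H n' m) * (rad (Ix (L + k))
      * phi (Xs (L + (k + 1)) (L + k) H n' m) * rad (Ix (L + k)))).trace
      = cd (L + (k + 1)) (L + k) H n' m := rfl
  rw [e3, e4, e5] at q
  rw [e0, e1]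
  unfold er
  rw [vs_halves]
  have key : ∀ t : ℝ, t + 1 / 2 * mt U F H k n n' m
      - 7 * (cd (L + (k + 1)) (L + k) F n m + cd (L + (k + 1)) (L + k) H n' m) ≤
      1 / 2 * ((phi (Xg (L + (k + 1)) (L + k) F n (2 * m)) *
            cj (DU U (k + 1) k n' (2 * m)) (Xg (L + (k + 1)) (L + k) H n' (2 * m))).trace +
        (phi (Xg (L + (k + 1)) (L + k) F n (2 * m + 1)) *
            cj (DU U (k + 1) k n' (2 * m + 1)) (Xg (L + (k + 1)) (L + k) H n' (2 * m + 1))).trace) →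
      t + ((1 / 2) * mt U F H k n n' m - ((7 * cd (L + (k + 1)) (L + k) F n m
        + (1 / 2) * (dl (L + k) (L + k) F n (2 * m) + dl (L + k) (L + k) F n (2 * m + 1)))
      + (7 * cd (L + (k + 1)) (L + k) H n' m
        + (dl (L + k) (L + k) H n' (2 * m) + dl (L + k) (L + k) H n' (2 * m + 1))
        + B ^ 2 * (vs U k k n' (2 * m) + vs U k k n' (2 * m + 1)))))
      ≤ (1 / 2) * ((fm (U1 L) F k (k + 1) n (2 * m) * fm U H k (k + 1) n' (2 * m)).trace
        + (fm (U1 L) F k (k + 1) n (2 * m + 1) * fm U H k (k + 1) n' (2 * m + 1)).trace) := by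
    intro t ht
    linarith
  exact key _ q

end

end Vale.Agent.P141.H433
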