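import Vale.Agent.P141.H433.LoSum
import Vale.Agent.P141.H958.PairsE

/-!
# The crude lemma for paths
-/

set_option linter.unusedSectionVars false

namespace Vale.Agent.P141.H433

open Finset Matrix Vale.Agent.P075 Vale.Agent.P141.PL Vale.Agent.P141.H103 Vale.Agent.P141.H170
open Vale.Agent.P141.PL.H588 (Xg Xs hd Pl cd dl)
open Vale.Agent.P141.H736 (Agree Path sqQ sqb)
open Vale.Agent.P141.H958 (L2E pwr)

noncomputable section

open scoped Classical

variable {L : ℕ} {U : ℕ → ℤ → ℤ → Matrix (Ix L) (Ix L) ℝ} {B : ℝ}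

/-- the energy of the squares of scale `L + k` which change -/
def chq (L N : ℕ) (R S : ℤ) (Q : ℤ → ℤ → Prop) (F : ℤ → ℤ → ℝ) (k : ℕ) : ℝ :=
  (4 : ℝ) ^ k * ∑ m ∈ iv (N - k) S, ∑ n ∈ iv (N - k) R,
    if Q n m then (Xg (L + k) (L + k) F n m).trace else 0

theorem chq_nonneg (N : ℕ) (R S : ℤ) (Q : ℤ → ℤ → Prop) (F : ℤ → ℤ → ℝ) (k : ℕ) :
    0 ≤ chq L N R S Q F k := by
  refine mul_nonneg (by positivity) (sum_nonneg fun m _ => sum_nonneg fun n _ => ?_)
  split_ifs
  · exact (H588.Xg_psd ..).trace_nonneg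
  · exact le_rfl

theorem chq_eq (N : ℕ) (R S : ℤ) (Q : ℤ → ℤ → Prop) (F : ℤ → ℤ → ℝ) (k : ℕ) :
    sqQ (L + N) R S (L + k) Q F = 4 ^ L * chq L N R S Q F k := by
  unfold sqQ chq
  rw [Nat.add_sub_add_left, ← mul_assoc, ← pow_add, mul_sum]
  refine sum_congr rfl fun m _ => ?_
  rw [mul_sum]
  refine sum_congr rfl fun n _ => ?_
  split_ifs
  · rw [H736.sqb_eq]
  · rw [mul_zero]

theorem ag_of {N : ℕ} {R S : ℤ} {k : ℕ} {Q : ℤ → ℤ → Prop} {F F' : ℤ → ℤ → ℝ}
    (h : Agree (L + N) R S (L + k) Q F F') : ∀ n ∈ iv (N - k) R, ∀ m ∈ iv (N - k) S, ¬ Q n m →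
    Xg (L + k) (L + k) F n m = Xg (L + k) (L + k) F' n m := by
  intro n hn m hm hq
  refine H736.Xg_congr fun x hx y hy => ?_
  refine h n ?_ m ?_ hq x hx y hy
  · rwa [Nat.add_sub_add_left]
  · rwa [Nat.add_sub_add_left]

/-! ### the static potential under a change -/

theorem ee_change {N : ℕ} {R S : ℤ} {k : ℕ} {Q : ℤ → ℤ → Prop} {F F' : ℤ → ℤ → ℝ}
    (h : Agree (L + N) R S (L + k) Q F F') :
    ee L N R S F k ≤ ee L N R S F' k + chq L N R S Q F k := by
  unfold ee chq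
  rw [← mul_add, ← sum_add_distrib]
  refine mul_le_mul_of_nonneg_left (sum_le_sum fun m hm => ?_) (by positivity)
  rw [← sum_add_distrib]
  refine sum_le_sum fun n hn => ?_
  split_ifs with hq
  · have h1 := H588.GX_le_trace (H588.Xg_psd (L + k) (L + k) F n m)
    have h2 := H588.GX_nonneg' (H588.Xg_psd (L + k) (L + k) F' n m)
    linarith
  · rw [ag_of h n hn m hm hq, add_zero]

theorem sum_st_path {N K : ℕ} (h : K ≤ N) {R S : ℤ} {Q : ℕ → ℤ → ℤ → Prop}
    {F : ℕ → ℤ → ℤ → ℝ} (hF : Path (L + N) R S Q F) :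
    ∑ k ∈ range K, st L N R S (F (L + (k + 1))) k + ee L N R S (F (L + K)) K
      ≤ ee L N R S (F (L + 0)) 0 + ∑ k ∈ range K, chq L N R S (Q (L + k)) (F (L + (k + 1))) k := by
  induction K with
  | zero => simp
  | succ K ih =>
    rw [sum_range_succ, sum_range_succ]
    have h1 := ih (by omega)
    have h2 := st_step (L := L) (F := F (L + (K + 1))) (show K < N by omega) R S
    have h3 := ee_change (hF (L + K) (by omega))
    have e : F (L + K + 1) = F (L + (K + 1)) := rfl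
    rw [e] at h3
    linarith

/-- the potential at scale `L` is paid by the changes below -/
theorem ee_start {N : ℕ} {R S : ℤ} {Q : ℕ → ℤ → ℤ → Prop} {F : ℕ → ℤ → ℤ → ℝ}
    (hF : Path (L + N) R S Q F) (h0 : F 0 = 0) :
    4 ^ L * ee L N R S (F (L + 0)) 0 ≤ ∑ k ∈ range L, sqQ (L + N) R S k (Q k) (F (k + 1)) := by
  have key : ∀ K, K ≤ L → H588.en (L + N) R S K K (F K)
      ≤ ∑ k ∈ range K, sqQ (L + N) R S k (Q k) (F (k + 1)) := by
    intro K hK
    induction K with
    | zero =>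
      rw [range_zero, sum_empty]
      refine (H588.en_zero_le ..).trans ?_
      unfold H588.sq
      rw [h0]
      simp
    | succ K ih =>
      have h1 := H588.en_col_le (show K < L + N by omega) R S (K + 1) (F (K + 1))
      have h2 := H588.en_row_le (show K < L + N by omega) R S K (F (K + 1))
      have h3 := H736.en_change (r := 0) (show K + 0 ≤ L + N by omega) R S
        (hF K (by omega)) (κ := 1) ⟨zero_le_one, Or.inl le_rfl⟩
      rw [Nat.add_zero, one_mul] at h3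
      rw [sum_range_succ]
      have h4 := ih (by omega)
      linarith
  refine le_trans (le_of_eq ?_) (key L le_rfl)
  unfold ee H588.en
  rw [pow_zero, one_mul, Nat.sub_zero, Nat.add_zero, Nat.add_sub_cancel_left, ← mul_pow]
  norm_num

/-- both together -/
theorem path_energy {N : ℕ} {R S : ℤ} {Q : ℕ → ℤ → ℤ → Prop} {F : ℕ → ℤ → ℤ → ℝ} {D : ℝ}
    (hF : L2E (L + N) R S Q F D) :
    ee L N R S (F (L + 0)) 0 + ∑ k ∈ range N, chq L N R S (Q (L + k)) (F (L + (k + 1))) k
      ≤ ((4 : ℝ) ^ L)⁻¹ * D := by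
  have h1 := ee_start hF.path hF.zero
  have h2 : ∑ k ∈ range (L + N), sqQ (L + N) R S k (Q k) (F (k + 1))
      = ∑ k ∈ range L, sqQ (L + N) R S k (Q k) (F (k + 1))
        + ∑ k ∈ range N, 4 ^ L * chq L N R S (Q (L + k)) (F (L + (k + 1))) k := by
    rw [sum_range_add]
    congr 1
    exact sum_congr rfl fun k _ => chq_eq ..
  have h3 := hF.own
  unfold H958.pwr at h3
  rw [h2, ← mul_sum] at h3
  have h4 : (0 : ℝ) < 4 ^ L := by positivity
  rw [inv_mul_eq_div, le_div_iff₀ h4]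
  linarith

/-! ### change of the functional -/

section change

variable {N k : ℕ} {R S T : ℤ} {Q Q' : ℤ → ℤ → Prop} {F F' H H' : ℤ → ℤ → ℝ}

theorem fm_self (k : ℕ) (n m : ℤ) (F : ℤ → ℤ → ℝ) : fm U F k k n m = bs U F k m n := by
  unfold fm
  rw [Nat.sub_self, mn_zero]

theorem bs_trace_le (hU : ∀ k x n, Ct (U k x n)) (k : ℕ) (m n : ℤ) (F : ℤ → ℤ → ℝ) :
    (bs U F k m n).trace ≤ (Xg (L + k) (L + k) F n m).trace := by
  have hX := H588.Xg_psd (L + k) (L + k) F n m
  have q2 : (bs U F k m n).trace ≤ (phi (Xg (L + k) (L + k) F n m)).trace :=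
    trace_conj_le (DU_ct hU k k n m) (phi_psd hX)
  have q3 := (sub_phi_psd hX).trace_nonneg
  rw [trace_sub] at q3
  linarith

theorem one_sub_bs (hU : ∀ k x n, Ct (U k x n)) (k : ℕ) (m n : ℤ) (F : ℤ → ℤ → ℝ) :
    (1 - bs U F k m n).PosSemidef := one_sub_cj (H588.Xg_psd ..) (DU_ct hU k k n m).2

theorem bs_congr {n m : ℤ} (h : Xg (L + k) (L + k) F n m = Xg (L + k) (L + k) F' n m) :
    bs U F k m n = bs U F' k m n := by
  unfold bs
  rw [h]

theorem MW_change {U' : ℕ → ℤ → ℤ → Matrix (Ix L) (Ix L) ℝ} (hU' : ∀ k x n, Ct (U' k x n))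
    (hU : ∀ k x n, Ct (U k x n)) (hQ : Agree (L + N) R S (L + k) Q F F')
    (hQ' : Agree (L + N) T S (L + k) Q' H H') (c : ℤ) :
    MW N R S T k c (fm U' F k k) (fm U H k k)
      ≤ MW N R S T k c (fm U' F' k k) (fm U H' k k)
        + (chq L N R S Q F k + chq L N T S Q' H k) := by
  unfold MW chq
  rw [← mul_add, ← mul_add, ← sum_add_distrib, ← sum_add_distrib]
  refine mul_le_mul_of_nonneg_left (sum_le_sum fun m hm => ?_) (by positivity)
  have hg : ∀ n' : ℤ, 0 ≤ (if Q' n' m then (Xg (L + k) (L + k) H n' m).trace else 0) := by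
    intro n'
    split_ifs
    · exact (H588.Xg_psd ..).trace_nonneg
    · exact le_rfl
  have q := H588.sum_refl_le (N - k) R T (c - m)
    (fun n' => if Q' n' m then (Xg (L + k) (L + k) H n' m).trace else 0) hg
  refine le_trans ?_ (add_le_add_right (add_le_add_right q _) _)
  rw [← sum_add_distrib, ← sum_add_distrib]
  refine sum_le_sum fun n hn => ?_
  have hf : 0 ≤ (if Q n m then (Xg (L + k) (L + k) F n m).trace else 0) := by
    split_ifs
    · exact (H588.Xg_psd ..).trace_nonneg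
    · exact le_rfl
  by_cases hc : c - m - n ∈ iv (N - k) T
  · rw [if_pos hc, if_pos hc, if_pos hc, fm_self, fm_self, fm_self, fm_self]
    have p0 : 0 ≤ (bs U' F' k m n * bs U H' k m (c - m - n)).trace :=
      trace_mul_nonneg (bs_psd ..) (bs_psd ..)
    by_cases h1 : Q n m
    · have q1 := trace_mul_le_right (bs_psd (U := U') (F := F) k m n)
        (one_sub_bs hU k m (c - m - n) H)
      rw [Matrix.mul_one] at q1
      have q2 := bs_trace_le hU' k m n F
      rw [if_pos h1]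
      have := hg (c - m - n)
      linarith
    · by_cases h2 : Q' (c - m - n) m
      · have q1 := trace_mul_le_left (bs_psd (U := U) (F := H) k m (c - m - n))
          (one_sub_bs hU' k m n F)
        rw [Matrix.one_mul] at q1
        have q2 := bs_trace_le hU k m (c - m - n) H
        rw [if_pos h2, if_neg h1]
        linarith
      · rw [bs_congr (ag_of hQ n hn m hm h1), bs_congr (ag_of hQ' _ hc m hm h2), if_neg h1,
          if_neg h2]
        linarith
  · rw [if_neg hc, if_neg hc, if_neg hc]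
    linarith

theorem EW_change (hU : ∀ k x n, Ct (U k x n)) (hQ : Agree (L + N) R S (L + k) Q F F') {r : ℕ}
    (hr : k + r ≤ N) :
    EW N R S k (fm U F k) (k + r) ≤ EW N R S k (fm U F' k) (k + r) + 2 * chq L N R S Q F k := by
  have hpt : ∀ m ∈ iv (N - k) S, ∀ n ∈ iv (N - (k + r)) R,
      (fm U F k (k + r) n m * fm U F k (k + r) n m).trace
      ≤ (fm U F' k (k + r) n m * fm U F' k (k + r) n m).trace
        + ((2 : ℝ) ^ r)⁻¹ * ∑ j ∈ iv r n,
          2 * (if Q j m then (Xg (L + k) (L + k) F j m).trace else 0) := by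
    intro m hm n hn
    have e1 : ∀ G : ℤ → ℤ → ℝ, fm U G k (k + r) n m = mn (iv r n) (bs U G k m) := by
      intro G
      unfold fm
      rw [Nat.add_sub_cancel_left]
    set M := fm U F k (k + r) n m with hM
    set M' := fm U F' k (k + r) n m with hM'
    have o1 : (1 - M).PosSemidef := by
      rw [hM, e1]
      exact one_sub_mn fun j _ => one_sub_bs hU k m j F
    have o2 : (1 - M').PosSemidef := by
      rw [hM', e1]
      exact one_sub_mn fun j _ => one_sub_bs hU k m j F'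
    have pW : (M + M').PosSemidef := (fm_psd ..).add (fm_psd ..)
    have oW : ((2 : ℝ) • (1 : Matrix (Ix (L + k)) (Ix (L + k)) ℝ) - (M + M')).PosSemidef := by
      have e : (2 : ℝ) • (1 : Matrix (Ix (L + k)) (Ix (L + k)) ℝ) - (M + M')
          = (1 - M) + (1 - M') := by module
      rw [e]
      exact o1.add o2
    have e2 : (M * M).trace - (M' * M').trace
        = ((M + M') * M).trace - ((M + M') * M').trace := by
      rw [Matrix.add_mul, Matrix.add_mul, trace_add, trace_add, trace_mul_comm M' M]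
      ring
    have e3 : ((M + M') * M).trace - ((M + M') * M').trace
        = ((2 : ℝ) ^ r)⁻¹ * ∑ j ∈ iv r n,
          (((M + M') * bs U F k m j).trace - ((M + M') * bs U F' k m j).trace) := by
      have t1 : ((M + M') * M).trace
          = ((2 : ℝ) ^ r)⁻¹ * ∑ j ∈ iv r n, ((M + M') * bs U F k m j).trace := by
        conv_lhs => rw [hM, e1 F, tr_mul_mn]
        rw [card_iv]
        push_cast
        rw [← e1 F]
      have t2 : ((M + M') * M').trace
          = ((2 : ℝ) ^ r)⁻¹ * ∑ j ∈ iv r n, ((M + M') * bs U F' k m j).trace := by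
        conv_lhs => rw [hM', e1 F', tr_mul_mn]
        rw [card_iv]
        push_cast
        rw [← e1 F']
      rw [t1, t2, sum_sub_distrib, mul_sub]
    have h4 : ∀ j ∈ iv r n, ((M + M') * bs U F k m j).trace - ((M + M') * bs U F' k m j).trace
        ≤ 2 * (if Q j m then (Xg (L + k) (L + k) F j m).trace else 0) := by
      intro j hj
      have hj' : j ∈ iv (N - k) R := iv_trans (by omega) hn hj
      by_cases hq : Q j m
      · rw [if_pos hq]
        have q1 := trace_mul_le_left (bs_psd (U := U) (F := F) k m j) oW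
        rw [Matrix.smul_mul, Matrix.one_mul, trace_smul, smul_eq_mul] at q1
        have q2 := bs_trace_le hU k m j F
        have q3 := trace_mul_nonneg pW (bs_psd (U := U) (F := F') k m j)
        linarith
      · rw [if_neg hq, bs_congr (ag_of hQ j hj' m hm hq)]
        simp
    have h5 := mul_le_mul_of_nonneg_left (sum_le_sum h4)
      (by positivity : (0 : ℝ) ≤ ((2 : ℝ) ^ r)⁻¹)
    linarith
  have hD : ∀ m, ∑ n ∈ iv (N - (k + r)) R, ∑ j ∈ iv r n,
      (2 : ℝ) * (if Q j m then (Xg (L + k) (L + k) F j m).trace else 0)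
      = ∑ j ∈ iv (N - k) R, 2 * (if Q j m then (Xg (L + k) (L + k) F j m).trace else 0) := by
    intro m
    rw [sum_iv_nest, show N - (k + r) + r = N - k by omega]
  unfold EW chq
  refine (mul_le_mul_of_nonneg_left (sum_le_sum fun m hm => sum_le_sum fun n hn =>
    hpt m hm n hn) (by positivity)).trans (le_of_eq ?_)
  have e1 : ∀ m, ∑ n ∈ iv (N - (k + r)) R,
      ((fm U F' k (k + r) n m * fm U F' k (k + r) n m).trace
        + ((2 : ℝ) ^ r)⁻¹ * ∑ j ∈ iv r n,
          2 * (if Q j m then (Xg (L + k) (L + k) F j m).trace else 0))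
      = ∑ n ∈ iv (N - (k + r)) R, (fm U F' k (k + r) n m * fm U F' k (k + r) n m).trace
        + ((2 : ℝ) ^ r)⁻¹ * ∑ j ∈ iv (N - k) R,
          2 * (if Q j m then (Xg (L + k) (L + k) F j m).trace else 0) := by
    intro m
    rw [sum_add_distrib, ← mul_sum, hD m]
  rw [sum_congr rfl fun m _ => e1 m, sum_add_distrib]
  simp only [← mul_sum]
  have h4 : (4 : ℝ) ^ k = 2 ^ k * 2 ^ k := by
    rw [← mul_pow]; norm_num
  have h5 : (2 : ℝ) ^ (k + r) = 2 ^ k * 2 ^ r := pow_add _ _ _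
  have h6 : (2 : ℝ) ^ r ≠ 0 := by positivity
  rw [h4, h5]
  field_simp

theorem WW_change (hU : ∀ k x n, Ct (U k x n)) (hk : k ≤ N)
    (hQ : Agree (L + N) R S (L + k) Q F F') :
    WW N k (EW N R S k (fm U F k)) ≤ WW N k (EW N R S k (fm U F' k)) + 8 * chq L N R S Q F k := by
  unfold WW
  have h1 : ∑ r ∈ range (N - k + 1), (3 / 4 : ℝ) ^ r * EW N R S k (fm U F k) (k + r)
      ≤ ∑ r ∈ range (N - k + 1), ((3 / 4 : ℝ) ^ r * EW N R S k (fm U F' k) (k + r)
        + (3 / 4 : ℝ) ^ r * (2 * chq L N R S Q F k)) := by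
    refine sum_le_sum fun r hr => ?_
    rw [← mul_add]
    have := mem_range.mp hr
    exact mul_le_mul_of_nonneg_left (EW_change hU hQ (by omega)) (by positivity)
  refine h1.trans ?_
  rw [sum_add_distrib, ← sum_mul]
  have h2 := mul_le_mul_of_nonneg_right (H736.geo_le (N - k + 1))
    (mul_nonneg (by norm_num : (0 : ℝ) ≤ 2) (chq_nonneg (L := L) N R S Q F k))
  linarith

end change

theorem EW_start (hU : ∀ k x n, Ct (U k x n)) (N : ℕ) (R S : ℤ) (F : ℤ → ℤ → ℝ) :
    EW N R S 0 (fm U F 0) 0 ≤ 4 * ee L N R S F 0 := by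
  unfold EW ee
  rw [pow_zero, pow_zero, one_mul, one_mul, one_mul, Nat.sub_zero, mul_sum]
  refine sum_le_sum fun m _ => ?_
  rw [mul_sum]
  refine sum_le_sum fun n _ => ?_
  have hX := H588.Xg_psd (L + 0) (L + 0) F n m
  rw [fm_self]
  have q1 : (bs U F 0 m n * bs U F 0 m n).trace
      ≤ (phi (Xg (L + 0) (L + 0) F n m) * phi (Xg (L + 0) (L + 0) F n m)).trace :=
    trace_conj_sq_le (phi_symm hX) (DU_ct hU 0 0 n m).1
  exact q1.trans (PL.H103.phi_sq_le_GX hX)

/-! ### the lemma for paths -/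

/-- the mass of the multiplier, summed over the middle variable -/
theorem sum_ms_h {N : ℕ} {S T : ℤ} {G : ℝ}
    (hG : ∑ x ∈ iv N S, ∑ k ∈ range N, 2 ^ (k + 1) * ∑ j ∈ iv (N - (k + 1)) T, vd U k x j
      ≤ 4 ^ N * G) :
    ∑ k ∈ range N, ms U N S T k ≤ 2 * 4 ^ N * G := by
  have h1 : ∑ k ∈ range N, ms U N S T k = 2 * ∑ x ∈ iv N S, ∑ k ∈ range N,
      2 ^ (k + 1) * ∑ j ∈ iv (N - (k + 1)) T, vd U k x j := by
    rw [sum_comm, mul_sum]
    exact sum_congr rfl fun k hk => ms_eq (mem_range.1 hk) S T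
  rw [h1]
  linarith

/-- **The crude lemma for the low levels, for paths**, the mass as a sum over the middle
variable. -/
theorem lo_path_h {N : ℕ} {R S T : ℤ} {c : ℕ → ℤ} (hc : Pl c) (hU : ∀ k x n, Ct (U k x n))
    {Q Q' : ℕ → ℤ → ℤ → Prop} {F H : ℕ → ℤ → ℤ → ℝ} {D D' : ℝ}
    (eF : L2E (L + N) R S Q F D) (eH : L2E (L + N) T S Q' H D')
    (hF : ∀ k < N, ∀ n ∈ iv (N - k) R, ∀ y ∈ iv N S,
      (Xg (L + k) L (F (L + (k + 1))) n y).trace ≤ B ^ 2)
    (hH : ∀ k < N, ∀ n ∈ iv (N - k) T, ∀ y ∈ iv N S,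
      (Xg (L + k) L (H (L + (k + 1))) n y).trace ≤ B ^ 2) {G : ℝ}
    (hG : ∑ x ∈ iv N S, ∑ k ∈ range N, 2 ^ (k + 1) * ∑ j ∈ iv (N - (k + 1)) T, vd U k x j
      ≤ 4 ^ N * G) :
    ∑ k ∈ range N, GW N R S T (k + 1) (c (k + 1)) (mt U (F (L + (k + 1))) (H (L + (k + 1))) k)
      ≤ 10 ^ 4 * (((4 : ℝ) ^ L)⁻¹ * (D + D') + 4 ^ N * B ^ 2 * G) := by
  have hG0 : 0 ≤ G := by
    have h2 : 0 ≤ ∑ x ∈ iv N S, ∑ k ∈ range N, (2 : ℝ) ^ (k + 1) *
        ∑ j ∈ iv (N - (k + 1)) T, vd U k x j :=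
      sum_nonneg fun _ _ => sum_nonneg fun _ _ =>
        mul_nonneg (by positivity) (sum_nonneg fun _ _ => vd_nonneg ..)
    have h3 : (0 : ℝ) < 4 ^ N := by positivity
    nlinarith
  -- changes
  set cF : ℕ → ℝ := fun k => chq L N R S (Q (L + k)) (F (L + (k + 1))) k with hcF
  set cH : ℕ → ℝ := fun k => chq L N T S (Q' (L + k)) (H (L + (k + 1))) k with hcH
  set g : ℕ → ℤ → ℤ → ℤ → ℝ := fun k n n' m =>
    if n ∈ iv (N - (k + 1)) R ∧ n' ∈ iv (N - (k + 1)) T ∧ m ∈ iv (N - (k + 1)) S then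
      (1 / 2) * mt U (F (L + (k + 1))) (H (L + (k + 1))) k n n' m
        - er U (F (L + (k + 1))) (H (L + (k + 1))) B k n n' m
    else -(fm (U1 L) (F (L + (k + 1))) (k + 1) (k + 1) n m
        * fm U (H (L + (k + 1))) (k + 1) (k + 1) n' m).trace with hg
  have h := totalW (Nat.zero_le N) hc (P := fun k => fm (U1 L) (F (L + k)) k)
    (P' := fun k => fm (U1 L) (F (L + (k + 1))) k)
    (Q := fun k => fm U (H (L + k)) k) (Q' := fun k => fm U (H (L + (k + 1))) k)
    (R := R) (S := S) (T := T) (g := g)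
    (dE := fun k _ => dE (U1 L) (F (L + (k + 1))) B N R S k)
    (dF := fun k _ => dE U (H (L + (k + 1))) B N T S k)
    (x := fun k => 73 * (cF k + cH k))
    (fun k _ _ => fm_out N k) (fun k _ _ => fm_out N k) (fun k _ _ => fm_out N k)
    (fun k _ _ => fm_out N k) (fun k a n m => fm_symm k a n m) (fun k a n m => fm_symm k a n m)
    (fun k a n m => fm_symm k a n m) (fun k a n m => fm_symm k a n m)
    (fun k _ hk n n' m => by
      simp only [hg]
      split_ifs with hin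
      · refine mid_pt hU (fun j hj y hy => ?_) (fun j hj y hy => ?_)
        · exact hF k hk j (iv_trans (by omega) hin.1 hj) y (iv_trans (by omega) hin.2.2 hy)
        · exact hH k hk j (iv_trans (by omega) hin.2.1 hj) y (iv_trans (by omega) hin.2.2 hy)
      · rw [add_neg_cancel]
        have p1 := trace_mul_nonneg (fm_psd (U := U1 L) (F := F (L + (k + 1))) k (k + 1) n (2 * m))
          (fm_psd (U := U) (F := H (L + (k + 1))) k (k + 1) n' (2 * m))
        have p2 := trace_mul_nonneg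
          (fm_psd (U := U1 L) (F := F (L + (k + 1))) k (k + 1) n (2 * m + 1))
          (fm_psd (U := U) (F := H (L + (k + 1))) k (k + 1) n' (2 * m + 1))
        linarith)
    (fun k _ h2 a h3 h4 => own_step U1_ct (fun n hn y hy => hF k h2 n hn y hy) h2 h3 h4)
    (fun k _ h2 a h3 h4 => own_step hU (fun n hn y hy => hH k h2 n hn y hy) h2 h3 h4)
    (fun k _ hk => by
      have a1 : Agree (L + N) R S (L + k) (Q (L + k)) (F (L + (k + 1))) (F (L + k)) :=
        eF.path (L + k) (by omega)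
      have a2 : Agree (L + N) T S (L + k) (Q' (L + k)) (H (L + (k + 1))) (H (L + k)) :=
        eH.path (L + k) (by omega)
      have w1 := MW_change (U := U) (U' := U1 L) U1_ct hU a1 a2 (c k)
      have w2 := WW_change (U := U1 L) U1_ct hk.le a1
      have w3 := WW_change (U := U) hU hk.le a2
      simp only [hcF, hcH]
      linarith)
  -- the gains
  have hGW : ∀ k, GW N R S T (k + 1) (c (k + 1)) (g k)
      = (1 / 2) * GW N R S T (k + 1) (c (k + 1)) (mt U (F (L + (k + 1))) (H (L + (k + 1))) k)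
        - GW N R S T (k + 1) (c (k + 1)) (er U (F (L + (k + 1))) (H (L + (k + 1))) B k) := by
    intro k
    unfold GW
    have e : ∀ m ∈ iv (N - (k + 1)) S, ∀ n ∈ iv (N - (k + 1)) R,
        (if c (k + 1) - m - n ∈ iv (N - (k + 1)) T then g k n (c (k + 1) - m - n) m else 0)
        = (1 / 2) * (if c (k + 1) - m - n ∈ iv (N - (k + 1)) T then
          mt U (F (L + (k + 1))) (H (L + (k + 1))) k n (c (k + 1) - m - n) m else 0)
          - (if c (k + 1) - m - n ∈ iv (N - (k + 1)) T then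
          er U (F (L + (k + 1))) (H (L + (k + 1))) B k n (c (k + 1) - m - n) m else 0) := by
      intro m hm n hn
      by_cases hc' : c (k + 1) - m - n ∈ iv (N - (k + 1)) T
      · rw [if_pos hc', if_pos hc', if_pos hc']
        simp only [hg]
        rw [if_pos ⟨hn, hc', hm⟩]
      · rw [if_neg hc', if_neg hc', if_neg hc']
        ring
    rw [sum_congr rfl fun m hm => sum_congr rfl fun n hn => e m hm n hn]
    simp only [sum_sub_distrib, ← mul_sum]
    ring
  rw [Nat.Ico_zero_eq_range] at h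
  simp only [hGW, sum_sub_distrib, ← mul_sum] at h
  have hWW : ∀ (k : ℕ) (t : ℝ), 0 ≤ t → WW N (k + 1) (fun _ => t) ≤ 4 * t := fun k t ht =>
    WW_le (e := fun _ => t) ht fun _ _ _ => le_rfl
  have hdef : ∑ k ∈ range N, (WW N (k + 1) (fun _ => dE (U1 L) (F (L + (k + 1))) B N R S k)
      + WW N (k + 1) (fun _ => dE U (H (L + (k + 1))) B N T S k))
      ≤ 4 * ∑ k ∈ range N, dE (U1 L) (F (L + (k + 1))) B N R S k
        + 4 * ∑ k ∈ range N, dE U (H (L + (k + 1))) B N T S k := by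
    rw [mul_sum, mul_sum, ← sum_add_distrib]
    exact sum_le_sum fun k _ => add_le_add (hWW k _ (dE_nonneg ..)) (hWW k _ (dE_nonneg ..))
  have h0 : ∑ k ∈ range N, ms (U1 L) N S R k ≤ 2 * 4 ^ N * (0 : ℝ) :=
    sum_ms_le fun x _ => by simp only [U1_vd, sum_const_zero, mul_zero, le_refl]
  have hm := sum_ms_h hG
  have d1 : ∑ k ∈ range N, dE (U1 L) (F (L + (k + 1))) B N R S k
      ≤ 28 * ∑ k ∈ range N, st L N R S (F (L + (k + 1))) k
        + (5 / 2) * B ^ 2 * ∑ k ∈ range N, ms (U1 L) N S R k := by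
    rw [mul_sum, mul_sum, ← sum_add_distrib]
    exact sum_le_sum fun k _ => dE_le N R S k
  have d2 : ∑ k ∈ range N, dE U (H (L + (k + 1))) B N T S k
      ≤ 28 * ∑ k ∈ range N, st L N T S (H (L + (k + 1))) k
        + (5 / 2) * B ^ 2 * ∑ k ∈ range N, ms U N S T k := by
    rw [mul_sum, mul_sum, ← sum_add_distrib]
    exact sum_le_sum fun k _ => dE_le N T S k
  have her : ∑ k ∈ range N, GW N R S T (k + 1) (c (k + 1))
      (er U (F (L + (k + 1))) (H (L + (k + 1))) B k)
      ≤ 14 * ∑ k ∈ range N, st L N R S (F (L + (k + 1))) k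
        + 14 * ∑ k ∈ range N, st L N T S (H (L + (k + 1))) k
        + B ^ 2 * ∑ k ∈ range N, ms U N S T k := by
    rw [mul_sum, mul_sum, mul_sum, ← sum_add_distrib, ← sum_add_distrib]
    exact sum_le_sum fun k _ => GW_er_le R S T (c (k + 1))
  have s1 := sum_st_path (L := L) le_rfl (N := N) eF.path
  have s2 := sum_st_path (L := L) le_rfl (N := N) eH.path
  have n1 := ee_nonneg (L := L) (F := F (L + N)) N R S N
  have n2 := ee_nonneg (L := L) (F := H (L + N)) N T S N
  have p1 := path_energy eF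
  have p2 := path_energy eH
  have w1 := EW_start (U := U1 L) U1_ct N R S (F (L + 0))
  have w2 := EW_start (U := U) hU N T S (H (L + 0))
  have c1 : 0 ≤ ∑ k ∈ range N, cF k := sum_nonneg fun k _ => chq_nonneg ..
  have c2 : 0 ≤ ∑ k ∈ range N, cH k := sum_nonneg fun k _ => chq_nonneg ..
  have z1 := ee_nonneg (L := L) (F := F (L + 0)) N R S 0
  have z2 := ee_nonneg (L := L) (F := H (L + 0)) N T S 0
  have mB := mul_le_mul_of_nonneg_left hm (sq_nonneg B)
  have mB0 := mul_le_mul_of_nonneg_left h0 (sq_nonneg B)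
  have z : 0 ≤ 4 ^ N * B ^ 2 * G := mul_nonneg (by positivity) hG0
  have hx : ∑ k ∈ range N, (cF k + cH k) = ∑ k ∈ range N, cF k + ∑ k ∈ range N, cH k :=
    sum_add_distrib
  have i1 : ∑ k ∈ range N, chq L N R S (Q (L + k)) (F (L + (k + 1))) k = ∑ k ∈ range N, cF k :=
    rfl
  have i2 : ∑ k ∈ range N, chq L N T S (Q' (L + k)) (H (L + (k + 1))) k = ∑ k ∈ range N, cH k :=
    rfl
  have q1 : 5 / 2 * B ^ 2 * ∑ k ∈ range N, ms (U1 L) N S R k
      = 5 / 2 * (B ^ 2 * ∑ k ∈ range N, ms (U1 L) N S R k) := by ring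
  have q2 : 5 / 2 * B ^ 2 * ∑ k ∈ range N, ms U N S T k
      = 5 / 2 * (B ^ 2 * ∑ k ∈ range N, ms U N S T k) := by ring
  have q3 : B ^ 2 * (2 * 4 ^ N * G) = 2 * (4 ^ N * B ^ 2 * G) := by ring
  have q4 : B ^ 2 * (2 * 4 ^ N * 0) = 0 := by ring
  rw [i1] at s1 p1
  rw [i2] at s2 p2
  rw [hx] at h
  rw [q1] at d1
  rw [q2] at d2
  rw [q3] at mB
  rw [q4] at mB0
  rw [mul_add ((4 : ℝ) ^ L)⁻¹]
  linarith

/-- **The crude lemma for the low levels, for paths.** -/
theorem lo_path {N : ℕ} {R S T : ℤ} {c : ℕ → ℤ} (hc : Pl c) (hU : ∀ k x n, Ct (U k x n))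
    {Q Q' : ℕ → ℤ → ℤ → Prop} {F H : ℕ → ℤ → ℤ → ℝ} {D D' : ℝ}
    (eF : L2E (L + N) R S Q F D) (eH : L2E (L + N) T S Q' H D')
    (hF : ∀ k < N, ∀ n ∈ iv (N - k) R, ∀ y ∈ iv N S,
      (Xg (L + k) L (F (L + (k + 1))) n y).trace ≤ B ^ 2)
    (hH : ∀ k < N, ∀ n ∈ iv (N - k) T, ∀ y ∈ iv N S,
      (Xg (L + k) L (H (L + (k + 1))) n y).trace ≤ B ^ 2) {G : ℝ}
    (hG : ∀ x ∈ iv N S, ∑ k ∈ range N, 2 ^ (k + 1) * ∑ j ∈ iv (N - (k + 1)) T, vd U k x j
      ≤ 2 ^ N * G) :
    ∑ k ∈ range N, GW N R S T (k + 1) (c (k + 1)) (mt U (F (L + (k + 1))) (H (L + (k + 1))) k)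
      ≤ 10 ^ 4 * (((4 : ℝ) ^ L)⁻¹ * (D + D') + 4 ^ N * B ^ 2 * G) :=
  lo_path_h hc hU eF eH hF hH ((sum_le_sum hG).trans (le_of_eq (by
    rw [sum_const_iv, show (4 : ℝ) = 2 * 2 by norm_num, mul_pow]
    ring)))

end

end Vale.Agent.P141.H433
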