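import Vale.Agent.P141.H433.Lo

/-!
# The crude lemma: sums over the plane
-/

set_option linter.unusedSectionVars false

namespace Vale.Agent.P141.H433

open Finset Matrix Vale.Agent.P075 Vale.Agent.P141.PL Vale.Agent.P141.H103 Vale.Agent.P141.H170
open Vale.Agent.P141.PL.H588 (Xg Xs hd Pl cd dl)

noncomputable section

variable {L : ℕ} {U : ℕ → ℤ → ℤ → Matrix (Ix L) (Ix L) ℝ} {F H : ℤ → ℤ → ℝ} {B : ℝ}

/-! ### the static potential -/

/-- the energy at scale `k` -/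
def ee (L N : ℕ) (R S : ℤ) (F : ℤ → ℤ → ℝ) (k : ℕ) : ℝ :=
  (4 : ℝ) ^ k * ∑ m ∈ iv (N - k) S, ∑ n ∈ iv (N - k) R, GX (Xg (L + k) (L + k) F n m)

/-- the static defect of one node -/
def sp (L : ℕ) (F : ℤ → ℤ → ℝ) (k : ℕ) (n m : ℤ) : ℝ :=
  (1 / 2) * cd (L + (k + 1)) (L + k) F n m
    + (1 / 4) * (dl (L + k) (L + k) F n (2 * m) + dl (L + k) (L + k) F n (2 * m + 1))

/-- the static defect at scale `k` -/
def st (L N : ℕ) (R S : ℤ) (F : ℤ → ℤ → ℝ) (k : ℕ) : ℝ :=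
  (4 : ℝ) ^ (k + 1) * ∑ m ∈ iv (N - (k + 1)) S, ∑ n ∈ iv (N - (k + 1)) R, sp L F k n m

theorem sp_nonneg (k : ℕ) (n m : ℤ) : 0 ≤ sp L F k n m := by
  unfold sp
  have h1 := H588.cd_nonneg (L + (k + 1)) (L + k) F n m
  have h2 := H588.dl_nonneg (L + k) (L + k) F n (2 * m)
  have h3 := H588.dl_nonneg (L + k) (L + k) F n (2 * m + 1)
  positivity

theorem ee_nonneg (N : ℕ) (R S : ℤ) (k : ℕ) : 0 ≤ ee L N R S F k :=
  mul_nonneg (by positivity) (sum_nonneg fun _ _ => sum_nonneg fun _ _ =>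
    H588.GX_nonneg' (H588.Xg_psd ..))

theorem st_step {N k : ℕ} (h : k < N) (R S : ℤ) :
    ee L N R S F (k + 1) + st L N R S F k ≤ ee L N R S F k := by
  have e : N - k = (N - (k + 1)) + 1 := by omega
  unfold ee st
  rw [e, H588.sum_iv_succ]
  simp only [H588.sum_iv_succ]
  rw [← mul_add, ← sum_add_distrib, show (4 : ℝ) ^ (k + 1) = 4 ^ k * 4 by ring, mul_assoc]
  refine mul_le_mul_of_nonneg_left ?_ (by positivity)
  rw [mul_sum]
  refine sum_le_sum fun m _ => ?_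
  rw [← sum_add_distrib, ← sum_add_distrib, mul_sum]
  refine sum_le_sum fun n _ => ?_
  have q1 := H588.col_pt (L + (k + 1)) (L + k) F n m
  have q2 := H588.row_pt (L + k) (L + k) F n (2 * m)
  have q3 := H588.row_pt (L + k) (L + k) F n (2 * m + 1)
  unfold sp
  have e1 : GX (Xg (L + (k + 1)) (L + (k + 1)) F n m) = GX (Xg (L + (k + 1)) (L + k + 1) F n m) := rfl
  have e2 : ∀ m', GX (Xg (L + (k + 1)) (L + k) F n m') = GX (Xg (L + k + 1) (L + k) F n m') :=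
    fun _ => rfl
  rw [e1]
  rw [e2, e2] at q1
  linarith

theorem sum_st {N K : ℕ} (h : K ≤ N) (R S : ℤ) :
    ∑ k ∈ range K, st L N R S F k + ee L N R S F K ≤ ee L N R S F 0 := by
  induction K with
  | zero => simp
  | succ K ih =>
    rw [sum_range_succ]
    have h1 := ih (by omega)
    have h2 := st_step (L := L) (F := F) (show K < N by omega) R S
    linarith

theorem sum_const_iv (a : ℕ) (m : ℤ) (t : ℝ) : ∑ _x ∈ iv a m, t = 2 ^ a * t := by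
  rw [sum_const, card_iv, nsmul_eq_mul]
  push_cast
  ring

theorem ee_zero_le (hF : ∀ x y, ∑ j : Ix L, F x (2 ^ L * y + val L j) ^ 2 ≤ 2 ^ L * B ^ 2)
    (N : ℕ) (R S : ℤ) : ee L N R S F 0 ≤ 4 ^ N * B ^ 2 := by
  unfold ee
  rw [pow_zero, one_mul, Nat.sub_zero]
  have h : ∑ m ∈ iv N S, ∑ n ∈ iv N R, GX (Xg (L + 0) (L + 0) F n m)
      ≤ ∑ m ∈ iv N S, ∑ n ∈ iv N R, B ^ 2 :=
    sum_le_sum fun m _ => sum_le_sum fun n _ =>
      (H588.GX_le_trace (H588.Xg_psd ..)).trans (trace_Xg_le hF L n m)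
  refine h.trans (le_of_eq ?_)
  rw [sum_const_iv, sum_const_iv, ← mul_assoc, ← mul_pow]
  norm_num

theorem sum_st_le (hF : ∀ x y, ∑ j : Ix L, F x (2 ^ L * y + val L j) ^ 2 ≤ 2 ^ L * B ^ 2)
    (N : ℕ) (R S : ℤ) : ∑ k ∈ range N, st L N R S F k ≤ 4 ^ N * B ^ 2 := by
  have h1 := sum_st (L := L) (F := F) le_rfl (N := N) R S
  have h2 := ee_nonneg (L := L) (F := F) N R S N
  have h3 := ee_zero_le hF N R S
  linarith

/-! ### the mass of the change -/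

/-- the mass at scale `k` -/
def ms (U : ℕ → ℤ → ℤ → Matrix (Ix L) (Ix L) ℝ) (N : ℕ) (S T : ℤ) (k : ℕ) : ℝ :=
  (4 : ℝ) ^ (k + 1) * ∑ m ∈ iv (N - (k + 1)) S, ∑ j ∈ iv (N - (k + 1)) T, vs U k (k + 1) j m

theorem ms_eq {N k : ℕ} (h : k < N) (S T : ℤ) :
    ms U N S T k = 2 * ∑ x ∈ iv N S, 2 ^ (k + 1) * ∑ j ∈ iv (N - (k + 1)) T, vd U k x j := by
  unfold ms vs
  have e : ∑ m ∈ iv (N - (k + 1)) S, ∑ j ∈ iv (N - (k + 1)) T,
      ((2 : ℝ) ^ k)⁻¹ * ∑ x ∈ iv (k + 1) m, vd U k x j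
      = ((2 : ℝ) ^ k)⁻¹ * ∑ x ∈ iv N S, ∑ j ∈ iv (N - (k + 1)) T, vd U k x j := by
    have e1 := sum_iv_nest (N - (k + 1)) (k + 1) S (fun x => ∑ j ∈ iv (N - (k + 1)) T, vd U k x j)
    rw [show N - (k + 1) + (k + 1) = N by omega] at e1
    rw [← e1, mul_sum]
    refine sum_congr rfl fun m _ => ?_
    rw [← mul_sum, sum_comm]
  rw [e, ← mul_sum]
  have h4 : (4 : ℝ) ^ (k + 1) = 2 * 2 ^ (k + 1) * 2 ^ k := by
    rw [show (4 : ℝ) = 2 * 2 by norm_num, mul_pow]; ring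
  rw [h4]
  have h2 : (2 : ℝ) ^ k ≠ 0 := by positivity
  field_simp

theorem sum_ms_le {N : ℕ} {S T : ℤ} {G : ℝ}
    (hG : ∀ x ∈ iv N S, ∑ k ∈ range N, 2 ^ (k + 1) * ∑ j ∈ iv (N - (k + 1)) T, vd U k x j
      ≤ 2 ^ N * G) :
    ∑ k ∈ range N, ms U N S T k ≤ 2 * 4 ^ N * G := by
  have h1 : ∑ k ∈ range N, ms U N S T k = 2 * ∑ x ∈ iv N S, ∑ k ∈ range N,
      2 ^ (k + 1) * ∑ j ∈ iv (N - (k + 1)) T, vd U k x j := by
    rw [sum_comm, mul_sum]
    exact sum_congr rfl fun k hk => ms_eq (mem_range.1 hk) S T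
  rw [h1]
  refine (mul_le_mul_of_nonneg_left (sum_le_sum hG) (by norm_num)).trans (le_of_eq ?_)
  rw [sum_const_iv, show (4 : ℝ) = 2 * 2 by norm_num, mul_pow]
  ring

/-! ### own energies -/

/-- the defect of the own energy at scale `k` -/
def dE (U : ℕ → ℤ → ℤ → Matrix (Ix L) (Ix L) ℝ) (F : ℤ → ℤ → ℝ) (B : ℝ) (N : ℕ) (R S : ℤ)
    (k : ℕ) : ℝ :=
  (4 : ℝ) ^ (k + 1) * ∑ m ∈ iv (N - (k + 1)) S, ∑ j ∈ iv (N - (k + 1)) R, df U F B k j m

theorem dE_nonneg (N : ℕ) (R S : ℤ) (k : ℕ) : 0 ≤ dE U F B N R S k :=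
  mul_nonneg (by positivity) (sum_nonneg fun _ _ => sum_nonneg fun _ _ => df_nonneg ..)

/-- line energies inside the root -/
def Lr (L N : ℕ) (R S : ℤ) (F : ℤ → ℤ → ℝ) (B : ℝ) (k : ℕ) : Prop :=
  ∀ n ∈ iv (N - k) R, ∀ y ∈ iv N S, (Xg (L + k) L F n y).trace ≤ B ^ 2

theorem iv_trans {p r q : ℕ} (h : p + r = q) {R n x : ℤ} (hn : n ∈ iv p R) (hx : x ∈ iv r n) :
    x ∈ iv q R := by
  rw [mem_iv] at hn hx ⊢
  rw [← hn, ← hx, ix_ix]
  congr 1
  omega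

theorem Lr.ln {N k r : ℕ} {R S n m : ℤ} (h : Lr L N R S F B k) (hk : k < N)
    (hr : k + 1 + r ≤ N) (hn : n ∈ iv (N - (k + 1 + r)) R) (hm : m ∈ iv (N - (k + 1)) S) :
    Ln L F B k (r + 1) (k + 1) n m := fun _ hj _ hy =>
  h _ (iv_trans (by omega) hn hj) _ (iv_trans (by omega) hm hy)

theorem own_step (hU : ∀ k x n, Ct (U k x n))
    {N k a : ℕ} {R S : ℤ} (hF : Lr L N R S F B k) (h : k < N) (h1 : k + 1 ≤ a) (h2 : a ≤ N) :
    EW N R S (k + 1) (fm U F (k + 1)) a ≤ EW N R S k (fm U F k) a + dE U F B N R S k := by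
  obtain ⟨r, rfl⟩ := Nat.exists_eq_add_of_le h1
  unfold EW dE
  have e1 : N - k = (N - (k + 1)) + 1 := by omega
  have e2 : N - (k + 1) = (N - (k + 1 + r)) + r := by omega
  have hs : ∑ m ∈ iv (N - (k + 1)) S, ∑ n ∈ iv (N - (k + 1 + r)) R,
      (fm U F (k + 1) (k + 1 + r) n m * fm U F (k + 1) (k + 1 + r) n m).trace
      ≤ ∑ m ∈ iv (N - (k + 1)) S, ∑ n ∈ iv (N - (k + 1 + r)) R,
        ((1 / 2) * ((fm U F k (k + 1 + r) n (2 * m) * fm U F k (k + 1 + r) n (2 * m)).trace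
        + (fm U F k (k + 1 + r) n (2 * m + 1) * fm U F k (k + 1 + r) n (2 * m + 1)).trace)
        + ((2 : ℝ) ^ r)⁻¹ * ∑ j ∈ iv r n, df U F B k j m) :=
    sum_le_sum fun m hm => sum_le_sum fun n hn => own_pt hU (hF.ln h h2 hn hm)
  refine (mul_le_mul_of_nonneg_left hs (by positivity)).trans (le_of_eq ?_)
  have hA : ∑ m ∈ iv (N - k) S, ∑ n ∈ iv (N - (k + 1 + r)) R,
      (fm U F k (k + 1 + r) n m * fm U F k (k + 1 + r) n m).trace
      = ∑ m ∈ iv (N - (k + 1)) S, ∑ n ∈ iv (N - (k + 1 + r)) R,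
        ((fm U F k (k + 1 + r) n (2 * m) * fm U F k (k + 1 + r) n (2 * m)).trace
        + (fm U F k (k + 1 + r) n (2 * m + 1) * fm U F k (k + 1 + r) n (2 * m + 1)).trace) := by
    rw [e1, H588.sum_iv_succ]
    exact sum_congr rfl fun m _ => sum_add_distrib.symm
  have hD : ∀ m, ∑ n ∈ iv (N - (k + 1 + r)) R, ∑ j ∈ iv r n, df U F B k j m
      = ∑ j ∈ iv (N - (k + 1)) R, df U F B k j m := by
    intro m
    rw [sum_iv_nest, ← e2]
  rw [hA]
  simp only [sum_add_distrib, ← mul_sum, hD]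
  have h4 : (4 : ℝ) ^ (k + 1) = 2 ^ (k + 1) * 2 ^ (k + 1) := by
    rw [← mul_pow]; norm_num
  have h5 : (2 : ℝ) ^ (k + 1 + r) = 2 ^ (k + 1) * 2 ^ r := pow_add _ _ _
  have h6 : (2 : ℝ) ^ r ≠ 0 := by positivity
  rw [h4, h5, pow_succ]
  field_simp

theorem dE_le (N : ℕ) (R S : ℤ) (k : ℕ) :
    dE U F B N R S k ≤ 28 * st L N R S F k + (5 / 2) * B ^ 2 * ms U N S R k := by
  unfold dE st ms
  have e : 28 * ((4 : ℝ) ^ (k + 1) * ∑ m ∈ iv (N - (k + 1)) S, ∑ n ∈ iv (N - (k + 1)) R,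
      sp L F k n m) + (5 / 2) * B ^ 2 * ((4 : ℝ) ^ (k + 1) * ∑ m ∈ iv (N - (k + 1)) S,
        ∑ j ∈ iv (N - (k + 1)) R, vs U k (k + 1) j m)
      = (4 : ℝ) ^ (k + 1) * ∑ m ∈ iv (N - (k + 1)) S, ∑ j ∈ iv (N - (k + 1)) R,
        (28 * sp L F k j m + (5 / 2) * B ^ 2 * vs U k (k + 1) j m) := by
    simp only [sum_add_distrib, ← mul_sum]
    ring
  rw [e]
  refine mul_le_mul_of_nonneg_left (sum_le_sum fun m _ => sum_le_sum fun j _ => ?_) (by positivity)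
  unfold df sp
  have h2 := H588.dl_nonneg (L + k) (L + k) F j (2 * m)
  have h3 := H588.dl_nonneg (L + k) (L + k) F j (2 * m + 1)
  linarith

theorem sum_dE_le (hF : ∀ x y, ∑ j : Ix L, F x (2 ^ L * y + val L j) ^ 2 ≤ 2 ^ L * B ^ 2)
    {N : ℕ} {R S : ℤ} {G : ℝ}
    (hG : ∀ x ∈ iv N S, ∑ k ∈ range N, 2 ^ (k + 1) * ∑ j ∈ iv (N - (k + 1)) R, vd U k x j
      ≤ 2 ^ N * G) :
    ∑ k ∈ range N, dE U F B N R S k ≤ 28 * (4 ^ N * B ^ 2) + 5 * (4 ^ N * B ^ 2 * G) := by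
  have h1 := sum_st_le hF N R S
  have h2 := sum_ms_le hG
  have h3 : ∑ k ∈ range N, dE U F B N R S k
      ≤ 28 * ∑ k ∈ range N, st L N R S F k + (5 / 2) * B ^ 2 * ∑ k ∈ range N, ms U N S R k := by
    rw [mul_sum, mul_sum, ← sum_add_distrib]
    exact sum_le_sum fun k _ => dE_le N R S k
  have h4 := mul_le_mul_of_nonneg_left h2 (by positivity : 0 ≤ (5 / 2) * B ^ 2)
  linarith

/-! ### the defects of the pair -/

theorem GW_er_le {N k : ℕ} (R S T : ℤ) (c : ℤ) :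
    GW N R S T (k + 1) c (er U F H B k)
      ≤ 14 * st L N R S F k + 14 * st L N T S H k + B ^ 2 * ms U N S T k := by
  unfold GW
  set M := N - (k + 1) with hM
  have e : 14 * st L N R S F k + 14 * st L N T S H k + B ^ 2 * ms U N S T k
      = (4 : ℝ) ^ (k + 1) * ∑ m ∈ iv M S, (∑ n ∈ iv M R, 14 * sp L F k n m
        + ∑ n' ∈ iv M T, (14 * sp L H k n' m + B ^ 2 * vs U k (k + 1) n' m)) := by
    unfold st ms
    simp only [sum_add_distrib, ← mul_sum]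
    ring
  rw [e]
  refine mul_le_mul_of_nonneg_left (sum_le_sum fun m _ => ?_) (by positivity)
  have hn : ∀ n', 0 ≤ 14 * sp L H k n' m + B ^ 2 * vs U k (k + 1) n' m := fun n' =>
    add_nonneg (mul_nonneg (by norm_num) (sp_nonneg ..)) (mul_nonneg (sq_nonneg _) (vs_nonneg ..))
  have q := H588.sum_refl_le M R T (c - m)
    (fun n' => 14 * sp L H k n' m + B ^ 2 * vs U k (k + 1) n' m) hn
  refine le_trans ?_ (add_le_add_right q _)
  rw [← sum_add_distrib]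
  refine sum_le_sum fun n _ => ?_
  have hs := sp_nonneg (L := L) (F := F) k n m
  split_ifs with hc
  · unfold er sp
    have h2 := H588.dl_nonneg (L + k) (L + k) H (c - m - n) (2 * m)
    have h3 := H588.dl_nonneg (L + k) (L + k) H (c - m - n) (2 * m + 1)
    have h4 := H588.dl_nonneg (L + k) (L + k) F n (2 * m)
    have h5 := H588.dl_nonneg (L + k) (L + k) F n (2 * m + 1)
    linarith
  · linarith

theorem EW_zero_le (hU : ∀ k x n, Ct (U k x n))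
    (hF : ∀ x y, ∑ j : Ix L, F x (2 ^ L * y + val L j) ^ 2 ≤ 2 ^ L * B ^ 2) (N : ℕ) (R S : ℤ) :
    EW N R S 0 (fm U F 0) 0 ≤ 4 ^ N * B ^ 2 := by
  unfold EW
  have h1 : ∀ n m, (fm U F 0 0 n m * fm U F 0 0 n m).trace ≤ B ^ 2 := by
    intro n m
    have e : fm U F 0 0 n m = cj (DU U 0 0 n m) (Xg (L + 0) (L + 0) F n m) := by
      unfold fm
      rw [Nat.sub_self, mn_zero]
      rfl
    have hX : (Xg (L + 0) (L + 0) F n m).PosSemidef := H588.Xg_psd ..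
    have p1 : (cj (DU U 0 0 n m) (Xg (L + 0) (L + 0) F n m)).PosSemidef := cj_psd hX
    have q1 := trace_mul_le_right (V := cj (DU U 0 0 n m) (Xg (L + 0) (L + 0) F n m)) (W := 1) p1
      (one_sub_cj hX (DU_ct hU 0 0 n m).2)
    rw [Matrix.mul_one] at q1
    have q2 : (cj (DU U 0 0 n m) (Xg (L + 0) (L + 0) F n m)).trace
        ≤ (phi (Xg (L + 0) (L + 0) F n m)).trace := trace_conj_le (DU_ct hU 0 0 n m) (phi_psd hX)
    have q3 := (sub_phi_psd hX).trace_nonneg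
    rw [trace_sub] at q3
    have q4 : (Xg (L + 0) (L + 0) F n m).trace ≤ B ^ 2 := trace_Xg_le hF L n m
    rw [e]
    linarith
  refine (mul_le_mul_of_nonneg_left (sum_le_sum fun m _ => sum_le_sum fun n _ => h1 n m)
    (by positivity)).trans (le_of_eq ?_)
  rw [Nat.sub_zero, sum_const_iv, sum_const_iv, pow_zero, one_mul, one_mul, ← mul_assoc, ← mul_pow]
  norm_num

/-! ### the lemma -/

/-- **The crude lemma for the low levels.** -/
theorem lo {N : ℕ} {R S T : ℤ} {c : ℕ → ℤ} (hc : Pl c) (hU : ∀ k x n, Ct (U k x n))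
    (hF : ∀ x y, ∑ j : Ix L, F x (2 ^ L * y + val L j) ^ 2 ≤ 2 ^ L * B ^ 2)
    (hH : ∀ x y, ∑ j : Ix L, H x (2 ^ L * y + val L j) ^ 2 ≤ 2 ^ L * B ^ 2) {G : ℝ}
    (hG : ∀ x ∈ iv N S, ∑ k ∈ range N, 2 ^ (k + 1) * ∑ j ∈ iv (N - (k + 1)) T, vd U k x j
      ≤ 2 ^ N * G) :
    ∑ k ∈ range N, GW N R S T (k + 1) (c (k + 1)) (mt U F H k)
      ≤ 10 ^ 4 * (4 ^ N * B ^ 2) * (1 + G) := by
  have hG0 : 0 ≤ G := by
    have hm : (2 : ℤ) ^ N * S ∈ iv N S := by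
      have hp : (0 : ℤ) < 2 ^ N := by positivity
      rw [iv, mem_Ico]
      exact ⟨le_rfl, by linarith⟩
    have h1 := hG (2 ^ N * S) hm
    have h2 : 0 ≤ ∑ k ∈ range N, (2 : ℝ) ^ (k + 1) * ∑ j ∈ iv (N - (k + 1)) T,
        vd U k (2 ^ N * S) j :=
      sum_nonneg fun _ _ => mul_nonneg (by positivity) (sum_nonneg fun _ _ => vd_nonneg ..)
    have h3 : (0 : ℝ) < 2 ^ N := by positivity
    nlinarith
  have h := totalW (Nat.zero_le N) hc (P := fun k => fm (U1 L) F k) (P' := fun k => fm (U1 L) F k)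
    (Q := fun k => fm U H k) (Q' := fun k => fm U H k) (R := R) (S := S) (T := T)
    (g := fun k n n' m => (1 / 2) * mt U F H k n n' m - er U F H B k n n' m)
    (dE := fun k _ => dE (U1 L) F B N R S k) (dF := fun k _ => dE U H B N T S k)
    (x := fun _ => 0)
    (fun k _ _ => fm_out N k) (fun k _ _ => fm_out N k) (fun k _ _ => fm_out N k)
    (fun k _ _ => fm_out N k) (fun k a n m => fm_symm k a n m) (fun k a n m => fm_symm k a n m)
    (fun k a n m => fm_symm k a n m) (fun k a n m => fm_symm k a n m)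
    (fun k _ _ n n' m => mid_pt hU (fun j _ y _ => trace_Xg_le hF (L + k) j y)
      (fun j _ y _ => trace_Xg_le hH (L + k) j y))
    (fun k _ h2 a h3 h4 => own_step U1_ct (fun n _ y _ => trace_Xg_le hF (L + k) n y) h2 h3 h4)
    (fun k _ h2 a h3 h4 => own_step hU (fun n _ y _ => trace_Xg_le hH (L + k) n y) h2 h3 h4)
    (fun k _ _ => by simp)
  have hGW : ∀ k, GW N R S T (k + 1) (c (k + 1))
      (fun n n' m => (1 / 2) * mt U F H k n n' m - er U F H B k n n' m)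
      = (1 / 2) * GW N R S T (k + 1) (c (k + 1)) (mt U F H k)
        - GW N R S T (k + 1) (c (k + 1)) (er U F H B k) := by
    intro k
    unfold GW
    have e : ∀ m n : ℤ, (if c (k + 1) - m - n ∈ iv (N - (k + 1)) T then
        (1 / 2) * mt U F H k n (c (k + 1) - m - n) m - er U F H B k n (c (k + 1) - m - n) m else 0)
        = (1 / 2) * (if c (k + 1) - m - n ∈ iv (N - (k + 1)) T then
          mt U F H k n (c (k + 1) - m - n) m else 0)
          - (if c (k + 1) - m - n ∈ iv (N - (k + 1)) T then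
          er U F H B k n (c (k + 1) - m - n) m else 0) := by
      intro m n
      split_ifs <;> ring
    simp only [e, sum_sub_distrib, ← mul_sum]
    ring
  rw [Nat.Ico_zero_eq_range] at h
  simp only [hGW, sum_sub_distrib, sum_const_zero, add_zero, ← mul_sum] at h
  have hWW : ∀ (k : ℕ) (t : ℝ), 0 ≤ t → WW N (k + 1) (fun _ => t) ≤ 4 * t := fun k t ht =>
    WW_le (e := fun _ => t) ht fun _ _ _ => le_rfl
  have hdef : ∑ k ∈ range N, (WW N (k + 1) (fun _ => dE (U1 L) F B N R S k)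
      + WW N (k + 1) (fun _ => dE U H B N T S k))
      ≤ 4 * ∑ k ∈ range N, dE (U1 L) F B N R S k + 4 * ∑ k ∈ range N, dE U H B N T S k := by
    rw [mul_sum, mul_sum, ← sum_add_distrib]
    exact sum_le_sum fun k _ => add_le_add (hWW k _ (dE_nonneg ..)) (hWW k _ (dE_nonneg ..))
  have h0 : ∀ x ∈ iv N S, ∑ k ∈ range N, 2 ^ (k + 1) * ∑ j ∈ iv (N - (k + 1)) R,
      vd (U1 L) k x j ≤ 2 ^ N * (0 : ℝ) := by
    intro x _
    simp only [U1_vd, sum_const_zero, mul_zero, le_refl]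
  have d1 := sum_dE_le hF h0
  have d2 := sum_dE_le hH hG
  have her : ∑ k ∈ range N, GW N R S T (k + 1) (c (k + 1)) (er U F H B k)
      ≤ 14 * ∑ k ∈ range N, st L N R S F k + 14 * ∑ k ∈ range N, st L N T S H k
        + B ^ 2 * ∑ k ∈ range N, ms U N S T k := by
    rw [mul_sum, mul_sum, mul_sum, ← sum_add_distrib, ← sum_add_distrib]
    exact sum_le_sum fun k _ => GW_er_le R S T (c (k + 1))
  have s1 := sum_st_le hF N R S
  have s2 := sum_st_le hH N T S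
  have s3 := mul_le_mul_of_nonneg_left (sum_ms_le hG) (sq_nonneg B)
  have w1 := EW_zero_le U1_ct hF N R S
  have w2 := EW_zero_le hU hH N T S
  have z : 0 ≤ 4 ^ N * B ^ 2 := by positivity
  have z2 : 0 ≤ 4 ^ N * B ^ 2 * G := mul_nonneg z hG0
  nlinarith [h, hdef, d1, d2, her, s1, s2, s3, w1, w2, z, z2]

end

end Vale.Agent.P141.H433
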