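import Vale.Agent.P141.H170.OwnU
import Vale.Agent.P141.H433.DiagU
import Vale.Agent.P141.H103.PlaneW

/-!
# The slots `U φ(Gram) Uᵀ` with a block diagonal contraction which moves in the outer variable
-/

set_option linter.unusedSectionVars false

namespace Vale.Agent.P141.H433

open Finset Matrix Vale.Agent.P075 Vale.Agent.P141.PL Vale.Agent.P141.H170
open Vale.Agent.P141.PL.H588 (Xg Xs hd Pl cd dl)

noncomputable section

variable {L : ℕ}

/-! ### pure matrices -/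

section pure

variable {n : Type*} [Fintype n] [DecidableEq n]

theorem sub_phi_psd {X : Matrix n n ℝ} (hX : X.PosSemidef) : (X - phi X).PosSemidef := by
  have e : X - phi X = X * res X * X := by
    rw [mul_res hX, Matrix.sub_mul, Matrix.one_mul, res_mul hX, phi]
  rw [e]
  exact psd_conj_symm (res_psd hX) (psd_isSymm hX)

/-- Hilbert Schmidt norm -/
def hn (M : Matrix n n ℝ) : ℝ := √((M * Mᵀ).trace)

theorem hn_nonneg (M : Matrix n n ℝ) : 0 ≤ hn M := Real.sqrt_nonneg _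

theorem hn_sq (M : Matrix n n ℝ) : hn M * hn M = (M * Mᵀ).trace :=
  Real.mul_self_sqrt (psd_mul_transpose M).trace_nonneg

theorem norm_ct (M : Matrix n n ℝ) : Ct ((hn M)⁻¹ • M) := by
  rcases eq_or_ne (hn M) 0 with h | h
  · rw [h, _root_.inv_zero, zero_smul]
    unfold Ct
    rw [Matrix.mul_zero, Matrix.zero_mul, sub_zero]
    exact ⟨PosSemidef.one, PosSemidef.one⟩
  · have h2 : hn M * hn M ≠ 0 := mul_ne_zero h h
    have h3 : 0 ≤ (hn M)⁻¹ * (hn M)⁻¹ := mul_self_nonneg _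
    constructor
    · have q := (trace_sub_psd (psd_transpose_mul M)).smul h3
      rw [trace_mul_comm, ← hn_sq] at q
      convert q using 1
      rw [transpose_smul, Matrix.smul_mul, Matrix.mul_smul, smul_smul, smul_sub, smul_smul]
      rw [show (hn M)⁻¹ * (hn M)⁻¹ * (hn M * hn M) = 1 by field_simp, one_smul]
    · have q := (trace_sub_psd (psd_mul_transpose M)).smul h3
      rw [← hn_sq] at q
      convert q using 1
      rw [transpose_smul, Matrix.smul_mul, Matrix.mul_smul, smul_smul, smul_sub, smul_smul]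
      rw [show (hn M)⁻¹ * (hn M)⁻¹ * (hn M * hn M) = 1 by field_simp, one_smul]

theorem zez (M : Matrix n n ℝ) :
    ((√(hn M)) • (1 : Matrix n n ℝ)) * ((hn M)⁻¹ • M) * ((√(hn M)) • (1 : Matrix n n ℝ)) = M := by
  rw [Matrix.smul_mul, Matrix.one_mul, Matrix.mul_smul, Matrix.mul_one, smul_smul, smul_smul]
  have hs := Real.mul_self_sqrt (hn_nonneg M)
  rcases eq_or_ne (hn M) 0 with h | h
  · have hM : M = 0 := by
      have q := norm_ct M
      have q2 := hn_sq M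
      rw [h, mul_zero] at q2
      have q3 := (trace_sub_psd (psd_mul_transpose M))
      rw [← q2, zero_smul, zero_sub] at q3
      ext i j
      have q4 := q3.diag_nonneg (i := i)
      rw [neg_apply, Matrix.mul_apply] at q4
      simp only [transpose_apply] at q4
      have q5 : ∑ k, M i k * M i k = 0 := le_antisymm (by linarith)
        (Finset.sum_nonneg fun k _ => mul_self_nonneg _)
      have q6 := (Finset.sum_eq_zero_iff_of_nonneg fun k _ => mul_self_nonneg (M i k)).1 q5 j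
        (Finset.mem_univ j)
      rw [Matrix.zero_apply]
      exact mul_self_eq_zero.1 q6
    rw [hM, smul_zero]
  · rw [show √(hn M) * √(hn M) * (hn M)⁻¹ = 1 by rw [hs]; exact mul_inv_cancel₀ h, one_smul]

end pure

/-! ### block diagonal families -/

theorem DL_symm {V : ℤ → Matrix (Ix L) (Ix L) ℝ} (hV : ∀ x, (V x)ᵀ = V x) (k : ℕ) (m : ℤ) :
    (DL L V k m)ᵀ = DL L V k m := by
  rw [DL_transpose]
  congr 1
  funext x
  exact hV x

/-- the diagonal bound for a conjugated saturated Gram matrix -/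
theorem diag_cj {F : ℤ → ℤ → ℝ} {B : ℝ} {a k : ℕ} {n m : ℤ}
    (hF : ∀ y ∈ iv k m, (Xg a L F n y).trace ≤ B ^ 2)
    {M U : ℤ → Matrix (Ix L) (Ix L) ℝ} {μ : ℤ → ℝ} (hM : ∀ x, (M x).PosSemidef)
    (hμ : ∀ x, 0 ≤ μ x) (hMμ : ∀ x, (μ x • (1 : Matrix (Ix L) (Ix L) ℝ) - M x).PosSemidef)
    (hU : ∀ x, Ct (U x)) :
    (DL L M k m * cj (DL L U k m) (Xg a (L + k) F n m)).trace
      ≤ ((2 : ℝ) ^ k)⁻¹ * B ^ 2 * ∑ x ∈ iv k m, μ x := by
  have hX := H588.Xg_psd a (L + k) F n m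
  have e : (DL L M k m * cj (DL L U k m) (Xg a (L + k) F n m)).trace
      = (DL L (fun x => (U x)ᵀ * M x * U x) k m * phi (Xg a (L + k) F n m)).trace := by
    rw [← DL_mul, ← DL_mul, ← DL_transpose, cj]
    rw [show DL L M k m * (DL L U k m * phi (Xg a (L + k) F n m) * (DL L U k m)ᵀ)
      = (DL L M k m * DL L U k m * phi (Xg a (L + k) F n m)) * (DL L U k m)ᵀ by
        simp only [Matrix.mul_assoc], trace_mul_comm]
    simp only [Matrix.mul_assoc]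
  have p : ∀ x, ((U x)ᵀ * M x * U x).PosSemidef := fun x => by
    have := psd_conj (hM x) (U x)ᵀ
    rwa [transpose_transpose] at this
  rw [e]
  refine (trace_mul_le_right (DL_psd p k m) (sub_phi_psd hX)).trans ?_
  refine diag_le hF hμ (fun x => ?_)
  have e2 : μ x • (1 : Matrix (Ix L) (Ix L) ℝ) - (U x)ᵀ * M x * U x
      = μ x • (1 - (U x)ᵀ * U x) + (U x)ᵀ * (μ x • (1 : Matrix (Ix L) (Ix L) ℝ) - M x)
        * ((U x)ᵀ)ᵀ := by
    rw [transpose_transpose, Matrix.mul_sub, Matrix.sub_mul, Matrix.mul_smul, Matrix.smul_mul,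
      Matrix.mul_one, smul_sub]
    abel
  rw [e2]
  exact ((hU x).1.smul (hμ x)).add (psd_conj (hMμ x) _)

/-- `W` has the diagonal bound with constant `b` -/
def Dg (L k : ℕ) (m : ℤ) (b : ℝ) (W : Matrix (Ix (L + k)) (Ix (L + k)) ℝ) : Prop :=
  ∀ (M : ℤ → Matrix (Ix L) (Ix L) ℝ) (μ : ℤ → ℝ), (∀ x, (M x).PosSemidef) → (∀ x, 0 ≤ μ x) →
    (∀ x, (μ x • (1 : Matrix (Ix L) (Ix L) ℝ) - M x).PosSemidef) →
    (DL L M k m * W).trace ≤ b * (((2 : ℝ) ^ k)⁻¹ * ∑ x ∈ iv k m, μ x)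

theorem Dg.add {k : ℕ} {m : ℤ} {b b' : ℝ} {W W' : Matrix (Ix (L + k)) (Ix (L + k)) ℝ}
    (h : Dg L k m b W) (h' : Dg L k m b' W') : Dg L k m (b + b') (W + W') := by
  intro M μ h1 h2 h3
  rw [Matrix.mul_add, trace_add, add_mul]
  exact add_le_add (h M μ h1 h2 h3) (h' M μ h1 h2 h3)

theorem Dg.half {k : ℕ} {m : ℤ} {b : ℝ} {W W' : Matrix (Ix (L + k)) (Ix (L + k)) ℝ}
    (h : Dg L k m b W) (h' : Dg L k m b W') : Dg L k m b ((1 / 2 : ℝ) • (W + W')) := by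
  intro M μ h1 h2 h3
  have q := h M μ h1 h2 h3
  have q' := h' M μ h1 h2 h3
  rw [Matrix.mul_smul, Matrix.mul_add, trace_smul, trace_add, smul_eq_mul]
  linarith

theorem Dg.mn {k : ℕ} {m : ℤ} {b : ℝ} (hb : 0 ≤ b) {J : Finset ℤ}
    {f : ℤ → Matrix (Ix (L + k)) (Ix (L + k)) ℝ} (h : ∀ j ∈ J, Dg L k m b (f j)) :
    Dg L k m b (H170.mn J f) := by
  intro M μ h1 h2 h3
  rw [tr_mul_mn]
  have hs : 0 ≤ b * (((2 : ℝ) ^ k)⁻¹ * ∑ x ∈ iv k m, μ x) :=
    mul_nonneg hb (mul_nonneg (by positivity) (Finset.sum_nonneg fun x _ => h2 x))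
  rcases J.eq_empty_or_nonempty with rfl | hJ
  · simpa using hs
  have h0 : (0 : ℝ) < J.card := by exact_mod_cast Finset.card_pos.2 hJ
  rw [inv_mul_le_iff₀ h0]
  refine (Finset.sum_le_sum fun j hj => h j hj M μ h1 h2 h3).trans (le_of_eq ?_)
  rw [Finset.sum_const, nsmul_eq_mul]

theorem Dg.cj {F : ℤ → ℤ → ℝ} {B : ℝ} {a k : ℕ} {n m : ℤ}
    (hF : ∀ y ∈ iv k m, (Xg a L F n y).trace ≤ B ^ 2)
    {U : ℤ → Matrix (Ix L) (Ix L) ℝ} (hU : ∀ x, Ct (U x)) :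
    Dg L k m (B ^ 2) (H170.cj (DL L U k m) (Xg a (L + k) F n m)) := by
  intro M μ h1 h2 h3
  refine (diag_cj hF h1 h2 h3 hU).trans (le_of_eq ?_)
  ring

/-- the martingale part of the change -/
def vV (U : ℕ → ℤ → ℤ → Matrix (Ix L) (Ix L) ℝ) (k : ℕ) (x j : ℤ) : Matrix (Ix L) (Ix L) ℝ :=
  (1 / 2 : ℝ) • (U k x (2 * j) - U k x (2 * j + 1))

/-- the drift of the change -/
def vD (U : ℕ → ℤ → ℤ → Matrix (Ix L) (Ix L) ℝ) (k : ℕ) (x j : ℤ) : Matrix (Ix L) (Ix L) ℝ :=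
  U (k + 1) x j - (1 / 2 : ℝ) • (U k x (2 * j) + U k x (2 * j + 1))

/-- the size of the change: square of the martingale part, first power of the drift -/
def vd (U : ℕ → ℤ → ℤ → Matrix (Ix L) (Ix L) ℝ) (k : ℕ) (x j : ℤ) : ℝ :=
  (vV U k x j * (vV U k x j)ᵀ).trace + √((vD U k x j * (vD U k x j)ᵀ).trace)

theorem vd_nonneg (U : ℕ → ℤ → ℤ → Matrix (Ix L) (Ix L) ℝ) (k : ℕ) (x j : ℤ) : 0 ≤ vd U k x j :=
  add_nonneg (psd_mul_transpose _).trace_nonneg (Real.sqrt_nonneg _)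

variable {U : ℕ → ℤ → ℤ → Matrix (Ix L) (Ix L) ℝ}

/-- the block diagonal multiplier -/
def DU (U : ℕ → ℤ → ℤ → Matrix (Ix L) (Ix L) ℝ) (i k : ℕ) (j m : ℤ) :
    Matrix (Ix (L + k)) (Ix (L + k)) ℝ := DL L (fun x => U i x j) k m

theorem DU_ct (hU : ∀ k x n, Ct (U k x n)) (i k : ℕ) (j m : ℤ) : Ct (DU U i k j m) :=
  DL_ct (fun x => hU i x j) k m

theorem V_eq (k : ℕ) (j m : ℤ) :
    (1 / 2 : ℝ) • (DU U k k (2 * j) m - DU U k k (2 * j + 1) m) = DL L (fun x => vV U k x j) k m := by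
  unfold DU vV
  rw [DL_sub, DL_smul]

theorem D_eq (k : ℕ) (j m : ℤ) :
    DU U (k + 1) k j m - (1 / 2 : ℝ) • (DU U k k (2 * j) m + DU U k k (2 * j + 1) m)
      = DL L (fun x => vD U k x j) k m := by
  unfold DU vD
  rw [DL_add, DL_smul, DL_sub]

theorem vterm {k : ℕ} {m : ℤ} {b : ℝ} {W : Matrix (Ix (L + k)) (Ix (L + k)) ℝ}
    (hWd : Dg L k m b W) (j : ℤ) :
    (DL L (fun x => vV U k x j) k m * (DL L (fun x => vV U k x j) k m)ᵀ * W).trace
      ≤ b * (((2 : ℝ) ^ k)⁻¹ * ∑ x ∈ iv k m, (vV U k x j * (vV U k x j)ᵀ).trace) := by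
  rw [DL_transpose, DL_mul]
  exact hWd _ _ (fun x => psd_mul_transpose _) (fun x => (psd_mul_transpose _).trace_nonneg)
    (fun x => trace_sub_psd (psd_mul_transpose _))

theorem dterm {F : ℤ → ℤ → ℝ} {B : ℝ} {a k : ℕ} {m j : ℤ}
    (hF : ∀ y ∈ iv k m, (Xg a L F (2 * j) y).trace ≤ B ^ 2)
    (hF' : ∀ y ∈ iv k m, (Xg a L F (2 * j + 1) y).trace ≤ B ^ 2)
    {b w : ℝ} (hw : 0 ≤ w) {W A : Matrix (Ix (L + k)) (Ix (L + k)) ℝ}
    (hW : W.PosSemidef) (hW1 : (w • (1 : Matrix (Ix (L + k)) (Ix (L + k)) ℝ) - W).PosSemidef)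
    (hWd : Dg L k m b W) (hA : Ct A) :
    2 * |(W * DL L (fun x => vD U k x j) k m
        * ((1 / 2 : ℝ) • (phi (Xg a (L + k) F (2 * j) m) + phi (Xg a (L + k) F (2 * j + 1) m)))
        * Aᵀ).trace|
      ≤ (B ^ 2 + w * b) * (((2 : ℝ) ^ k)⁻¹ * ∑ x ∈ iv k m, √((vD U k x j * (vD U k x j)ᵀ).trace)) := by
  have h0 := H588.Xg_psd a (L + k) F (2 * j) m
  have h1 := H588.Xg_psd a (L + k) F (2 * j + 1) m
  have hφ : ((1 / 2 : ℝ) • (phi (Xg a (L + k) F (2 * j) m)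
      + phi (Xg a (L + k) F (2 * j + 1) m))).PosSemidef :=
    ((phi_psd h0).add (phi_psd h1)).smul (by norm_num)
  have hφ1 : (1 - (1 / 2 : ℝ) • (phi (Xg a (L + k) F (2 * j) m)
      + phi (Xg a (L + k) F (2 * j + 1) m))).PosSemidef := by
    have e : 1 - (1 / 2 : ℝ) • (phi (Xg a (L + k) F (2 * j) m)
        + phi (Xg a (L + k) F (2 * j + 1) m))
        = (1 / 2 : ℝ) • ((1 - phi (Xg a (L + k) F (2 * j) m))
          + (1 - phi (Xg a (L + k) F (2 * j + 1) m))) := by module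
    rw [e]
    exact ((one_sub_phi_psd h0).add (one_sub_phi_psd h1)).smul (by norm_num)
  have eD : DL L (fun x => vD U k x j) k m
      = DL L (fun x => (√(hn (vD U k x j))) • (1 : Matrix (Ix L) (Ix L) ℝ)) k m
        * DL L (fun x => (hn (vD U k x j))⁻¹ • vD U k x j) k m
        * DL L (fun x => (√(hn (vD U k x j))) • (1 : Matrix (Ix L) (Ix L) ℝ)) k m := by
    rw [DL_mul, DL_mul]
    congr 1
    funext x
    exact (zez _).symm
  have hZ : (DL L (fun x => (√(hn (vD U k x j))) • (1 : Matrix (Ix L) (Ix L) ℝ)) k m)ᵀ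
      = DL L (fun x => (√(hn (vD U k x j))) • (1 : Matrix (Ix L) (Ix L) ℝ)) k m :=
    DL_symm (fun x => by rw [transpose_smul, transpose_one]) k m
  have hE : Ct (DL L (fun x => (hn (vD U k x j))⁻¹ • vD U k x j) k m) :=
    DL_ct (fun x => norm_ct _) k m
  have q := drift_le hW hW1 hZ hE hφ hφ1 hA
  rw [← eD] at q
  have eZ : DL L (fun x => (√(hn (vD U k x j))) • (1 : Matrix (Ix L) (Ix L) ℝ)) k m
      * DL L (fun x => (√(hn (vD U k x j))) • (1 : Matrix (Ix L) (Ix L) ℝ)) k m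
      = DL L (fun x => hn (vD U k x j) • (1 : Matrix (Ix L) (Ix L) ℝ)) k m := by
    rw [DL_mul]
    congr 1
    funext x
    rw [Matrix.smul_mul, Matrix.one_mul, smul_smul, Real.mul_self_sqrt (hn_nonneg _)]
  rw [eZ] at q
  have pM : ∀ x, (hn (vD U k x j) • (1 : Matrix (Ix L) (Ix L) ℝ)).PosSemidef :=
    fun x => PosSemidef.one.smul (hn_nonneg _)
  have pS : ∀ x, (hn (vD U k x j) • (1 : Matrix (Ix L) (Ix L) ℝ)
      - hn (vD U k x j) • (1 : Matrix (Ix L) (Ix L) ℝ)).PosSemidef := fun x => by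
    rw [sub_self]; exact PosSemidef.zero
  have q1 := hWd _ _ pM (fun x => hn_nonneg (vD U k x j)) pS
  have q2 : ∀ i : ℤ, (∀ y ∈ iv k m, (Xg a L F i y).trace ≤ B ^ 2) →
      (DL L (fun x => hn (vD U k x j) • (1 : Matrix (Ix L) (Ix L) ℝ)) k m
      * phi (Xg a (L + k) F i m)).trace
      ≤ ((2 : ℝ) ^ k)⁻¹ * B ^ 2 * ∑ x ∈ iv k m, hn (vD U k x j) := fun i hi =>
    (trace_mul_le_right (DL_psd pM k m) (sub_phi_psd (H588.Xg_psd a (L + k) F i m))).trans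
      (diag_le hi (fun x => hn_nonneg (vD U k x j)) pS)
  have q3 := q2 (2 * j) hF
  have q4 := q2 (2 * j + 1) hF'
  have e5 : (DL L (fun x => hn (vD U k x j) • (1 : Matrix (Ix L) (Ix L) ℝ)) k m
      * ((1 / 2 : ℝ) • (phi (Xg a (L + k) F (2 * j) m) + phi (Xg a (L + k) F (2 * j + 1) m)))).trace
      = 1 / 2 * ((DL L (fun x => hn (vD U k x j) • (1 : Matrix (Ix L) (Ix L) ℝ)) k m
        * phi (Xg a (L + k) F (2 * j) m)).trace
        + (DL L (fun x => hn (vD U k x j) • (1 : Matrix (Ix L) (Ix L) ℝ)) k m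
        * phi (Xg a (L + k) F (2 * j + 1) m)).trace) := by
    rw [Matrix.mul_smul, Matrix.mul_add, trace_smul, trace_add, smul_eq_mul]
  rw [e5] at q
  have q5 := mul_le_mul_of_nonneg_left q1 hw
  unfold hn at *
  refine q.trans ?_
  calc _ ≤ 1 / 2 * (((2 : ℝ) ^ k)⁻¹ * B ^ 2 * ∑ x ∈ iv k m, √((vD U k x j * (vD U k x j)ᵀ).trace)
        + ((2 : ℝ) ^ k)⁻¹ * B ^ 2 * ∑ x ∈ iv k m, √((vD U k x j * (vD U k x j)ᵀ).trace))
        + w * (b * (((2 : ℝ) ^ k)⁻¹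
          * ∑ x ∈ iv k m, √((vD U k x j * (vD U k x j)ᵀ).trace))) := by
        refine add_le_add (mul_le_mul_of_nonneg_left (add_le_add q3 q4) (by norm_num)) q5
    _ = _ := by ring

end

end Vale.Agent.P141.H433
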