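import Vale.Agent.P141.H433.TailU

/-!
# The slots with row traces: the cost of the change of the multiplier, homogeneous in the slots
-/

set_option linter.unusedSectionVars false

namespace Vale.Agent.P141.H433

open Finset Matrix Vale.Agent.P075 Vale.Agent.P141.PL Vale.Agent.P141.H170
open Vale.Agent.P141.PL.H588 (Xg Xs hd Pl cd dl)

noncomputable section

variable {L : ℕ}

/-- the row trace of the cell `n` of scale `L + a` over the block `x` of scale `L` -/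
def rt (L : ℕ) (F : ℤ → ℤ → ℝ) (a : ℕ) (n x : ℤ) : ℝ := (Xg (L + a) L F n x).trace

theorem rt_nonneg (F : ℤ → ℤ → ℝ) (a : ℕ) (n x : ℤ) : 0 ≤ rt L F a n x :=
  (H588.Xg_psd ..).trace_nonneg

theorem rt_succ (F : ℤ → ℤ → ℝ) (a : ℕ) (n x : ℤ) :
    rt L F (a + 1) n x = 1 / 2 * (rt L F a (2 * n) x + rt L F a (2 * n + 1) x) := by
  have e : Xg (L + (a + 1)) L F n x
      = (1 / 2 : ℝ) • (Xg (L + a) L F (2 * n) x + Xg (L + a) L F (2 * n + 1) x) := by
    rw [← H588.Xg_row]; rfl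
  unfold rt
  rw [e, trace_smul, trace_add, smul_eq_mul]

theorem rt_mean (F : ℤ → ℤ → ℝ) (a r : ℕ) (n x : ℤ) :
    ((2 : ℝ) ^ r)⁻¹ * ∑ j ∈ iv r n, rt L F a j x = rt L F (a + r) n x := by
  induction r generalizing n with
  | zero =>
    have h4 : iv 0 n = {n} := by
      ext x
      simp only [iv, mem_Ico, mem_singleton, pow_zero, one_mul]
      omega
    rw [h4, sum_singleton, pow_zero, _root_.inv_one, one_mul, Nat.add_zero]
  | succ r ih =>
    rw [sum_iv_halves, show a + (r + 1) = (a + r) + 1 by ring, rt_succ, ← ih, ← ih, pow_succ,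
      mul_inv]
    ring

/-- **diagonal bound with row traces** -/
theorem diag_leW {F : ℤ → ℤ → ℝ} {a k : ℕ} {n m : ℤ}
    {W : ℤ → Matrix (Ix L) (Ix L) ℝ} {w : ℤ → ℝ}
    (hW : ∀ x, (w x • (1 : Matrix (Ix L) (Ix L) ℝ) - W x).PosSemidef) :
    (DL L W k m * H588.Xg a (L + k) F n m).trace
      ≤ ((2 : ℝ) ^ k)⁻¹ * ∑ x ∈ iv k m, (Xg a L F n x).trace * w x := by
  induction k generalizing m with
  | zero =>
    have h1 := trace_mul_le_left (H588.Xg_psd a L F n m) (hW m)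
    rw [Matrix.smul_mul, Matrix.one_mul, trace_smul, smul_eq_mul] at h1
    have h4 : iv 0 m = {m} := by
      ext x
      simp only [iv, mem_Ico, mem_singleton, pow_zero, one_mul]
      omega
    rw [h4, sum_singleton, pow_zero, inv_one, one_mul, mul_comm (Xg a L F n m).trace]
    exact h1
  | succ k ih =>
    have e : (DL L W (k + 1) m * H588.Xg a (L + (k + 1)) F n m).trace
        = (DL L W k (2 * m) * (H588.Xs a (L + k) F n m).toBlocks₁₁).trace
          + (DL L W k (2 * m + 1) * (H588.Xs a (L + k) F n m).toBlocks₂₂).trace :=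
      trace_bd_mul _ _ _
    rw [e, H588.Xs_ll, H588.Xs_rr, Matrix.mul_smul, Matrix.mul_smul, trace_smul, trace_smul,
      smul_eq_mul, smul_eq_mul]
    have h1 := ih (m := 2 * m)
    have h2 := ih (m := 2 * m + 1)
    rw [sum_iv_halves, pow_succ, mul_inv]
    nlinarith [h1, h2]

/-- the diagonal bound for a conjugated saturated Gram matrix -/
theorem diag_cjW {F : ℤ → ℤ → ℝ} {a k : ℕ} {n m : ℤ}
    {M U : ℤ → Matrix (Ix L) (Ix L) ℝ} {μ : ℤ → ℝ} (hM : ∀ x, (M x).PosSemidef)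
    (hμ : ∀ x, 0 ≤ μ x) (hMμ : ∀ x, (μ x • (1 : Matrix (Ix L) (Ix L) ℝ) - M x).PosSemidef)
    (hU : ∀ x, Ct (U x)) :
    (DL L M k m * cj (DL L U k m) (Xg a (L + k) F n m)).trace
      ≤ ((2 : ℝ) ^ k)⁻¹ * ∑ x ∈ iv k m, (Xg a L F n x).trace * μ x := by
  have hX := H588.Xg_psd a (L + k) F n m
  have e : (DL L M k m * cj (DL L U k m) (Xg a (L + k) F n m)).trace
      = (DL L (fun x => (U x)ᵀ * M x * U x) k m * phi (Xg a (L + k) F n m)).trace := by
    rw [← DL_mul, ← DL_mul, ← DL_transpose, cj]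
    rw [show DL L M k m * (DL L U k m * phi (Xg a (L + k) F n m) * (DL L U k m)ᵀ)
      = (DL L M k m * DL L U k m * phi (Xg a (L + k) F n m)) * (DL L U k m)ᵀ by
        simp only [Matrix.mul_assoc], trace_mul_comm]
    simp only [Matrix.mul_assoc]
  have p : ∀ x, ((U x)ᵀ * M x * U x).PosSemidef := fun x => by
    have := psd_conj (hM x) (U x)ᵀ
    rwa [transpose_transpose] at this
  rw [e]
  refine (trace_mul_le_right (DL_psd p k m) (sub_phi_psd hX)).trans ?_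
  refine diag_leW (fun x => ?_)
  have e2 : μ x • (1 : Matrix (Ix L) (Ix L) ℝ) - (U x)ᵀ * M x * U x
      = μ x • (1 - (U x)ᵀ * U x) + (U x)ᵀ * (μ x • (1 : Matrix (Ix L) (Ix L) ℝ) - M x)
        * ((U x)ᵀ)ᵀ := by
    rw [transpose_transpose, Matrix.mul_sub, Matrix.sub_mul, Matrix.mul_smul, Matrix.smul_mul,
      Matrix.mul_one, smul_sub]
    abel
  rw [e2]
  exact ((hU x).1.smul (hμ x)).add (psd_conj (hMμ x) _)

/-- `W` has the diagonal bound with the row weights `ρ` -/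
def DgW (L k : ℕ) (m : ℤ) (ρ : ℤ → ℝ) (W : Matrix (Ix (L + k)) (Ix (L + k)) ℝ) : Prop :=
  ∀ (M : ℤ → Matrix (Ix L) (Ix L) ℝ) (μ : ℤ → ℝ), (∀ x, (M x).PosSemidef) → (∀ x, 0 ≤ μ x) →
    (∀ x, (μ x • (1 : Matrix (Ix L) (Ix L) ℝ) - M x).PosSemidef) →
    (DL L M k m * W).trace ≤ ((2 : ℝ) ^ k)⁻¹ * ∑ x ∈ iv k m, ρ x * μ x

theorem DgW.add {k : ℕ} {m : ℤ} {b b' : ℤ → ℝ} {W W' : Matrix (Ix (L + k)) (Ix (L + k)) ℝ}
    (h : DgW L k m b W) (h' : DgW L k m b' W') : DgW L k m (fun x => b x + b' x) (W + W') := by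
  intro M μ h1 h2 h3
  rw [Matrix.mul_add, trace_add]
  have q1 := h M μ h1 h2 h3
  have q2 := h' M μ h1 h2 h3
  simp only [add_mul, sum_add_distrib, mul_add]
  linarith

theorem DgW.mn {k : ℕ} {m : ℤ} {b : ℤ → ℤ → ℝ} {J : Finset ℤ}
    {f : ℤ → Matrix (Ix (L + k)) (Ix (L + k)) ℝ} (h : ∀ j ∈ J, DgW L k m (b j) (f j)) :
    DgW L k m (fun x => (J.card : ℝ)⁻¹ * ∑ j ∈ J, b j x) (H170.mn J f) := by
  intro M μ h1 h2 h3
  rw [tr_mul_mn]
  have e : ((2 : ℝ) ^ k)⁻¹ * ∑ x ∈ iv k m, (J.card : ℝ)⁻¹ * (∑ j ∈ J, b j x) * μ x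
      = (J.card : ℝ)⁻¹ * ∑ j ∈ J, ((2 : ℝ) ^ k)⁻¹ * ∑ x ∈ iv k m, b j x * μ x := by
    simp only [mul_assoc, sum_mul, ← mul_sum]
    rw [sum_comm]
    ring
  rw [e]
  exact mul_le_mul_of_nonneg_left (Finset.sum_le_sum fun j hj => h j hj M μ h1 h2 h3)
    (by positivity)

theorem DgW.cj {F : ℤ → ℤ → ℝ} {a k : ℕ} {n m : ℤ}
    {U : ℤ → Matrix (Ix L) (Ix L) ℝ} (hU : ∀ x, Ct (U x)) :
    DgW L k m (fun x => rt L F a n x) (H170.cj (DL L U k m) (Xg (L + a) (L + k) F n m)) :=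
  fun _ _ h1 h2 h3 => diag_cjW h1 h2 h3 hU

/-- the mean over the cells below -/
theorem DgW.mnc {F : ℤ → ℤ → ℝ} {a k r : ℕ} {n m : ℤ}
    {f : ℤ → Matrix (Ix (L + k)) (Ix (L + k)) ℝ}
    (h : ∀ j ∈ iv r n, DgW L k m (fun x => rt L F a j x) (f j)) :
    DgW L k m (fun x => rt L F (a + r) n x) (H170.mn (iv r n) f) := by
  have q := DgW.mn h
  rw [card_iv] at q
  push_cast at q
  simpa only [rt_mean] using q

variable {U : ℕ → ℤ → ℤ → Matrix (Ix L) (Ix L) ℝ}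

theorem vtermW {k : ℕ} {m : ℤ} {b : ℤ → ℝ} {W : Matrix (Ix (L + k)) (Ix (L + k)) ℝ}
    (hWd : DgW L k m b W) (j : ℤ) :
    (DL L (fun x => vV U k x j) k m * (DL L (fun x => vV U k x j) k m)ᵀ * W).trace
      ≤ ((2 : ℝ) ^ k)⁻¹ * ∑ x ∈ iv k m, b x * (vV U k x j * (vV U k x j)ᵀ).trace := by
  rw [DL_transpose, DL_mul]
  exact hWd _ _ (fun x => psd_mul_transpose _) (fun x => (psd_mul_transpose _).trace_nonneg)
    (fun x => trace_sub_psd (psd_mul_transpose _))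

theorem dtermW {F : ℤ → ℤ → ℝ} {a k : ℕ} {m j : ℤ}
    {b : ℤ → ℝ} {w : ℝ} (hw : 0 ≤ w) {W A : Matrix (Ix (L + k)) (Ix (L + k)) ℝ}
    (hW : W.PosSemidef) (hW1 : (w • (1 : Matrix (Ix (L + k)) (Ix (L + k)) ℝ) - W).PosSemidef)
    (hWd : DgW L k m b W) (hA : Ct A) :
    2 * |(W * DL L (fun x => vD U k x j) k m
        * ((1 / 2 : ℝ) • (phi (Xg (L + a) (L + k) F (2 * j) m)
          + phi (Xg (L + a) (L + k) F (2 * j + 1) m)))
        * Aᵀ).trace|
      ≤ ((2 : ℝ) ^ k)⁻¹ * ∑ x ∈ iv k m, (rt L F (a + 1) j x + w * b x)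
        * √((vD U k x j * (vD U k x j)ᵀ).trace) := by
  have h0 := H588.Xg_psd (L + a) (L + k) F (2 * j) m
  have h1 := H588.Xg_psd (L + a) (L + k) F (2 * j + 1) m
  have hφ : ((1 / 2 : ℝ) • (phi (Xg (L + a) (L + k) F (2 * j) m)
      + phi (Xg (L + a) (L + k) F (2 * j + 1) m))).PosSemidef :=
    ((phi_psd h0).add (phi_psd h1)).smul (by norm_num)
  have hφ1 : (1 - (1 / 2 : ℝ) • (phi (Xg (L + a) (L + k) F (2 * j) m)
      + phi (Xg (L + a) (L + k) F (2 * j + 1) m))).PosSemidef := by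
    have e : 1 - (1 / 2 : ℝ) • (phi (Xg (L + a) (L + k) F (2 * j) m)
        + phi (Xg (L + a) (L + k) F (2 * j + 1) m))
        = (1 / 2 : ℝ) • ((1 - phi (Xg (L + a) (L + k) F (2 * j) m))
          + (1 - phi (Xg (L + a) (L + k) F (2 * j + 1) m))) := by module
    rw [e]
    exact ((one_sub_phi_psd h0).add (one_sub_phi_psd h1)).smul (by norm_num)
  have eD : DL L (fun x => vD U k x j) k m
      = DL L (fun x => (√(hn (vD U k x j))) • (1 : Matrix (Ix L) (Ix L) ℝ)) k m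
        * DL L (fun x => (hn (vD U k x j))⁻¹ • vD U k x j) k m
        * DL L (fun x => (√(hn (vD U k x j))) • (1 : Matrix (Ix L) (Ix L) ℝ)) k m := by
    rw [DL_mul, DL_mul]
    congr 1
    funext x
    exact (zez _).symm
  have hZ : (DL L (fun x => (√(hn (vD U k x j))) • (1 : Matrix (Ix L) (Ix L) ℝ)) k m)ᵀ
      = DL L (fun x => (√(hn (vD U k x j))) • (1 : Matrix (Ix L) (Ix L) ℝ)) k m :=
    DL_symm (fun x => by rw [transpose_smul, transpose_one]) k m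
  have hE : Ct (DL L (fun x => (hn (vD U k x j))⁻¹ • vD U k x j) k m) :=
    DL_ct (fun x => norm_ct _) k m
  have q := drift_le hW hW1 hZ hE hφ hφ1 hA
  rw [← eD] at q
  have eZ : DL L (fun x => (√(hn (vD U k x j))) • (1 : Matrix (Ix L) (Ix L) ℝ)) k m
      * DL L (fun x => (√(hn (vD U k x j))) • (1 : Matrix (Ix L) (Ix L) ℝ)) k m
      = DL L (fun x => hn (vD U k x j) • (1 : Matrix (Ix L) (Ix L) ℝ)) k m := by
    rw [DL_mul]
    congr 1
    funext x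
    rw [Matrix.smul_mul, Matrix.one_mul, smul_smul, Real.mul_self_sqrt (hn_nonneg _)]
  rw [eZ] at q
  have pM : ∀ x, (hn (vD U k x j) • (1 : Matrix (Ix L) (Ix L) ℝ)).PosSemidef :=
    fun x => PosSemidef.one.smul (hn_nonneg _)
  have pS : ∀ x, (hn (vD U k x j) • (1 : Matrix (Ix L) (Ix L) ℝ)
      - hn (vD U k x j) • (1 : Matrix (Ix L) (Ix L) ℝ)).PosSemidef := fun x => by
    rw [sub_self]; exact PosSemidef.zero
  have q1 := hWd _ _ pM (fun x => hn_nonneg (vD U k x j)) pS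
  have q2 : ∀ i : ℤ,
      (DL L (fun x => hn (vD U k x j) • (1 : Matrix (Ix L) (Ix L) ℝ)) k m
      * phi (Xg (L + a) (L + k) F i m)).trace
      ≤ ((2 : ℝ) ^ k)⁻¹ * ∑ x ∈ iv k m, (Xg (L + a) L F i x).trace * hn (vD U k x j) := fun i =>
    (trace_mul_le_right (DL_psd pM k m) (sub_phi_psd (H588.Xg_psd (L + a) (L + k) F i m))).trans
      (diag_leW pS)
  have q3 := q2 (2 * j)
  have q4 := q2 (2 * j + 1)
  have e5 : (DL L (fun x => hn (vD U k x j) • (1 : Matrix (Ix L) (Ix L) ℝ)) k m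
      * ((1 / 2 : ℝ) • (phi (Xg (L + a) (L + k) F (2 * j) m)
        + phi (Xg (L + a) (L + k) F (2 * j + 1) m)))).trace
      = 1 / 2 * ((DL L (fun x => hn (vD U k x j) • (1 : Matrix (Ix L) (Ix L) ℝ)) k m
        * phi (Xg (L + a) (L + k) F (2 * j) m)).trace
        + (DL L (fun x => hn (vD U k x j) • (1 : Matrix (Ix L) (Ix L) ℝ)) k m
        * phi (Xg (L + a) (L + k) F (2 * j + 1) m)).trace) := by
    rw [Matrix.mul_smul, Matrix.mul_add, trace_smul, trace_add, smul_eq_mul]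
  rw [e5] at q
  have q5 := mul_le_mul_of_nonneg_left q1 hw
  have e6 : ((2 : ℝ) ^ k)⁻¹ * ∑ x ∈ iv k m, (rt L F (a + 1) j x + w * b x)
        * √((vD U k x j * (vD U k x j)ᵀ).trace)
      = 1 / 2 * (((2 : ℝ) ^ k)⁻¹ * ∑ x ∈ iv k m, (Xg (L + a) L F (2 * j) x).trace
          * hn (vD U k x j)
        + ((2 : ℝ) ^ k)⁻¹ * ∑ x ∈ iv k m, (Xg (L + a) L F (2 * j + 1) x).trace
          * hn (vD U k x j))
        + w * (((2 : ℝ) ^ k)⁻¹ * ∑ x ∈ iv k m, b x * hn (vD U k x j)) := by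
    rw [← mul_add]
    simp only [Finset.mul_sum, ← Finset.sum_add_distrib]
    refine Finset.sum_congr rfl fun x _ => ?_
    rw [rt_succ]
    unfold rt hn
    ring
  rw [e6]
  refine q.trans ?_
  exact add_le_add (mul_le_mul_of_nonneg_left (add_le_add q3 q4) (by norm_num)) q5

end

end Vale.Agent.P141.H433
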