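import Vale.Agent.P141.H433.Tree

/-!
# The mass of the change of a martingale of label matrices
-/

set_option linter.unusedSectionVars false

namespace Vale.Agent.P141.H433

open Finset Matrix Vale.Agent.P075 Vale.Agent.P141.PL

noncomputable section

variable {κ : Type*} [Fintype κ] [DecidableEq κ]

theorem vq_mart (P Q : Matrix κ κ ℝ) : vq P Q ((1 / 2 : ℝ) • (P + Q)) =
    (1 / 2) * ((P * Pᵀ).trace + (Q * Qᵀ).trace)
      - (((1 / 2 : ℝ) • (P + Q)) * ((1 / 2 : ℝ) • (P + Q))ᵀ).trace := by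
  unfold vq
  rw [sub_self, Matrix.zero_mul, trace_zero, Real.sqrt_zero, add_zero]
  have h : (Q * Pᵀ).trace = (P * Qᵀ).trace := by
    rw [← trace_transpose, transpose_mul, transpose_transpose]
  simp only [transpose_smul, transpose_sub, transpose_add, Matrix.smul_mul, Matrix.mul_smul,
    Matrix.mul_sub, Matrix.sub_mul, Matrix.mul_add, Matrix.add_mul, trace_smul, trace_sub,
    trace_add, smul_eq_mul, h]
  ring

/-- **the mass of the change of a martingale** is at most its second moment at the bottom -/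
theorem hG_mart {N : ℕ} {V : ℕ → ℤ → Matrix κ κ ℝ}
    (h : ∀ k < N, ∀ j, V (k + 1) j = (1 / 2 : ℝ) • (V k (2 * j) + V k (2 * j + 1))) (T : ℤ) :
    ∑ k ∈ range N, (2 : ℝ) ^ (k + 1) * ∑ j ∈ iv (N - (k + 1)) T,
      vq (V k (2 * j)) (V k (2 * j + 1)) (V (k + 1) j)
      ≤ ∑ z ∈ iv N T, (V 0 z * (V 0 z)ᵀ).trace := by
  have h1 : ∑ k ∈ range N, (2 : ℝ) ^ (k + 1) * ∑ j ∈ iv (N - (k + 1)) T,
      vq (V k (2 * j)) (V k (2 * j + 1)) (V (k + 1) j)
      = ∑ k ∈ range N, (2 : ℝ) ^ (k + 1) * ∑ j ∈ iv (N - (k + 1)) T,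
        ((1 / 2) * ((fun k z => (V k z * (V k z)ᵀ).trace) k (2 * j)
          + (fun k z => (V k z * (V k z)ᵀ).trace) k (2 * j + 1))
          - (fun k z => (V k z * (V k z)ᵀ).trace) (k + 1) j) := by
    refine sum_congr rfl fun k hk => ?_
    congr 1
    refine sum_congr rfl fun j _ => ?_
    rw [h k (mem_range.1 hk) j, vq_mart]
    simp only [h k (mem_range.1 hk) j]
  rw [h1, sum_tele T (fun k z => (V k z * (V k z)ᵀ).trace) N le_rfl]
  have h2 : 0 ≤ (2 : ℝ) ^ N * ∑ j ∈ iv (N - N) T, (V N j * (V N j)ᵀ).trace :=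
    mul_nonneg (by positivity) (sum_nonneg fun j _ => (psd_mul_transpose _).trace_nonneg)
  linarith

/-- the moved cell: `P`, `Q` = parent `± M` -/
theorem vq_pm (R M : Matrix κ κ ℝ) : vq (R + M) (R - M) R = (M * Mᵀ).trace := by
  have e1 : (1 / 2 : ℝ) • ((R + M) - (R - M)) = M := by module
  have e2 : R - (1 / 2 : ℝ) • ((R + M) + (R - M)) = 0 := by module
  unfold vq
  rw [e1, e2, Matrix.zero_mul, trace_zero, Real.sqrt_zero, add_zero]

end

end Vale.Agent.P141.H433
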