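import Vale.Agent.P141.H822.LoLP
import Vale.Agent.P141.H609.NodeStep
import Vale.Agent.P141.H433.TreeM

/-!
# The crude bound of the pair sum of `b` and the stack at small levels (hub `x1`)
-/

set_option linter.unusedSectionVars false

namespace Vale.Agent.P141.H433

open Finset Matrix Vale.Agent.P075 Vale.Agent.P141.PL Vale.Agent.P141.PL.H804
open Vale.Agent.P141.H958 Vale.Agent.P141.H103 Vale.Agent.P141.H609 Vale.Agent.P141.H822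
open Vale.Agent.P141.PL.H588 (Xg hd Pl)

noncomputable section

/-! ### one node -/

section mat

variable {n : Type*} [Fintype n] [DecidableEq n]

/-- the stack at one level is below the moved static cut at a higher level -/
theorem stack_le {ν t : ℝ} (hν : 0 ≤ ν) (ht : 0 < t) (U c : Matrix n n ℝ)
    (hU : ((U * c)ᵀ * (U * c) - t ^ 2 • (cᵀ * c)).PosSemidef) :
    ((t ^ 2)⁻¹ • (U * phi ((ν * t ^ 2) • (c * cᵀ)) * Uᵀ) -
      phi (ν • ((U * c) * (U * c)ᵀ))).PosSemidef := by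
  set r : ℝ := √ν with hr
  have hr2 : r * r = ν := Real.mul_self_sqrt hν
  have e1 : phi (ν • ((U * c) * (U * c)ᵀ)) =
      ν • (U * (c * res (ν • ((U * c)ᵀ * (U * c))) * cᵀ) * Uᵀ) := by
    have h := phi_row (r • (U * c))
    have g1 : (r • (U * c)) * (r • (U * c))ᵀ = ν • ((U * c) * (U * c)ᵀ) := by
      rw [transpose_smul, Matrix.smul_mul, Matrix.mul_smul, smul_smul, hr2]
    have g2 : (r • (U * c))ᵀ * (r • (U * c)) = ν • ((U * c)ᵀ * (U * c)) := by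
      rw [transpose_smul, Matrix.smul_mul, Matrix.mul_smul, smul_smul, hr2]
    rw [g1, g2] at h
    rw [← h, transpose_smul, Matrix.smul_mul, Matrix.smul_mul, Matrix.mul_smul, smul_smul, hr2,
      transpose_mul]
    simp only [Matrix.mul_assoc]
  set q : ℝ := r * t with hq
  have hq2 : q * q = ν * t ^ 2 := by
    rw [hq, mul_mul_mul_comm, hr2]
    ring
  have e2 : phi ((ν * t ^ 2) • (c * cᵀ)) =
      (ν * t ^ 2) • (c * res ((ν * t ^ 2) • (cᵀ * c)) * cᵀ) := by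
    have h := phi_row (q • c)
    have g1 : (q • c) * (q • c)ᵀ = (ν * t ^ 2) • (c * cᵀ) := by
      rw [transpose_smul, Matrix.smul_mul, Matrix.mul_smul, smul_smul, hq2]
    have g2 : (q • c)ᵀ * (q • c) = (ν * t ^ 2) • (cᵀ * c) := by
      rw [transpose_smul, Matrix.smul_mul, Matrix.mul_smul, smul_smul, hq2]
    rw [g1, g2] at h
    rw [← h, transpose_smul, Matrix.smul_mul, Matrix.smul_mul, Matrix.mul_smul, smul_smul, hq2]
  have hA : ((ν * t ^ 2) • (cᵀ * c)).PosSemidef := (gram_psd c).smul (by positivity)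
  have hB : (ν • ((U * c)ᵀ * (U * c)) - (ν * t ^ 2) • (cᵀ * c)).PosSemidef := by
    have h := hU.smul hν
    rwa [smul_sub, smul_smul] at h
  have hC := res_anti hA hB
  rw [add_sub_cancel] at hC
  have hD := (psd_conj (psd_conj hC c) U).smul hν
  have e3 : ν • (U * (c * (res ((ν * t ^ 2) • (cᵀ * c)) - res (ν • ((U * c)ᵀ * (U * c)))) * cᵀ) *
      Uᵀ) = (t ^ 2)⁻¹ • (U * phi ((ν * t ^ 2) • (c * cᵀ)) * Uᵀ) -
      phi (ν • ((U * c) * (U * c)ᵀ)) := by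
    rw [e1, e2, Matrix.mul_smul, Matrix.smul_mul, smul_smul,
      show (t ^ 2)⁻¹ * (ν * t ^ 2) = ν by field_simp]
    simp only [Matrix.mul_sub, Matrix.sub_mul, smul_sub]
  rwa [e3] at hD

/-- the node term of the stack -/
theorem stack_node {r : Matrix n n ℝ} (hr : rᵀ = r) {h ε w u : ℝ} (hh : 0 < h) (hε : 0 < ε)
    (hε1 : ε ≤ 1) (hw : 0 < w) (hu : 0 ≤ u) (F U c : Matrix n n ℝ)
    (hU : ((U * c)ᵀ * (U * c) - (ε / w) ^ 2 • (cᵀ * c)).PosSemidef) :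
    h ^ 2 * h ^ 2 * M2 r ((h ^ 2)⁻¹ * u) ((h ^ 2)⁻¹ * u) F (w • (U * c)) ≤
      w ^ 2 * ((h / ε) ^ 2 * (h / ε) ^ 2 * (phi (gramC (((h / ε) ^ 2)⁻¹ * u) F) *
        (r * (U * phi (gramR (((h / ε) ^ 2)⁻¹ * u) c) * Uᵀ) * r)).trace) := by
  have hσ : 0 < h / ε := by positivity
  have hhσ : h ≤ h / ε := by
    rw [le_div_iff₀ hε]
    nlinarith
  have q := stack_le (ν := (h ^ 2)⁻¹ * u * w ^ 2) (by positivity) (by positivity : 0 < ε / w) U c hU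
  have e1 : (h ^ 2)⁻¹ * u * w ^ 2 * (ε / w) ^ 2 = ((h / ε) ^ 2)⁻¹ * u := by
    field_simp
  have e2 : phi (((h ^ 2)⁻¹ * u * w ^ 2) • ((U * c) * (U * c)ᵀ))
      = phi (gramR ((h ^ 2)⁻¹ * u) (w • (U * c))) := by
    congr 1
    rw [gramR, transpose_smul, Matrix.smul_mul, Matrix.mul_smul, smul_smul, smul_smul]
    congr 1
    ring
  have e3 : phi (((h ^ 2)⁻¹ * u * w ^ 2 * (ε / w) ^ 2) • (c * cᵀ))
      = phi (gramR (((h / ε) ^ 2)⁻¹ * u) c) := by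
    rw [e1]
    rfl
  rw [e2, e3] at q
  set Y := phi (gramR (((h / ε) ^ 2)⁻¹ * u) c) with hY
  have pY : Y.PosSemidef := phi_psd (gramR_psd (by positivity) c)
  have pF : (phi (gramC ((h ^ 2)⁻¹ * u) F)).PosSemidef := phi_psd (gramC_psd (by positivity) F)
  have pW : (r * (U * Y * Uᵀ) * r).PosSemidef := by
    have := psd_conj (psd_conj pY U) r
    rwa [hr] at this
  have s1 : M2 r ((h ^ 2)⁻¹ * u) ((h ^ 2)⁻¹ * u) F (w • (U * c)) ≤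
      ((ε / w) ^ 2)⁻¹ * (phi (gramC ((h ^ 2)⁻¹ * u) F) * (r * (U * Y * Uᵀ) * r)).trace := by
    have q2 := psd_conj q r
    rw [hr, Matrix.mul_sub, Matrix.sub_mul, Matrix.mul_smul, Matrix.smul_mul] at q2
    have q3 := trace_mul_le_right pF q2
    rw [Matrix.mul_smul, trace_smul, smul_eq_mul] at q3
    exact q3
  have s2 := trace_mul_le_left pW (satC_mono F hh hhσ hu)
  rw [Matrix.smul_mul, Matrix.smul_mul, trace_smul, trace_smul, smul_eq_mul, smul_eq_mul] at s2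
  have s3 := mul_le_mul_of_nonneg_left s1 (by positivity : 0 ≤ h ^ 2 * h ^ 2)
  have s4 := mul_le_mul_of_nonneg_left s2 (by positivity : 0 ≤ h ^ 2 * ((ε / w) ^ 2)⁻¹)
  refine s3.trans (le_trans (le_of_eq ?_) (s4.trans (le_of_eq ?_)))
  · ring
  · field_simp

end mat

/-! ### the nodes of a plane -/

theorem sum_bx3_32 (N : ℕ) (R : Pt) (k : ℕ) (c : ℤ) (g : Pt → ℝ) :
    ∑ m ∈ bx3 N R k c, g m = ∑ m3 ∈ iv (N - k) R.2.2, ∑ m2 ∈ iv (N - k) R.2.1,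
      if c - m3 - m2 ∈ iv (N - k) R.1 then g (c - m3 - m2, m2, m3) else 0 := by
  rw [sum_bx3, sum_comm]
  have h : ∀ m2 : ℤ, (∑ m1 ∈ iv (N - k) R.1, ∑ m3 ∈ iv (N - k) R.2.2,
      if m1 + m2 + m3 = c then g (m1, m2, m3) else 0)
      = ∑ m3 ∈ iv (N - k) R.2.2, if c - m3 - m2 ∈ iv (N - k) R.1 then
        g (c - m3 - m2, m2, m3) else 0 := by
    intro m2
    rw [sum_comm]
    refine sum_congr rfl fun m3 _ => ?_
    have e := sum_ite_plane (iv (N - k) R.1) (m3 + m2) c (fun m1 => g (m1, m2, m3))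
    rw [show c - m3 - m2 = c - (m3 + m2) by ring, ← e]
    refine sum_congr rfl fun m1 _ => if_congr ?_ rfl rfl
    constructor <;> intro h <;> linarith
  simp only [h]
  rw [sum_comm]

theorem sum_scales (L N : ℕ) (f : ℕ → ℝ) (hf : ∀ k ≤ L, f k = 0) :
    ∑ k ∈ Icc 1 (L + N), f k = ∑ k ∈ range N, f (L + (k + 1)) := by
  have h1 : ∑ k ∈ Icc 1 (L + N), f k = ∑ k ∈ Ico 1 (L + N + 1), f k := by
    congr 1
  have h2 : ∑ k ∈ Ico 1 (L + N + 1), f k = ∑ k ∈ Ico 0 (L + N + 1), f k := by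
    rw [← sum_Ico_consecutive f (show 0 ≤ 1 by omega) (show 1 ≤ L + N + 1 by omega)]
    simp [hf 0 (Nat.zero_le L)]
  have h3 : ∑ k ∈ Ico 0 (L + N + 1), f k = ∑ k ∈ Ico (L + 1) (L + N + 1), f k := by
    rw [← sum_Ico_consecutive f (Nat.zero_le (L + 1)) (show L + 1 ≤ L + N + 1 by omega)]
    have : ∑ k ∈ Ico 0 (L + 1), f k = 0 := sum_eq_zero fun k hk => hf k (by
      rw [mem_Ico] at hk; omega)
    rw [this, zero_add]
  rw [h1, h2, h3, sum_Ico_eq_sum_range, show L + N + 1 - (L + 1) = N by omega]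
  exact sum_congr rfl fun k _ => by rw [show L + 1 + k = L + (k + 1) by ring]

section

variable {L N : ℕ} {R : Pt} {c : ℕ → ℤ} {B C : ℕ → ℤ → ℤ → ℝ}
  {s : ℕ → Finset Pt} {U : ℕ → ℤ → ℤ → Matrix (Ix L) (Ix L) ℝ}

/-- the term of a node -/
def tn (L : ℕ) (U : ℕ → ℤ → ℤ → Matrix (Ix L) (Ix L) ℝ) (B C : ℕ → ℤ → ℤ → ℝ) (σ : ℝ) (k : ℕ)
    (m : Pt) : ℝ :=
  (phi (gramC ((σ ^ 2)⁻¹ * (4 ^ (L + (k + 1)))⁻¹)
      (bl (L + (k + 1)) (B (L + (k + 1))) m.2.1 m.2.2)) *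
    (hd (L + (k + 1)) * (DU U (k + 1) (k + 1) m.1 m.2.2 *
      phi (gramC ((σ ^ 2)⁻¹ * (4 ^ (L + (k + 1)))⁻¹)
        (bl (L + (k + 1)) (C (L + (k + 1))) m.1 m.2.2)) *
      (DU U (k + 1) (k + 1) m.1 m.2.2)ᵀ) * hd (L + (k + 1)))).trace

theorem tn_nonneg (σ : ℝ) (k : ℕ) (m : Pt) : 0 ≤ tn L U B C σ k m := by
  have p1 := phi_psd (gramC_psd (show (0 : ℝ) ≤ (σ ^ 2)⁻¹ * (4 ^ (L + (k + 1)))⁻¹ by positivity)
    (bl (L + (k + 1)) (B (L + (k + 1))) m.2.1 m.2.2))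
  have p2 := phi_psd (gramC_psd (show (0 : ℝ) ≤ (σ ^ 2)⁻¹ * (4 ^ (L + (k + 1)))⁻¹ by positivity)
    (bl (L + (k + 1)) (C (L + (k + 1))) m.1 m.2.2))
  refine trace_mul_nonneg p1 ?_
  have h := psd_conj (psd_conj p2 (DU U (k + 1) (k + 1) m.1 m.2.2)) (hd (L + (k + 1)))
  rwa [hd_symm] at h

theorem Xg_scl (K : ℕ) (σ : ℝ) (F : ℤ → ℤ → ℝ) (n m : ℤ) :
    Xg K K (scl σ F) n m = gramC ((σ ^ 2)⁻¹ * (4 ^ K)⁻¹) (bl K F n m) :=
  Xg_gramC K (by positivity) F n m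

theorem tn_mt (σ : ℝ) (k : ℕ) (m1 m2 m3 : ℤ) : tn L U B C σ k (m1, m2, m3) =
    H433.mt U (scl σ (B (L + (k + 1)))) (scl σ (C (L + (k + 1)))) k m2 m1 m3 := by
  have e : H433.mt U (scl σ (B (L + (k + 1)))) (scl σ (C (L + (k + 1)))) k m2 m1 m3 =
      (phi (Xg (L + (k + 1)) (L + (k + 1)) (scl σ (B (L + (k + 1)))) m2 m3) *
        (hd (L + (k + 1)) * (DU U (k + 1) (k + 1) m1 m3 *
          phi (Xg (L + (k + 1)) (L + (k + 1)) (scl σ (C (L + (k + 1)))) m1 m3) *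
          (DU U (k + 1) (k + 1) m1 m3)ᵀ) * hd (L + (k + 1)))).trace := rfl
  rw [e, Xg_scl, Xg_scl, tn]

theorem tn_plane (k : ℕ) (σ : ℝ) (c' : ℤ) :
    4 ^ (L + (k + 1)) * ∑ m ∈ bx3 (L + N) R (L + (k + 1)) c', tn L U B C σ k m =
      4 ^ L * GW N R.2.1 R.2.2 R.1 (k + 1) c'
        (H433.mt U (scl σ (B (L + (k + 1)))) (scl σ (C (L + (k + 1)))) k) := by
  have hpow : (4 : ℝ) ^ L * 4 ^ (k + 1) = 4 ^ (L + (k + 1)) := by rw [← pow_add]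
  have hN : L + N - (L + (k + 1)) = N - (k + 1) := by omega
  rw [sum_bx3_32, GW, ← mul_assoc, hpow, hN]
  refine congrArg (fun t : ℝ => (4 : ℝ) ^ (L + (k + 1)) * t) ?_
  refine sum_congr rfl fun m3 _ => sum_congr rfl fun m2 _ => ?_
  rw [tn_mt]

/-- the blocks of the label: no node at the scales `<= L` -/
theorem RP_le_GW (hs0 : ∀ k ≤ L, s k = ∅)
    (hs : ∀ k < N, s (L + (k + 1)) ⊆ bx3 (L + N) R (L + (k + 1)) (c (k + 1)))
    {h ε w : ℝ} (hh : 0 < h) (hε : 0 < ε) (hε1 : ε ≤ 1) (hw : 0 < w) {FC : NM}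
    (hFC : ∀ k < N, ∀ m ∈ s (L + (k + 1)), FC (L + (k + 1)) m =
      w • (DU U (k + 1) (k + 1) m.1 m.2.2 * (bl (L + (k + 1)) (C (L + (k + 1))) m.1 m.2.2)ᵀ))
    (hU : ∀ k < N, ∀ m ∈ s (L + (k + 1)),
      ((DU U (k + 1) (k + 1) m.1 m.2.2 * (bl (L + (k + 1)) (C (L + (k + 1))) m.1 m.2.2)ᵀ)ᵀ *
        (DU U (k + 1) (k + 1) m.1 m.2.2 * (bl (L + (k + 1)) (C (L + (k + 1))) m.1 m.2.2)ᵀ) -
        (ε / w) ^ 2 • ((bl (L + (k + 1)) (C (L + (k + 1))) m.1 m.2.2)ᵀᵀ *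
          (bl (L + (k + 1)) (C (L + (k + 1))) m.1 m.2.2)ᵀ)).PosSemidef) :
    RP (L + N) s h h (fun k m => bl k (B k) m.2.1 m.2.2) FC ≤
      w ^ 2 * ((h / ε) ^ 2 * (h / ε) ^ 2 * (4 ^ L *
      ∑ k ∈ range N, GW N R.2.1 R.2.2 R.1 (k + 1) (c (k + 1))
        (H433.mt U (scl (h / ε) (B (L + (k + 1)))) (scl (h / ε) (C (L + (k + 1)))) k))) := by
  unfold RP
  rw [sum_scales L N _ (fun k hk => by rw [hs0 k hk, sum_empty]), mul_sum, mul_sum, mul_sum]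
  refine sum_le_sum fun k hk => ?_
  have hkN : k < N := mem_range.1 hk
  have h1 : ∀ m ∈ s (L + (k + 1)), h ^ 2 * h ^ 2 * (4 ^ (L + (k + 1)) *
      M2 (hd (L + (k + 1))) ((h ^ 2)⁻¹ * (4 ^ (L + (k + 1)))⁻¹)
      ((h ^ 2)⁻¹ * (4 ^ (L + (k + 1)))⁻¹) (bl (L + (k + 1)) (B (L + (k + 1))) m.2.1 m.2.2)
      (FC (L + (k + 1)) m)) ≤
      w ^ 2 * ((h / ε) ^ 2 * (h / ε) ^ 2) * (4 ^ (L + (k + 1)) * tn L U B C (h / ε) k m) := by
    intro m hm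
    have q := stack_node (r := hd (L + (k + 1))) (hd_symm (L + (k + 1))) hh hε hε1 hw
      (show (0 : ℝ) ≤ (4 ^ (L + (k + 1)))⁻¹ by positivity)
      (bl (L + (k + 1)) (B (L + (k + 1))) m.2.1 m.2.2)
      (DU U (k + 1) (k + 1) m.1 m.2.2) ((bl (L + (k + 1)) (C (L + (k + 1))) m.1 m.2.2)ᵀ)
      (hU k hkN m hm)
    rw [← hFC k hkN m hm, gramR_transpose] at q
    have q' := mul_le_mul_of_nonneg_left q (by positivity : (0 : ℝ) ≤ 4 ^ (L + (k + 1)))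
    refine le_trans (le_of_eq ?_) (q'.trans (le_of_eq ?_))
    · ring
    · unfold tn
      ring
  refine (sum_le_sum h1).trans ?_
  have h2 : ∑ m ∈ s (L + (k + 1)),
      w ^ 2 * ((h / ε) ^ 2 * (h / ε) ^ 2) * (4 ^ (L + (k + 1)) * tn L U B C (h / ε) k m) ≤
      ∑ m ∈ bx3 (L + N) R (L + (k + 1)) (c (k + 1)),
      w ^ 2 * ((h / ε) ^ 2 * (h / ε) ^ 2) * (4 ^ (L + (k + 1)) * tn L U B C (h / ε) k m) :=
    sum_le_sum_of_subset_of_nonneg (hs k hkN) fun m _ _ =>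
      mul_nonneg (by positivity) (mul_nonneg (by positivity) (tn_nonneg ..))
  refine h2.trans (le_of_eq ?_)
  rw [← mul_sum, ← mul_sum, tn_plane]
  ring

/-- **The crude bound of the pair sum with the stack.** -/
theorem lo_RP {QB QC : ℕ → ℤ → ℤ → Prop} (hc : Pl c) (hs0 : ∀ k ≤ L, s k = ∅)
    (hs : ∀ k < N, s (L + (k + 1)) ⊆ bx3 (L + N) R (L + (k + 1)) (c (k + 1)))
    {h ε w : ℝ} (hh : 0 < h) (hε : 0 < ε) (hε1 : ε ≤ 1) (hw : 0 < w) {FC : NM}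
    (hFC : ∀ k < N, ∀ m ∈ s (L + (k + 1)), FC (L + (k + 1)) m =
      w • (DU U (k + 1) (k + 1) m.1 m.2.2 * (bl (L + (k + 1)) (C (L + (k + 1))) m.1 m.2.2)ᵀ))
    (hU : ∀ k < N, ∀ m ∈ s (L + (k + 1)),
      ((DU U (k + 1) (k + 1) m.1 m.2.2 * (bl (L + (k + 1)) (C (L + (k + 1))) m.1 m.2.2)ᵀ)ᵀ *
        (DU U (k + 1) (k + 1) m.1 m.2.2 * (bl (L + (k + 1)) (C (L + (k + 1))) m.1 m.2.2)ᵀ) -
        (ε / w) ^ 2 • ((bl (L + (k + 1)) (C (L + (k + 1))) m.1 m.2.2)ᵀᵀ *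
          (bl (L + (k + 1)) (C (L + (k + 1))) m.1 m.2.2)ᵀ)).PosSemidef)
    (hUc : ∀ k x n, Ct (U k x n)) {DB DC : ℝ} (eB : L2E (L + N) R.2.1 R.2.2 QB B DB)
    (eC : L2E (L + N) R.1 R.2.2 QC C DC) {β G : ℝ}
    (gB : ∀ k < N, ∀ n ∈ iv (N - k) R.2.1, ∀ y ∈ iv N R.2.2,
      (Xg (L + k) L (B (L + (k + 1))) n y).trace ≤ β ^ 2)
    (gC : ∀ k < N, ∀ n ∈ iv (N - k) R.1, ∀ y ∈ iv N R.2.2,
      (Xg (L + k) L (C (L + (k + 1))) n y).trace ≤ β ^ 2)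
    (hG : ∑ x ∈ iv N R.2.2, ∑ k ∈ range N, 2 ^ (k + 1) *
      ∑ j ∈ iv (N - (k + 1)) R.1, vd U k x j ≤ 4 ^ N * G) :
    RP (L + N) s h h (fun k m => bl k (B k) m.2.1 m.2.2) FC ≤
      10 ^ 4 * (w ^ 2 * (ε ^ 2)⁻¹) * (DB + DC + 4 ^ (L + N) * β ^ 2 * G) * h ^ 2 := by
  have h1 := RP_le_GW (c := c) (B := B) hs0 hs hh hε hε1 hw hFC hU
  obtain ⟨σ, hσ⟩ : ∃ σ : ℝ, σ = h / ε := ⟨_, rfl⟩
  rw [← hσ] at h1
  have σ0 : 0 < σ := by rw [hσ]; positivity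
  have wz : ∀ {F : ℕ → ℤ → ℤ → ℝ}, F 0 = 0 → wp (σ ^ 2)⁻¹ F 0 = 0 := fun h => wp_zero _ h
  have w0 : (0 : ℝ) ≤ (σ ^ 2)⁻¹ := by positivity
  have h2 := lo_path_h (L := L) (N := N) (B := β / σ) hc hUc
    (F := wp (σ ^ 2)⁻¹ B) (H := wp (σ ^ 2)⁻¹ C) (D := (σ ^ 2)⁻¹ * DB) (D' := (σ ^ 2)⁻¹ * DC)
    ⟨path_wp (σ ^ 2)⁻¹ eB.path, wz eB.zero, by
      rw [pwr_wp w0]; exact mul_le_mul_of_nonneg_left eB.own w0⟩
    ⟨path_wp (σ ^ 2)⁻¹ eC.path, wz eC.zero, by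
      rw [pwr_wp w0]; exact mul_le_mul_of_nonneg_left eC.own w0⟩
    (fun k hk n hn y hy => by
      change (Xg (L + k) L (scl σ (B (L + (k + 1)))) n y).trace ≤ _
      rw [trace_scl, div_pow, div_eq_inv_mul]
      exact mul_le_mul_of_nonneg_left (gB k hk n hn y hy) w0)
    (fun k hk n hn y hy => by
      change (Xg (L + k) L (scl σ (C (L + (k + 1)))) n y).trace ≤ _
      rw [trace_scl, div_pow, div_eq_inv_mul]
      exact mul_le_mul_of_nonneg_left (gC k hk n hn y hy) w0) hG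
  refine h1.trans ?_
  have h3 : ∑ k ∈ range N, GW N R.2.1 R.2.2 R.1 (k + 1) (c (k + 1))
        (H433.mt U (scl σ (B (L + (k + 1)))) (scl σ (C (L + (k + 1)))) k) ≤
      10 ^ 4 * (((4 : ℝ) ^ L)⁻¹ * ((σ ^ 2)⁻¹ * DB + (σ ^ 2)⁻¹ * DC) + 4 ^ N * (β / σ) ^ 2 * G) := h2
  refine (mul_le_mul_of_nonneg_left (mul_le_mul_of_nonneg_left (mul_le_mul_of_nonneg_left h3
    (by positivity : (0 : ℝ) ≤ 4 ^ L)) (by positivity)) (by positivity)).trans (le_of_eq ?_)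
  rw [pow_add, div_pow, hσ]
  field_simp

end

end

end Vale.Agent.P141.H433
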