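import Vale.Agent.P141.H433.SlotU
import Vale.Agent.P141.PL.H588.Split

/-!
# The plane sum of a static saturated pair with a moving contraction between the two slots
-/

set_option linter.unusedSectionVars false

namespace Vale.Agent.P141.H433

open Finset Matrix Vale.Agent.P075 Vale.Agent.P141.PL Vale.Agent.P141.H103 Vale.Agent.P141.H170
open Vale.Agent.P141.PL.H588 (Xg Xs hd Pl cd dl)

noncomputable section

variable {L : ℕ} {U : ℕ → ℤ → ℤ → Matrix (Ix L) (Ix L) ℝ} {F H : ℤ → ℤ → ℝ} {B : ℝ}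

/-! ### means over dyadic intervals -/

section mn

variable {ι : Type*}

theorem mn_iv (r : ℕ) (n : ℤ) (f : ℤ → Matrix ι ι ℝ) :
    mn (iv r n) f = ((2 : ℝ) ^ r)⁻¹ • ∑ j ∈ iv r n, f j := by
  unfold mn
  rw [card_iv]
  push_cast
  rfl

theorem mn_zero (n : ℤ) (f : ℤ → Matrix ι ι ℝ) : mn (iv 0 n) f = f n := by
  have h4 : iv 0 n = {n} := by
    ext x
    simp only [iv, mem_Ico, mem_singleton, pow_zero, one_mul]
    omega
  rw [mn_iv, h4, sum_singleton, pow_zero, _root_.inv_one, one_smul]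

theorem mn_succ (r : ℕ) (n : ℤ) (f : ℤ → Matrix ι ι ℝ) :
    mn (iv (r + 1) n) f = (1 / 2 : ℝ) • (mn (iv r (2 * n)) f + mn (iv r (2 * n + 1)) f) := by
  rw [mn_iv, mn_iv, mn_iv, sum_iv_halves, ← smul_add, smul_smul, pow_succ, mul_inv]
  congr 1
  norm_num
  ring

theorem mn_one (n : ℤ) (f : ℤ → Matrix ι ι ℝ) :
    mn (iv 1 n) f = (1 / 2 : ℝ) • (f (2 * n) + f (2 * n + 1)) := by
  have h := mn_succ 0 n f
  rw [mn_zero, mn_zero] at h
  exact h

theorem mn_pair (r : ℕ) (n : ℤ) (f : ℤ → Matrix ι ι ℝ) :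
    mn (iv (r + 1) n) f = mn (iv r n) (fun j => (1 / 2 : ℝ) • (f (2 * j) + f (2 * j + 1))) := by
  induction r generalizing n with
  | zero => rw [mn_succ, mn_zero, mn_zero, mn_zero]
  | succ r ih => rw [mn_succ, ih, ih, ← mn_succ]

end mn

theorem sum_iv_nest (p r : ℕ) (R : ℤ) (f : ℤ → ℝ) :
    ∑ n ∈ iv p R, ∑ j ∈ iv r n, f j = ∑ j ∈ iv (p + r) R, f j := by
  induction r generalizing p with
  | zero =>
    refine Finset.sum_congr rfl fun n _ => ?_
    have h4 : iv 0 n = {n} := by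
      ext x
      simp only [iv, mem_Ico, mem_singleton, pow_zero, one_mul]
      omega
    rw [h4, sum_singleton]
  | succ r ih =>
    rw [show p + (r + 1) = (p + 1) + r by ring, ← ih (p + 1), H588.sum_iv_succ]
    exact Finset.sum_congr rfl fun n _ => sum_iv_halves r n f

/-! ### block diagonal slots -/

theorem cj_bd {m : Type*} [Fintype m] [DecidableEq m] (A₀ A₁ : Matrix m m ℝ)
    {X₀ X₁ : Matrix m m ℝ} (h0 : X₀.PosSemidef) (h1 : X₁.PosSemidef) :
    cj (bd A₀ A₁) (bd X₀ X₁) = bd (cj A₀ X₀) (cj A₁ X₁) := by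
  unfold cj
  rw [phi_bd h0 h1, H433.bd_transpose, bd_mul, bd_mul]

theorem mn_bd {m : Type*} [Fintype m] [DecidableEq m] (J : Finset ℤ) (f g : ℤ → Matrix m m ℝ) :
    mn J (fun j => bd (f j) (g j)) = bd (mn J f) (mn J g) := by
  unfold mn
  rw [← bd_smul]
  congr 1
  induction J using Finset.induction_on with
  | empty =>
    rw [sum_empty, sum_empty, sum_empty]
    ext i j
    rcases i with i | i <;> rcases j with j | j <;> simp [bd, fromBlocks]
  | insert a s ha ih => rw [sum_insert ha, sum_insert ha, sum_insert ha, ih, bd_add]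

/-- the slot at outer and middle scale `k` -/
def bs (U : ℕ → ℤ → ℤ → Matrix (Ix L) (Ix L) ℝ) (F : ℤ → ℤ → ℝ) (k : ℕ) (m n : ℤ) :
    Matrix (Ix (L + k)) (Ix (L + k)) ℝ :=
  cj (DU U k k n m) (Xg (L + k) (L + k) F n m)

/-- the outer means of the slot -/
def fm (U : ℕ → ℤ → ℤ → Matrix (Ix L) (Ix L) ℝ) (F : ℤ → ℤ → ℝ) (k a : ℕ) (n m : ℤ) :
    Matrix (Ix (L + k)) (Ix (L + k)) ℝ :=
  mn (iv (a - k) n) (bs U F k m)

theorem bs_psd (k : ℕ) (m n : ℤ) : (bs U F k m n).PosSemidef := cj_psd (H588.Xg_psd ..)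

theorem fm_psd (k a : ℕ) (n m : ℤ) : (fm U F k a n m).PosSemidef :=
  mn_psd fun _ _ => bs_psd ..

theorem fm_symm (k a : ℕ) (n m : ℤ) : (fm U F k a n m)ᵀ = fm U F k a n m := psd_isSymm (fm_psd ..)

theorem fm_out (N k : ℕ) : OutM N k (fm U F k) := by
  intro a h1 _ n m
  unfold fm
  rw [show a + 1 - k = (a - k) + 1 by omega, mn_succ]

/-! ### the outer half of the own step -/

/-- the mass of the change of the multiplier at one node -/
def vs (U : ℕ → ℤ → ℤ → Matrix (Ix L) (Ix L) ℝ) (k i : ℕ) (j m : ℤ) : ℝ :=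
  ((2 : ℝ) ^ k)⁻¹ * ∑ x ∈ iv i m, vd U k x j

theorem vs_nonneg (k i : ℕ) (j m : ℤ) : 0 ≤ vs U k i j m :=
  mul_nonneg (by positivity) (Finset.sum_nonneg fun _ _ => vd_nonneg ..)

theorem vs_halves (k : ℕ) (j m : ℤ) :
    vs U k (k + 1) j m = vs U k k j (2 * m) + vs U k k j (2 * m + 1) := by
  unfold vs
  rw [sum_iv_halves, mul_add]

/-- line energies of the parent cell -/
theorem parent_le {a : ℕ} {j y : ℤ} (h0 : (Xg a L F (2 * j) y).trace ≤ B ^ 2)
    (h1 : (Xg a L F (2 * j + 1) y).trace ≤ B ^ 2) : (Xg (a + 1) L F j y).trace ≤ B ^ 2 := by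
  rw [H588.Xg_row, trace_smul, trace_add, smul_eq_mul]
  linarith

/-- line energies of the cells of scale `k` below the cell `n` of scale `k + r`, middle block `m` of
scale `i` -/
def Ln (L : ℕ) (F : ℤ → ℤ → ℝ) (B : ℝ) (k r i : ℕ) (n m : ℤ) : Prop :=
  ∀ j ∈ iv r n, ∀ y ∈ iv i m, (Xg (L + k) L F j y).trace ≤ B ^ 2

theorem Ln.left {k r i : ℕ} {n m : ℤ} (h : Ln L F B k r (i + 1) n m) : Ln L F B k r i n (2 * m) :=
  fun j hj y hy => h j hj y (by rw [iv_halves]; exact mem_union_left _ hy)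

theorem Ln.right {k r i : ℕ} {n m : ℤ} (h : Ln L F B k r (i + 1) n m) :
    Ln L F B k r i n (2 * m + 1) :=
  fun j hj y hy => h j hj y (by rw [iv_halves]; exact mem_union_right _ hy)

theorem Ln.even {k r i : ℕ} {n m : ℤ} (h : Ln L F B k (r + 1) i n m) {j : ℤ} (hj : j ∈ iv r n) :
    ∀ y ∈ iv i m, (Xg (L + k) L F (2 * j) y).trace ≤ B ^ 2 :=
  fun y hy => h _ ((H588.mem_iv_double r n j).2 hj) y hy

theorem Ln.odd {k r i : ℕ} {n m : ℤ} (h : Ln L F B k (r + 1) i n m) {j : ℤ} (hj : j ∈ iv r n) :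
    ∀ y ∈ iv i m, (Xg (L + k) L F (2 * j + 1) y).trace ≤ B ^ 2 :=
  fun y hy => h _ ((H588.mem_iv_double' r n j).2 hj) y hy

theorem Ln.up {k r i : ℕ} {n m : ℤ} (h : Ln L F B k (r + 1) i n m) {j : ℤ} (hj : j ∈ iv r n) :
    ∀ y ∈ iv i m, (Xg (L + (k + 1)) L F j y).trace ≤ B ^ 2 :=
  fun y hy => parent_le (h.even hj y hy) (h.odd hj y hy)

theorem own_half (hU : ∀ k x n, Ct (U k x n))
    {k r : ℕ} {n m : ℤ} (hF : Ln L F B k (r + 1) k n m) {S : Matrix (Ix (L + k)) (Ix (L + k)) ℝ}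
    (hS : S = mn (iv r n) (fun j => cj (DU U (k + 1) k j m) (Xg (L + (k + 1)) (L + k) F j m))) :
    (S * S).trace ≤ (fm U F k (k + 1 + r) n m * fm U F k (k + 1 + r) n m).trace
      + ((2 : ℝ) ^ r)⁻¹ * ∑ j ∈ iv r n,
        (3 * dl (L + k) (L + k) F j m + 5 * B ^ 2 * vs U k k j m) := by
  have eQ : fm U F k (k + 1 + r) n m
      = mn (iv r n) (fun j => (1 / 2 : ℝ) • (cj (DU U k k (2 * j) m) (Xg (L + k) (L + k) F (2 * j) m)
        + cj (DU U k k (2 * j + 1) m) (Xg (L + k) (L + k) F (2 * j + 1) m))) := by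
    unfold fm
    rw [show k + 1 + r - k = r + 1 by omega, mn_pair]
    rfl
  have eS : S = mn (iv r n) (fun j => cj (DU U (k + 1) k j m)
      ((1 / 2 : ℝ) • (Xg (L + k) (L + k) F (2 * j) m + Xg (L + k) (L + k) F (2 * j + 1) m))) := by
    rw [hS]
    congr 1
    funext j
    rw [← H588.Xg_row]
    rfl
  have q := own_outer (J := iv r n) (X0 := fun j => Xg (L + k) (L + k) F (2 * j) m)
    (X1 := fun j => Xg (L + k) (L + k) F (2 * j + 1) m)
    (U0 := fun j => DU U k k (2 * j) m) (U1 := fun j => DU U k k (2 * j + 1) m)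
    (U := fun j => DU U (k + 1) k j m)
    (fun j _ => H588.Xg_psd ..) (fun j _ => H588.Xg_psd ..) (fun j _ => (DU_ct hU ..).2)
    (fun j _ => (DU_ct hU ..).2) (fun j _ => (DU_ct hU ..).1) (fun j _ => (DU_ct hU ..).2)
    eS eQ rfl
  set W := S + fm U F k (k + 1 + r) n m with hW
  have pS : S.PosSemidef := by rw [eS]; exact mn_psd fun j _ => cj_psd (half_psd (H588.Xg_psd ..)
    (H588.Xg_psd ..))
  have oS : (1 - S).PosSemidef := by
    rw [eS]
    exact one_sub_mn fun j _ => one_sub_cj (half_psd (H588.Xg_psd ..) (H588.Xg_psd ..))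
      (DU_ct hU ..).2
  have oQ : (1 - fm U F k (k + 1 + r) n m).PosSemidef :=
    one_sub_mn fun j _ => one_sub_cj (H588.Xg_psd ..) (DU_ct hU ..).2
  have pW : W.PosSemidef := pS.add (fm_psd ..)
  have oW : ((2 : ℝ) • (1 : Matrix (Ix (L + k)) (Ix (L + k)) ℝ) - W).PosSemidef := by
    have e : (2 : ℝ) • (1 : Matrix (Ix (L + k)) (Ix (L + k)) ℝ) - W
        = (1 - S) + (1 - fm U F k (k + 1 + r) n m) := by
      rw [hW]; module
    rw [e]
    exact oS.add oQ
  have hB : 0 ≤ B ^ 2 := sq_nonneg B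
  have dW : Dg L k m (B ^ 2 + B ^ 2) W := by
    refine Dg.add ?_ ?_
    · rw [hS]
      exact Dg.mn hB fun j hj => Dg.cj (hF.up hj) (fun x => hU (k + 1) x j)
    · unfold fm
      rw [show k + 1 + r - k = r + 1 by omega]
      exact Dg.mn hB fun j hj => Dg.cj (hF j hj) (fun x => hU k x j)
  rw [card_iv] at q
  push_cast at q
  refine q.trans (add_le_add_right (mul_le_mul_of_nonneg_left (Finset.sum_le_sum fun j hj => ?_)
    (by positivity)) _)
  have t1 := vterm (U := U) dW j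
  have t2 := dterm (U := U) (hF.even hj) (hF.odd hj) (by norm_num : (0 : ℝ) ≤ 2) pW oW dW
    (DU_ct hU (k + 1) k j m)
  rw [← V_eq] at t1
  rw [← D_eq] at t2
  have t3 : (W * ((DU U (k + 1) k j m - (1 / 2 : ℝ) • (DU U k k (2 * j) m + DU U k k (2 * j + 1) m))
      * ((1 / 2 : ℝ) • (phi (Xg (L + k) (L + k) F (2 * j) m)
        + phi (Xg (L + k) (L + k) F (2 * j + 1) m))) * (DU U (k + 1) k j m)ᵀ))
      = W * (DU U (k + 1) k j m - (1 / 2 : ℝ) • (DU U k k (2 * j) m + DU U k k (2 * j + 1) m))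
      * ((1 / 2 : ℝ) • (phi (Xg (L + k) (L + k) F (2 * j) m)
        + phi (Xg (L + k) (L + k) F (2 * j + 1) m))) * (DU U (k + 1) k j m)ᵀ := by
    simp only [Matrix.mul_assoc]
  rw [t3]
  have t4 : vs U k k j m = ((2 : ℝ) ^ k)⁻¹ * ∑ x ∈ iv k m, (vV U k x j * (vV U k x j)ᵀ).trace
      + ((2 : ℝ) ^ k)⁻¹ * ∑ x ∈ iv k m, √((vD U k x j * (vD U k x j)ᵀ).trace) := by
    unfold vs vd
    rw [Finset.sum_add_distrib, mul_add]
  have t5 : 0 ≤ ((2 : ℝ) ^ k)⁻¹ * ∑ x ∈ iv k m, (vV U k x j * (vV U k x j)ᵀ).trace :=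
    mul_nonneg (by positivity) (Finset.sum_nonneg fun _ _ => (psd_mul_transpose _).trace_nonneg)
  have t6 : (delt (Xg (L + k) (L + k) F (2 * j) m) (Xg (L + k) (L + k) F (2 * j + 1) m)).trace
      = dl (L + k) (L + k) F j m := rfl
  rw [t6, t4]
  have t7 := mul_nonneg hB t5
  nlinarith [t1, t2, t7]

/-! ### the own step -/

/-- the defect of the own energy at one node -/
def df (U : ℕ → ℤ → ℤ → Matrix (Ix L) (Ix L) ℝ) (F : ℤ → ℤ → ℝ) (B : ℝ) (k : ℕ) (j m : ℤ) : ℝ :=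
  14 * cd (L + (k + 1)) (L + k) F j m
    + (3 / 2) * (dl (L + k) (L + k) F j (2 * m) + dl (L + k) (L + k) F j (2 * m + 1))
    + (5 / 2) * B ^ 2 * vs U k (k + 1) j m

theorem df_nonneg (k : ℕ) (j m : ℤ) : 0 ≤ df U F B k j m := by
  unfold df
  have h1 := H588.cd_nonneg (L + (k + 1)) (L + k) F j m
  have h2 := H588.dl_nonneg (L + k) (L + k) F j (2 * m)
  have h3 := H588.dl_nonneg (L + k) (L + k) F j (2 * m + 1)
  have h4 := vs_nonneg (U := U) k (k + 1) j m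
  positivity

theorem own_pt (hU : ∀ k x n, Ct (U k x n))
    {k r : ℕ} {n m : ℤ} (hF : Ln L F B k (r + 1) (k + 1) n m) :
    (fm U F (k + 1) (k + 1 + r) n m * fm U F (k + 1) (k + 1 + r) n m).trace
      ≤ (1 / 2) * ((fm U F k (k + 1 + r) n (2 * m) * fm U F k (k + 1 + r) n (2 * m)).trace
        + (fm U F k (k + 1 + r) n (2 * m + 1) * fm U F k (k + 1 + r) n (2 * m + 1)).trace)
        + ((2 : ℝ) ^ r)⁻¹ * ∑ j ∈ iv r n, df U F B k j m := by
  have e1 : fm U F (k + 1) (k + 1 + r) n m = mn (iv r n) (fun j =>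
      cj (bd (DU U (k + 1) k j (2 * m)) (DU U (k + 1) k j (2 * m + 1)))
        (Xs (L + (k + 1)) (L + k) F j m)) := by
    unfold fm
    rw [show k + 1 + r - (k + 1) = r by omega]
    rfl
  have hct : ∀ j, Ct (bd (DU U (k + 1) k j (2 * m)) (DU U (k + 1) k j (2 * m + 1))) :=
    fun j => DU_ct hU (k + 1) (k + 1) j m
  have q := own_mid (J := iv r n) (X := fun j => Xs (L + (k + 1)) (L + k) F j m)
    (U := fun j => bd (DU U (k + 1) k j (2 * m)) (DU U (k + 1) k j (2 * m + 1)))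
    (r := rad (Ix (L + k))) rad_symm rad_sq (fun j _ => H588.Xs_psd ..)
    (fun j _ => (rad_bd _ _).symm) (fun j _ => (hct j).1) (fun j _ => (hct j).2)
  have e2 : mn (iv r n) (fun j =>
      cj (bd (DU U (k + 1) k j (2 * m)) (DU U (k + 1) k j (2 * m + 1)))
        (Xs (L + (k + 1)) (L + k) F j m
          + rad (Ix (L + k)) * Xs (L + (k + 1)) (L + k) F j m * rad (Ix (L + k))))
      = bd (mn (iv r n) (fun j => cj (DU U (k + 1) k j (2 * m))
          (Xg (L + (k + 1)) (L + k) F j (2 * m))))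
        (mn (iv r n) (fun j => cj (DU U (k + 1) k j (2 * m + 1))
          (Xg (L + (k + 1)) (L + k) F j (2 * m + 1)))) := by
    rw [← mn_bd]
    congr 1
    funext j
    rw [H588.Xs_split, cj_bd _ _ (H588.Xg_psd ..) (H588.Xg_psd ..)]
  rw [e2, bd_mul, trace_bd] at q
  have h1 := own_half hU hF.left rfl
  have h2 := own_half hU hF.right rfl
  have e3 : ((2 : ℝ) ^ r)⁻¹ * ∑ j ∈ iv r n, df U F B k j m
      = 14 * (((2 : ℝ) ^ r)⁻¹ * ∑ j ∈ iv r n, cd (L + (k + 1)) (L + k) F j m)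
        + (1 / 2) * (((2 : ℝ) ^ r)⁻¹ * ∑ j ∈ iv r n,
          (3 * dl (L + k) (L + k) F j (2 * m) + 5 * B ^ 2 * vs U k k j (2 * m)))
        + (1 / 2) * (((2 : ℝ) ^ r)⁻¹ * ∑ j ∈ iv r n,
          (3 * dl (L + k) (L + k) F j (2 * m + 1) + 5 * B ^ 2 * vs U k k j (2 * m + 1))) := by
    simp only [Finset.mul_sum, ← Finset.sum_add_distrib]
    refine Finset.sum_congr rfl fun j _ => ?_
    unfold df
    rw [vs_halves]
    ring
  have e4 : (((iv r n).card : ℕ) : ℝ)⁻¹ * ∑ j ∈ iv r n,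
      (phi (Xs (L + (k + 1)) (L + k) F j m)
        * (rad (Ix (L + k)) * phi (Xs (L + (k + 1)) (L + k) F j m) * rad (Ix (L + k)))).trace
      = ((2 : ℝ) ^ r)⁻¹ * ∑ j ∈ iv r n, cd (L + (k + 1)) (L + k) F j m := by
    rw [card_iv]
    push_cast
    rfl
  rw [e4] at q
  rw [e1, e3]
  refine q.trans ?_
  linarith

end

end Vale.Agent.P141.H433
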