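import Vale.Agent.P141.H433.SlotW
import Vale.Agent.P141.H433.LoPath

/-!
# The own step and the middle step with row traces
-/

set_option linter.unusedSectionVars false

namespace Vale.Agent.P141.H433

open Finset Matrix Vale.Agent.P075 Vale.Agent.P141.PL Vale.Agent.P141.H103 Vale.Agent.P141.H170
open Vale.Agent.P141.PL.H588 (Xg Xs hd Pl cd dl)

noncomputable section

variable {L : ℕ} {U : ℕ → ℤ → ℤ → Matrix (Ix L) (Ix L) ℝ} {F H : ℤ → ℤ → ℝ}

/-- the weighted mass of the change at one node -/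
def vw (U : ℕ → ℤ → ℤ → Matrix (Ix L) (Ix L) ℝ) (ρ : ℤ → ℝ) (k i : ℕ) (j m : ℤ) : ℝ :=
  ((2 : ℝ) ^ k)⁻¹ * ∑ x ∈ iv i m, ρ x * vd U k x j

theorem vw_nonneg {ρ : ℤ → ℝ} (h : ∀ x, 0 ≤ ρ x) (k i : ℕ) (j m : ℤ) : 0 ≤ vw U ρ k i j m :=
  mul_nonneg (by positivity) (Finset.sum_nonneg fun _ _ => mul_nonneg (h _) (vd_nonneg ..))

theorem vw_halves (ρ : ℤ → ℝ) (k : ℕ) (j m : ℤ) :
    vw U ρ k (k + 1) j m = vw U ρ k k j (2 * m) + vw U ρ k k j (2 * m + 1) := by
  unfold vw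
  rw [sum_iv_halves, mul_add]

theorem own_halfW (hU : ∀ k x n, Ct (U k x n))
    {k r : ℕ} {n m : ℤ} {S : Matrix (Ix (L + k)) (Ix (L + k)) ℝ}
    (hS : S = mn (iv r n) (fun j => cj (DU U (k + 1) k j m) (Xg (L + (k + 1)) (L + k) F j m))) :
    (S * S).trace ≤ (fm U F k (k + 1 + r) n m * fm U F k (k + 1 + r) n m).trace
      + ((2 : ℝ) ^ r)⁻¹ * ∑ j ∈ iv r n,
        (3 * dl (L + k) (L + k) F j m
          + vw U (fun x => rt L F (k + 1) j x + 4 * rt L F (k + 1 + r) n x) k k j m) := by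
  have eQ : fm U F k (k + 1 + r) n m
      = mn (iv r n) (fun j => (1 / 2 : ℝ) • (cj (DU U k k (2 * j) m) (Xg (L + k) (L + k) F (2 * j) m)
        + cj (DU U k k (2 * j + 1) m) (Xg (L + k) (L + k) F (2 * j + 1) m))) := by
    unfold fm
    rw [show k + 1 + r - k = r + 1 by omega, mn_pair]
    rfl
  have eS : S = mn (iv r n) (fun j => cj (DU U (k + 1) k j m)
      ((1 / 2 : ℝ) • (Xg (L + k) (L + k) F (2 * j) m + Xg (L + k) (L + k) F (2 * j + 1) m))) := by
    rw [hS]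
    congr 1
    funext j
    rw [← H588.Xg_row]
    rfl
  have q := own_outer (J := iv r n) (X0 := fun j => Xg (L + k) (L + k) F (2 * j) m)
    (X1 := fun j => Xg (L + k) (L + k) F (2 * j + 1) m)
    (U0 := fun j => DU U k k (2 * j) m) (U1 := fun j => DU U k k (2 * j + 1) m)
    (U := fun j => DU U (k + 1) k j m)
    (fun j _ => H588.Xg_psd ..) (fun j _ => H588.Xg_psd ..) (fun j _ => (DU_ct hU ..).2)
    (fun j _ => (DU_ct hU ..).2) (fun j _ => (DU_ct hU ..).1) (fun j _ => (DU_ct hU ..).2)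
    eS eQ rfl
  set W := S + fm U F k (k + 1 + r) n m with hW
  have pS : S.PosSemidef := by rw [eS]; exact mn_psd fun j _ => cj_psd (half_psd (H588.Xg_psd ..)
    (H588.Xg_psd ..))
  have oS : (1 - S).PosSemidef := by
    rw [eS]
    exact one_sub_mn fun j _ => one_sub_cj (half_psd (H588.Xg_psd ..) (H588.Xg_psd ..))
      (DU_ct hU ..).2
  have oQ : (1 - fm U F k (k + 1 + r) n m).PosSemidef :=
    one_sub_mn fun j _ => one_sub_cj (H588.Xg_psd ..) (DU_ct hU ..).2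
  have pW : W.PosSemidef := pS.add (fm_psd ..)
  have oW : ((2 : ℝ) • (1 : Matrix (Ix (L + k)) (Ix (L + k)) ℝ) - W).PosSemidef := by
    have e : (2 : ℝ) • (1 : Matrix (Ix (L + k)) (Ix (L + k)) ℝ) - W
        = (1 - S) + (1 - fm U F k (k + 1 + r) n m) := by
      rw [hW]; module
    rw [e]
    exact oS.add oQ
  have dW : DgW L k m (fun x => rt L F (k + 1 + r) n x + rt L F (k + 1 + r) n x) W := by
    refine DgW.add ?_ ?_
    · rw [hS]
      exact DgW.mnc fun j _ => DgW.cj (fun x => hU (k + 1) x j)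
    · unfold fm
      rw [show k + 1 + r - k = r + 1 by omega]
      have q0 := DgW.mnc (L := L) (F := F) (a := k) (k := k) (r := r + 1) (n := n) (m := m)
        (f := bs U F k m) fun j _ => DgW.cj (fun x => hU k x j)
      rwa [show k + (r + 1) = k + 1 + r by ring] at q0
  rw [card_iv] at q
  push_cast at q
  refine q.trans (add_le_add_right (mul_le_mul_of_nonneg_left (Finset.sum_le_sum fun j hj => ?_)
    (by positivity)) _)
  have t1 := vtermW (U := U) dW j
  have t2 := dtermW (F := F) (U := U) (a := k) (j := j) (by norm_num : (0 : ℝ) ≤ 2) pW oW dW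
    (DU_ct hU (k + 1) k j m)
  rw [← V_eq] at t1
  rw [← D_eq] at t2
  have t3 : (W * ((DU U (k + 1) k j m - (1 / 2 : ℝ) • (DU U k k (2 * j) m + DU U k k (2 * j + 1) m))
      * ((1 / 2 : ℝ) • (phi (Xg (L + k) (L + k) F (2 * j) m)
        + phi (Xg (L + k) (L + k) F (2 * j + 1) m))) * (DU U (k + 1) k j m)ᵀ))
      = W * (DU U (k + 1) k j m - (1 / 2 : ℝ) • (DU U k k (2 * j) m + DU U k k (2 * j + 1) m))
      * ((1 / 2 : ℝ) • (phi (Xg (L + k) (L + k) F (2 * j) m)
        + phi (Xg (L + k) (L + k) F (2 * j + 1) m))) * (DU U (k + 1) k j m)ᵀ := by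
    simp only [Matrix.mul_assoc]
  rw [t3]
  have t6 : (delt (Xg (L + k) (L + k) F (2 * j) m) (Xg (L + k) (L + k) F (2 * j + 1) m)).trace
      = dl (L + k) (L + k) F j m := rfl
  rw [t6]
  have t4 : 2 * (((2 : ℝ) ^ k)⁻¹ * ∑ x ∈ iv k m,
        (rt L F (k + 1 + r) n x + rt L F (k + 1 + r) n x) * (vV U k x j * (vV U k x j)ᵀ).trace)
      + ((2 : ℝ) ^ k)⁻¹ * ∑ x ∈ iv k m, (rt L F (k + 1) j x
        + 2 * (rt L F (k + 1 + r) n x + rt L F (k + 1 + r) n x))
        * √((vD U k x j * (vD U k x j)ᵀ).trace)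
      ≤ vw U (fun x => rt L F (k + 1) j x + 4 * rt L F (k + 1 + r) n x) k k j m := by
    unfold vw
    rw [mul_left_comm, ← mul_add, mul_sum, ← sum_add_distrib]
    refine mul_le_mul_of_nonneg_left (sum_le_sum fun x _ => ?_) (by positivity)
    have z1 : 0 ≤ (vV U k x j * (vV U k x j)ᵀ).trace := (psd_mul_transpose _).trace_nonneg
    have z2 := mul_nonneg (rt_nonneg (L := L) F (k + 1) j x) z1
    unfold vd
    nlinarith [z2]
  linarith

/-- the moving part of the defect of the own energy at one node: cell `j` of scale `k + 1`, mean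
over the cell `ix r j` of scale `k + 1 + r` -/
def wo (U : ℕ → ℤ → ℤ → Matrix (Ix L) (Ix L) ℝ) (F : ℤ → ℤ → ℝ) (k r : ℕ) (j m : ℤ) : ℝ :=
  (1 / 2) * vw U (fun x => rt L F (k + 1) j x + 4 * rt L F (k + 1 + r) (ix r j) x) k (k + 1) j m

theorem wo_nonneg (k r : ℕ) (j m : ℤ) : 0 ≤ wo U F k r j m :=
  mul_nonneg (by norm_num) (vw_nonneg (fun x => add_nonneg (rt_nonneg ..)
    (mul_nonneg (by norm_num) (rt_nonneg ..))) ..)

theorem own_ptW (hU : ∀ k x n, Ct (U k x n)) {k r : ℕ} {n m : ℤ} :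
    (fm U F (k + 1) (k + 1 + r) n m * fm U F (k + 1) (k + 1 + r) n m).trace
      ≤ (1 / 2) * ((fm U F k (k + 1 + r) n (2 * m) * fm U F k (k + 1 + r) n (2 * m)).trace
        + (fm U F k (k + 1 + r) n (2 * m + 1) * fm U F k (k + 1 + r) n (2 * m + 1)).trace)
        + ((2 : ℝ) ^ r)⁻¹ * ∑ j ∈ iv r n, (28 * sp L F k j m + wo U F k r j m) := by
  have e1 : fm U F (k + 1) (k + 1 + r) n m = mn (iv r n) (fun j =>
      cj (bd (DU U (k + 1) k j (2 * m)) (DU U (k + 1) k j (2 * m + 1)))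
        (Xs (L + (k + 1)) (L + k) F j m)) := by
    unfold fm
    rw [show k + 1 + r - (k + 1) = r by omega]
    rfl
  have hct : ∀ j, Ct (bd (DU U (k + 1) k j (2 * m)) (DU U (k + 1) k j (2 * m + 1))) :=
    fun j => DU_ct hU (k + 1) (k + 1) j m
  have q := own_mid (J := iv r n) (X := fun j => Xs (L + (k + 1)) (L + k) F j m)
    (U := fun j => bd (DU U (k + 1) k j (2 * m)) (DU U (k + 1) k j (2 * m + 1)))
    (r := rad (Ix (L + k))) rad_symm rad_sq (fun j _ => H588.Xs_psd ..)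
    (fun j _ => (rad_bd _ _).symm) (fun j _ => (hct j).1) (fun j _ => (hct j).2)
  have e2 : mn (iv r n) (fun j =>
      cj (bd (DU U (k + 1) k j (2 * m)) (DU U (k + 1) k j (2 * m + 1)))
        (Xs (L + (k + 1)) (L + k) F j m
          + rad (Ix (L + k)) * Xs (L + (k + 1)) (L + k) F j m * rad (Ix (L + k))))
      = bd (mn (iv r n) (fun j => cj (DU U (k + 1) k j (2 * m))
          (Xg (L + (k + 1)) (L + k) F j (2 * m))))
        (mn (iv r n) (fun j => cj (DU U (k + 1) k j (2 * m + 1))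
          (Xg (L + (k + 1)) (L + k) F j (2 * m + 1)))) := by
    rw [← mn_bd]
    congr 1
    funext j
    rw [H588.Xs_split, cj_bd _ _ (H588.Xg_psd ..) (H588.Xg_psd ..)]
  rw [e2, bd_mul, trace_bd] at q
  have h1 := own_halfW (F := F) (k := k) (r := r) (n := n) (m := 2 * m) hU rfl
  have h2 := own_halfW (F := F) (k := k) (r := r) (n := n) (m := 2 * m + 1) hU rfl
  have e3 : 14 * (((2 : ℝ) ^ r)⁻¹ * ∑ j ∈ iv r n, cd (L + (k + 1)) (L + k) F j m)
        + (1 / 2) * (((2 : ℝ) ^ r)⁻¹ * ∑ j ∈ iv r n,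
          (3 * dl (L + k) (L + k) F j (2 * m)
            + vw U (fun x => rt L F (k + 1) j x + 4 * rt L F (k + 1 + r) n x) k k j (2 * m)))
        + (1 / 2) * (((2 : ℝ) ^ r)⁻¹ * ∑ j ∈ iv r n,
          (3 * dl (L + k) (L + k) F j (2 * m + 1)
            + vw U (fun x => rt L F (k + 1) j x + 4 * rt L F (k + 1 + r) n x) k k j (2 * m + 1)))
      ≤ ((2 : ℝ) ^ r)⁻¹ * ∑ j ∈ iv r n, (28 * sp L F k j m + wo U F k r j m) := by
    have e : ∀ a b c d : ℝ, 14 * (d * a) + 1 / 2 * (d * b) + 1 / 2 * (d * c)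
        = d * (14 * a + 1 / 2 * b + 1 / 2 * c) := fun a b c d => by ring
    rw [e, mul_sum, mul_sum, mul_sum, ← sum_add_distrib, ← sum_add_distrib]
    refine mul_le_mul_of_nonneg_left (sum_le_sum fun j hj => ?_) (by positivity)
    unfold wo sp
    rw [vw_halves, mem_iv.1 hj]
    have g2 := H588.dl_nonneg (L + k) (L + k) F j (2 * m)
    have g3 := H588.dl_nonneg (L + k) (L + k) F j (2 * m + 1)
    linarith
  have e4 : (((iv r n).card : ℕ) : ℝ)⁻¹ * ∑ j ∈ iv r n,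
      (phi (Xs (L + (k + 1)) (L + k) F j m)
        * (rad (Ix (L + k)) * phi (Xs (L + (k + 1)) (L + k) F j m) * rad (Ix (L + k)))).trace
      = ((2 : ℝ) ^ r)⁻¹ * ∑ j ∈ iv r n, cd (L + (k + 1)) (L + k) F j m := by
    rw [card_iv]
    push_cast
    rfl
  rw [e4] at q
  rw [e1]
  refine q.trans ?_
  linarith

/-! ### the middle step -/

/-- the outer half, one middle child -/
theorem mid_halfW (hU : ∀ k x n, Ct (U k x n)) {k : ℕ} {n n' m : ℤ} :
    (phi (Xg (L + (k + 1)) (L + k) F n m)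
      * cj (DU U (k + 1) k n' m) (Xg (L + (k + 1)) (L + k) H n' m)).trace
      ≤ (fm (U1 L) F k (k + 1) n m * fm U H k (k + 1) n' m).trace
        + dl (L + k) (L + k) F n m + 2 * dl (L + k) (L + k) H n' m
        + vw U (fun x => rt L F (k + 1) n x + rt L H (k + 1) n' x) k k n' m := by
  have eP : fm (U1 L) F k (k + 1) n m = (1 / 2 : ℝ) • (phi (Xg (L + k) (L + k) F (2 * n) m)
      + phi (Xg (L + k) (L + k) F (2 * n + 1) m)) := by
    unfold fm
    rw [show k + 1 - k = 1 by omega, mn_one]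
    unfold bs
    rw [DU_one, DU_one, cj_one, cj_one]
  have eQ : fm U H k (k + 1) n' m = (1 / 2 : ℝ) • (DU U k k (2 * n') m
      * phi (Xg (L + k) (L + k) H (2 * n') m) * (DU U k k (2 * n') m)ᵀ
      + DU U k k (2 * n' + 1) m * phi (Xg (L + k) (L + k) H (2 * n' + 1) m)
        * (DU U k k (2 * n' + 1) m)ᵀ) := by
    unfold fm
    rw [show k + 1 - k = 1 by omega, mn_one]
    rfl
  have rF : Xg (L + (k + 1)) (L + k) F n m
      = (1 / 2 : ℝ) • (Xg (L + k) (L + k) F (2 * n) m + Xg (L + k) (L + k) F (2 * n + 1) m) := by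
    rw [← H588.Xg_row]; rfl
  have rH : Xg (L + (k + 1)) (L + k) H n' m
      = (1 / 2 : ℝ) • (Xg (L + k) (L + k) H (2 * n') m + Xg (L + k) (L + k) H (2 * n' + 1) m) := by
    rw [← H588.Xg_row]; rfl
  have f0 := H588.Xg_psd (L + k) (L + k) F (2 * n) m
  have f1 := H588.Xg_psd (L + k) (L + k) F (2 * n + 1) m
  have g0 := H588.Xg_psd (L + k) (L + k) H (2 * n') m
  have g1 := H588.Xg_psd (L + k) (L + k) H (2 * n' + 1) m
  have hct := DU_ct hU (k + 1) k n' m
  set W := fm (U1 L) F k (k + 1) n m with hWd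
  have pW : W.PosSemidef := fm_psd ..
  have oW : (1 - W).PosSemidef := one_sub_mn fun j _ => one_sub_cj (H588.Xg_psd ..)
    (DU_ct U1_ct ..).2
  have oW1 : ((1 : ℝ) • (1 : Matrix (Ix (L + k)) (Ix (L + k)) ℝ) - W).PosSemidef := by
    rw [one_smul]; exact oW
  have dW : DgW L k m (fun x => rt L F (k + 1) n x) W := by
    rw [hWd]
    unfold fm
    rw [show k + 1 - k = 1 by omega]
    exact DgW.mnc (L := L) (F := F) (a := k) (k := k) (r := 1) (n := n) (m := m)
      (f := bs (U1 L) F k m) fun j _ => DgW.cj (fun x => U1_ct k x j)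
  -- the defect of the static slot
  have s1 : (phi (Xg (L + (k + 1)) (L + k) F n m)
      * cj (DU U (k + 1) k n' m) (Xg (L + (k + 1)) (L + k) H n' m)).trace
      ≤ (W * cj (DU U (k + 1) k n' m) (Xg (L + (k + 1)) (L + k) H n' m)).trace
        + dl (L + k) (L + k) F n m := by
    have e : phi (Xg (L + (k + 1)) (L + k) F n m)
        = delt (Xg (L + k) (L + k) F (2 * n) m) (Xg (L + k) (L + k) F (2 * n + 1) m) + W := by
      rw [eP, rF, delt]; abel
    have q := trace_mul_le_right (V := cj (DU U (k + 1) k n' m) (Xg (L + (k + 1)) (L + k) H n' m))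
      (W := 1) (delt_psd f0 f1) (one_sub_cj (H588.Xg_psd ..) hct.2)
    rw [Matrix.mul_one] at q
    rw [e, Matrix.add_mul, trace_add]
    have e2 : dl (L + k) (L + k) F n m
        = (delt (Xg (L + k) (L + k) F (2 * n) m) (Xg (L + k) (L + k) F (2 * n + 1) m)).trace := rfl
    rw [e2]
    linarith
  -- the moving slot
  have s2 := move_le g0 g1 (DU_ct hU k k (2 * n') m) (DU_ct hU k k (2 * n' + 1) m) hct
    zero_le_one pW oW1
  have t1 := vtermW (U := U) dW n'
  have t2 := dtermW (F := H) (U := U) (a := k) (j := n') zero_le_one pW oW1 dW hct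
  rw [← V_eq] at t1
  rw [← D_eq] at t2
  rw [← eQ, ← rH] at s2
  have e3 : (delt (Xg (L + k) (L + k) H (2 * n') m) (Xg (L + k) (L + k) H (2 * n' + 1) m)).trace
      = dl (L + k) (L + k) H n' m := rfl
  have e4 : (W * (DU U (k + 1) k n' m * phi (Xg (L + (k + 1)) (L + k) H n' m)
      * (DU U (k + 1) k n' m)ᵀ - fm U H k (k + 1) n' m)).trace
      = (W * cj (DU U (k + 1) k n' m) (Xg (L + (k + 1)) (L + k) H n' m)).trace
        - (W * fm U H k (k + 1) n' m).trace := by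
    rw [Matrix.mul_sub, trace_sub]; rfl
  rw [e4, e3] at s2
  have t4 : ((2 : ℝ) ^ k)⁻¹ * ∑ x ∈ iv k m, rt L F (k + 1) n x
        * (vV U k x n' * (vV U k x n')ᵀ).trace
      + ((2 : ℝ) ^ k)⁻¹ * ∑ x ∈ iv k m, (rt L H (k + 1) n' x + 1 * rt L F (k + 1) n x)
        * √((vD U k x n' * (vD U k x n')ᵀ).trace)
      ≤ vw U (fun x => rt L F (k + 1) n x + rt L H (k + 1) n' x) k k n' m := by
    unfold vw
    rw [← mul_add, ← sum_add_distrib]
    refine mul_le_mul_of_nonneg_left (sum_le_sum fun x _ => ?_) (by positivity)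
    have z1 : 0 ≤ (vV U k x n' * (vV U k x n')ᵀ).trace := (psd_mul_transpose _).trace_nonneg
    have z2 := mul_nonneg (rt_nonneg (L := L) H (k + 1) n' x) z1
    unfold vd
    nlinarith [z2]
  linarith

/-- the moving part of the defect of a node -/
def wf (U : ℕ → ℤ → ℤ → Matrix (Ix L) (Ix L) ℝ) (F H : ℤ → ℤ → ℝ) (k : ℕ) (n n' m : ℤ) : ℝ :=
  ((2 : ℝ) ^ (k + 1))⁻¹ * ∑ x ∈ iv (k + 1) m,
    (rt L F (k + 1) n x + rt L H (k + 1) n' x) * vd U k x n'

theorem wf_nonneg (k : ℕ) (n n' m : ℤ) : 0 ≤ wf U F H k n n' m :=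
  mul_nonneg (by positivity) (Finset.sum_nonneg fun _ _ =>
    mul_nonneg (add_nonneg (rt_nonneg ..) (rt_nonneg ..)) (vd_nonneg ..))

theorem wf_eq (k : ℕ) (n n' m : ℤ) : wf U F H k n n' m
    = (1 / 2) * vw U (fun x => rt L F (k + 1) n x + rt L H (k + 1) n' x) k (k + 1) n' m := by
  unfold wf vw
  rw [pow_succ, mul_inv]
  ring

/-- the defect of a node -/
def erW (U : ℕ → ℤ → ℤ → Matrix (Ix L) (Ix L) ℝ) (F H : ℤ → ℤ → ℝ) (k : ℕ)
    (n n' m : ℤ) : ℝ :=
  (7 * cd (L + (k + 1)) (L + k) F n m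
    + (1 / 2) * (dl (L + k) (L + k) F n (2 * m) + dl (L + k) (L + k) F n (2 * m + 1)))
  + (7 * cd (L + (k + 1)) (L + k) H n' m
    + (dl (L + k) (L + k) H n' (2 * m) + dl (L + k) (L + k) H n' (2 * m + 1)))
  + wf U F H k n n' m

theorem mid_ptW (hU : ∀ k x n, Ct (U k x n)) {k : ℕ} {n n' m : ℤ} :
    (fm (U1 L) F (k + 1) (k + 1) n m * fm U H (k + 1) (k + 1) n' m).trace
      + ((1 / 2) * mt U F H k n n' m - erW U F H k n n' m)
      ≤ (1 / 2) * ((fm (U1 L) F k (k + 1) n (2 * m) * fm U H k (k + 1) n' (2 * m)).trace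
        + (fm (U1 L) F k (k + 1) n (2 * m + 1) * fm U H k (k + 1) n' (2 * m + 1)).trace) := by
  have e0 : fm (U1 L) F (k + 1) (k + 1) n m = phi (Xs (L + (k + 1)) (L + k) F n m) := by
    unfold fm
    rw [Nat.sub_self, mn_zero]
    unfold bs
    rw [DU_one, cj_one]
    rfl
  have e1 : fm U H (k + 1) (k + 1) n' m
      = bd (DU U (k + 1) k n' (2 * m)) (DU U (k + 1) k n' (2 * m + 1))
        * phi (Xs (L + (k + 1)) (L + k) H n' m)
        * (bd (DU U (k + 1) k n' (2 * m)) (DU U (k + 1) k n' (2 * m + 1)))ᵀ := by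
    unfold fm
    rw [Nat.sub_self, mn_zero]
    rfl
  have hct : Ct (bd (DU U (k + 1) k n' (2 * m)) (DU U (k + 1) k n' (2 * m + 1))) :=
    DU_ct hU (k + 1) (k + 1) n' m
  have q := ysplitL (H588.Xs_psd (L + (k + 1)) (L + k) F n m)
    (H588.Xs_psd (L + (k + 1)) (L + k) H n' m) (rad_symm (m := Ix (L + k))) rad_sq
    (rad_bd (DU U (k + 1) k n' (2 * m)) (DU U (k + 1) k n' (2 * m + 1))).symm hct.1 hct.2
  rw [H588.Xs_split, H588.Xs_split, phi_bd (H588.Xg_psd ..) (H588.Xg_psd ..),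
    phi_bd (H588.Xg_psd ..) (H588.Xg_psd ..)] at q
  have e2 : bd (DU U (k + 1) k n' (2 * m)) (DU U (k + 1) k n' (2 * m + 1))
      * bd (phi (Xg (L + (k + 1)) (L + k) H n' (2 * m)))
        (phi (Xg (L + (k + 1)) (L + k) H n' (2 * m + 1)))
      * (bd (DU U (k + 1) k n' (2 * m)) (DU U (k + 1) k n' (2 * m + 1)))ᵀ
      = bd (cj (DU U (k + 1) k n' (2 * m)) (Xg (L + (k + 1)) (L + k) H n' (2 * m)))
        (cj (DU U (k + 1) k n' (2 * m + 1)) (Xg (L + (k + 1)) (L + k) H n' (2 * m + 1))) := by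
    rw [H433.bd_transpose, bd_mul, bd_mul]; rfl
  rw [e2, bd_mul, trace_bd] at q
  have h1 := mid_halfW (F := F) (H := H) (n := n) (n' := n') (m := 2 * m) (k := k) hU
  have h2 := mid_halfW (F := F) (H := H) (n := n) (n' := n') (m := 2 * m + 1) (k := k) hU
  have e3 : (phi (Xs (L + (k + 1)) (L + k) F n m)
      * (rad (Ix (L + k)) * (bd (DU U (k + 1) k n' (2 * m)) (DU U (k + 1) k n' (2 * m + 1))
        * phi (Xs (L + (k + 1)) (L + k) H n' m)
        * (bd (DU U (k + 1) k n' (2 * m)) (DU U (k + 1) k n' (2 * m + 1)))ᵀ)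
        * rad (Ix (L + k)))).trace = mt U F H k n n' m := rfl
  have e4 : (phi (Xs (L + (k + 1)) (L + k) F n m) * (rad (Ix (L + k))
      * phi (Xs (L + (k + 1)) (L + k) F n m) * rad (Ix (L + k)))).trace
      = cd (L + (k + 1)) (L + k) F n m := rfl
  have e5 : (phi (Xs (L + (k + 1)) (L + k) H n' m) * (rad (Ix (L + k))
      * phi (Xs (L + (k + 1)) (L + k) H n' m) * rad (Ix (L + k)))).trace
      = cd (L + (k + 1)) (L + k) H n' m := rfl
  rw [e3, e4, e5] at q
  rw [e0, e1]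
  unfold erW
  rw [wf_eq, vw_halves]
  have key : ∀ t : ℝ, t + 1 / 2 * mt U F H k n n' m
      - 7 * (cd (L + (k + 1)) (L + k) F n m + cd (L + (k + 1)) (L + k) H n' m) ≤
      1 / 2 * ((phi (Xg (L + (k + 1)) (L + k) F n (2 * m)) *
            cj (DU U (k + 1) k n' (2 * m)) (Xg (L + (k + 1)) (L + k) H n' (2 * m))).trace +
        (phi (Xg (L + (k + 1)) (L + k) F n (2 * m + 1)) *
            cj (DU U (k + 1) k n' (2 * m + 1)) (Xg (L + (k + 1)) (L + k) H n' (2 * m + 1))).trace) →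
      t + ((1 / 2) * mt U F H k n n' m - ((7 * cd (L + (k + 1)) (L + k) F n m
        + (1 / 2) * (dl (L + k) (L + k) F n (2 * m) + dl (L + k) (L + k) F n (2 * m + 1)))
      + (7 * cd (L + (k + 1)) (L + k) H n' m
        + (dl (L + k) (L + k) H n' (2 * m) + dl (L + k) (L + k) H n' (2 * m + 1)))
      + 1 / 2 * (vw U (fun x => rt L F (k + 1) n x + rt L H (k + 1) n' x) k k n' (2 * m)
        + vw U (fun x => rt L F (k + 1) n x + rt L H (k + 1) n' x) k k n' (2 * m + 1))))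
      ≤ (1 / 2) * ((fm (U1 L) F k (k + 1) n (2 * m) * fm U H k (k + 1) n' (2 * m)).trace
        + (fm (U1 L) F k (k + 1) n (2 * m + 1) * fm U H k (k + 1) n' (2 * m + 1)).trace) := by
    intro t ht
    linarith
  exact key _ q

end

end Vale.Agent.P141.H433
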